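import Vale.Agent.P146.H615.Ex

/-!
# P146: the tested row equation, algebraic part

`easm`: from the row identity (star) for a frozen set `K`, with the test direction
`u = kap (sqrt tau M, sqrt v)`, the linear Ghirlanda-Guerra input in the direction of `M`,
and the thermal rank one input (through `DV`), the tested equation
`ex (phi N^2) = kap^2 ex (phi Y) - x kap^3 ex (phi Y^2) + c3 + error`, `Y = tau |M|^2 + v`.
-/

open MeasureTheory

namespace Vale.Agent.P146.H615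

open Vale.Agent.P146.H646

set_option linter.unusedSectionVars false

variable {κ : Type*} [Fintype κ] [DecidableEq κ] {μ : κ → Measure ℝ}
  [∀ e, IsProbabilityMeasure (μ e)] {w Ψ Φ Q : (κ → ℝ) → ℝ} {K : Finset κ}
  {Ω : Type*} [MeasurableSpace Ω] {I : Type*}

lemma bm_sqrt (h : BM Ψ) : BM (fun z => √(Ψ z)) := by
  obtain ⟨C, hC⟩ := h.bd
  refine ⟨h.meas.sqrt, √C, fun z => ?_⟩
  rw [abs_of_nonneg (Real.sqrt_nonneg _)]
  exact Real.sqrt_le_sqrt ((le_abs_self _).trans (hC z))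

/-- the spin in the direction `M(z)`. -/
def ms (S : Finset I) (M : I → (κ → ℝ) → ℝ) (s : I → Ω → ℝ) (z : κ → ℝ) (ω : Ω) : ℝ :=
  ∑ j ∈ S, M j z * s j ω

/-- `|M|^2`. -/
def m2 (S : Finset I) (M : I → (κ → ℝ) → ℝ) (z : κ → ℝ) : ℝ := ∑ j ∈ S, M j z ^ 2

/-- the local quantity `Θ_j = <a s_j> - (1-x) <a s_0> <s_0 s_j>`. -/
def Th (av : (Ω → ℝ) → (κ → ℝ) → ℝ) (x : ℝ) (a s0 : Ω → ℝ) (s : I → Ω → ℝ) (j : I)
    (z : κ → ℝ) : ℝ :=
  av (fun ω => a ω * s j ω) z -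
    (1 - x) * (av (fun ω => a ω * s0 ω) z * av (fun ω => s0 ω * s j ω) z)

/-- the field quantity `Θ_f = <a> - (1-x) <a s_0> <s_0>`. -/
def Tf (av : (Ω → ℝ) → (κ → ℝ) → ℝ) (x : ℝ) (a s0 : Ω → ℝ) (z : κ → ℝ) : ℝ :=
  av a z - (1 - x) * (av (fun ω => a ω * s0 ω) z * av s0 z)

/-- `Y = tau |M|^2 + v`. -/
def Yf (S : Finset I) (M : I → (κ → ℝ) → ℝ) (τ v : ℝ) (z : κ → ℝ) : ℝ := τ * m2 S M z + v

/-- `<(M.s - |M|^2)^2>`. -/
def Vt (av : (Ω → ℝ) → (κ → ℝ) → ℝ) (S : Finset I) (M : I → (κ → ℝ) → ℝ) (s : I → Ω → ℝ)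
    (z : κ → ℝ) : ℝ := av (fun ω => (ms S M s z ω - m2 S M z) ^ 2) z

/-- `<(tau M.s + v)^2>`. -/
def Pt (av : (Ω → ℝ) → (κ → ℝ) → ℝ) (S : Finset I) (M : I → (κ → ℝ) → ℝ) (s : I → Ω → ℝ)
    (τ v : ℝ) (z : κ → ℝ) : ℝ := av (fun ω => (τ * ms S M s z ω + v) ^ 2) z

/-- `<s_0 (tau M.s + v)>`. -/
def Rt (av : (Ω → ℝ) → (κ → ℝ) → ℝ) (S : Finset I) (M : I → (κ → ℝ) → ℝ) (s0 : Ω → ℝ)
    (s : I → Ω → ℝ) (τ v : ℝ) (z : κ → ℝ) : ℝ :=
  av (fun ω => s0 ω * (τ * ms S M s z ω + v)) z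

variable {av : (Ω → ℝ) → (κ → ℝ) → ℝ} {S : Finset I} {M : I → (κ → ℝ) → ℝ} {s : I → Ω → ℝ}
  {s0 a : Ω → ℝ} {x τ v η : ℝ}

lemma m2_nonneg (z : κ → ℝ) : 0 ≤ m2 S M z := Finset.sum_nonneg fun _ _ => sq_nonneg _

lemma Y_nonneg (hτ : 0 ≤ τ) (hv : 0 ≤ v) (z : κ → ℝ) : 0 ≤ Yf S M τ v z :=
  add_nonneg (mul_nonneg hτ (m2_nonneg z)) hv

lemma bd_ms (hs : ∀ j, Bd (s j)) (z : κ → ℝ) : Bd (ms S M s z) :=
  Bd.sum S fun j _ => (hs j).cmul _

section pointwise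
variable (hA : Av av) (hs : ∀ j, Bd (s j))
include hA hs

lemma av_ms {b : Ω → ℝ} (hb : Bd b) (z : κ → ℝ) :
    av (fun ω => b ω * ms S M s z ω) z = ∑ j ∈ S, M j z * av (fun ω => b ω * s j ω) z := by
  have e : (fun ω => b ω * ms S M s z ω) = fun ω => ∑ j ∈ S, M j z * (b ω * s j ω) := by
    funext ω
    unfold ms
    rw [Finset.mul_sum]
    exact Finset.sum_congr rfl fun j _ => by ring
  rw [e, hA.sum S (fun j _ => (hb.mul (hs j)).cmul _)]
  exact Finset.sum_congr rfl fun j _ => hA.smul _ _ _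

lemma av_ms1 (z : κ → ℝ) : av (ms S M s z) z = ∑ j ∈ S, M j z * av (s j) z := by
  have h1 := av_ms (S := S) (M := M) hA hs (Bd.const 1) z
  simpa only [one_mul] using h1

lemma av_ms2 (z : κ → ℝ) : av (fun ω => ms S M s z ω ^ 2) z =
    ∑ j ∈ S, M j z * ∑ l ∈ S, M l z * av (fun ω => s j ω * s l ω) z := by
  have e : (fun ω => ms S M s z ω ^ 2) = fun ω => ∑ j ∈ S, M j z * (s j ω * ms S M s z ω) := by
    funext ω
    rw [sq]
    nth_rw 1 [ms]
    rw [Finset.sum_mul]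
    exact Finset.sum_congr rfl fun j _ => by ring
  rw [e, hA.sum S (fun j _ => ((hs j).mul (bd_ms hs z)).cmul _)]
  refine Finset.sum_congr rfl fun j _ => ?_
  rw [hA.smul, av_ms hA hs (hs j)]

lemma Vt_eq (z : κ → ℝ) : Vt av S M s z =
    av (fun ω => ms S M s z ω ^ 2) z - 2 * m2 S M z * av (ms S M s z) z + m2 S M z ^ 2 := by
  have hb := bd_ms (S := S) (M := M) hs z
  have e : (fun ω => (ms S M s z ω - m2 S M z) ^ 2) =
      fun ω => (ms S M s z ω ^ 2 + (-(2 * m2 S M z)) * ms S M s z ω) + m2 S M z ^ 2 := by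
    funext ω; ring
  unfold Vt
  rw [e, hA.add (hb.sq.add (hb.cmul _)) (Bd.const _), hA.add hb.sq (hb.cmul _), hA.smul,
    hA.const]
  ring

lemma Pt_eq (τ v : ℝ) (z : κ → ℝ) : Pt av S M s τ v z =
    Yf S M τ v z ^ 2 + 2 * Yf S M τ v z * (τ * (av (ms S M s z) z - m2 S M z)) +
      τ ^ 2 * Vt av S M s z := by
  have hb := bd_ms (S := S) (M := M) hs z
  have e : (fun ω => (τ * ms S M s z ω + v) ^ 2) =
      fun ω => (τ ^ 2 * ms S M s z ω ^ 2 + (2 * τ * v) * ms S M s z ω) + v ^ 2 := by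
    funext ω; ring
  unfold Pt
  rw [e, hA.add ((hb.sq.cmul _).add (hb.cmul _)) (Bd.const _),
    hA.add (hb.sq.cmul _) (hb.cmul _), hA.smul, hA.smul, hA.const, Vt_eq hA hs]
  unfold Yf
  ring

lemma Pt_le (τ v : ℝ) (z : κ → ℝ) : Pt av S M s τ v z ≤
    2 * Yf S M τ v z ^ 2 + 2 * (τ ^ 2 * Vt av S M s z) := by
  have hb := bd_ms (S := S) (M := M) hs z
  unfold Pt Vt
  have h1 : av (fun ω => (τ * ms S M s z ω + v) ^ 2) z ≤
      av (fun ω => (2 * Yf S M τ v z ^ 2) + (2 * τ ^ 2) * (ms S M s z ω - m2 S M z) ^ 2) z := by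
    refine hA.mono (((hb.cmul τ).add (Bd.const v)).sq)
      ((Bd.const _).add (((hb.sub (Bd.const _)).sq).cmul _)) (fun ω => ?_) z
    unfold Yf
    nlinarith [sq_nonneg ((τ * m2 S M z + v) - τ * (ms S M s z ω - m2 S M z))]
  rw [hA.add (Bd.const _) (((hb.sub (Bd.const _)).sq).cmul _), hA.const, hA.smul] at h1
  linarith

lemma Vt_nonneg (z : κ → ℝ) : 0 ≤ Vt av S M s z :=
  hA.nonneg ((bd_ms hs z).sub (Bd.const _)).sq (fun _ => sq_nonneg _) z

lemma Pt_nonneg (τ v : ℝ) (z : κ → ℝ) : 0 ≤ Pt av S M s τ v z :=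
  hA.nonneg (((bd_ms hs z).cmul τ).add (Bd.const _)).sq (fun _ => sq_nonneg _) z

/-- the amplitude is one up to `η`. -/
lemma abs_amp (ha : Bd a) (haη : ∀ ω, |a ω - 1| ≤ η) (τ v : ℝ) (hv : 0 ≤ v) (z : κ → ℝ) :
    |τ * (av (ms S M s z) z - av (fun ω => a ω * ms S M s z ω) z)| ≤
      η * (√(Pt av S M s τ v z) + v) := by
  have hb := bd_ms (S := S) (M := M) hs z
  have hb1 : Bd fun ω => a ω - 1 := ha.sub (Bd.const 1)
  have hb2 : Bd fun ω => τ * ms S M s z ω + v := (hb.cmul τ).add (Bd.const v)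
  have h1 := hA.abs_mul_le hb1 haη hb2 z
  have h2 := hA.abs_mul_le hb1 haη (Bd.const v) z
  have e1 : av (fun ω => (a ω - 1) * (τ * ms S M s z ω + v)) z =
      av (fun ω => (a ω - 1) * v) z -
        τ * (av (ms S M s z) z - av (fun ω => a ω * ms S M s z ω) z) := by
    have e : (fun ω => (a ω - 1) * (τ * ms S M s z ω + v)) =
        fun ω => ((a ω - 1) * v + (-τ) * ms S M s z ω) + τ * (a ω * ms S M s z ω) := by
      funext ω; ring
    rw [e, hA.add ((hb1.mul (Bd.const v)).add (hb.cmul _)) ((ha.mul hb).cmul _),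
      hA.add (hb1.mul (Bd.const v)) (hb.cmul _), hA.smul, hA.smul]
    ring
  have e2 : √(av (fun _ => v ^ 2) z) = v := by rw [hA.const, Real.sqrt_sq hv]
  rw [e2] at h2
  rw [e1] at h1
  unfold Pt
  rw [_root_.abs_le] at h1 h2 ⊢
  constructor <;> nlinarith [h1.1, h1.2, h2.1, h2.2]

lemma Rt_eq (hs0 : Bd s0) (τ v : ℝ) (z : κ → ℝ) : Rt av S M s0 s τ v z =
    Yf S M τ v z * av s0 z + τ * av (fun ω => s0 ω * (ms S M s z ω - m2 S M z)) z := by
  have hb := bd_ms (S := S) (M := M) hs z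
  unfold Rt Yf
  have e : (fun ω => s0 ω * (τ * ms S M s z ω + v)) =
      fun ω => (τ * m2 S M z + v) * s0 ω + τ * (s0 ω * (ms S M s z ω - m2 S M z)) := by
    funext ω; ring
  rw [e, hA.add (hs0.cmul _) ((hs0.mul (hb.sub (Bd.const _))).cmul _), hA.smul, hA.smul]

lemma Rt_eq' (hs0 : Bd s0) (τ v : ℝ) (z : κ → ℝ) : Rt av S M s0 s τ v z =
    τ * (∑ j ∈ S, M j z * av (fun ω => s0 ω * s j ω) z) + v * av s0 z := by
  have hb := bd_ms (S := S) (M := M) hs z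
  unfold Rt
  have e : (fun ω => s0 ω * (τ * ms S M s z ω + v)) =
      fun ω => τ * (s0 ω * ms S M s z ω) + v * s0 ω := by
    funext ω; ring
  rw [e, hA.add ((hs0.mul hb).cmul _) (hs0.cmul _), hA.smul, hA.smul, av_ms hA hs hs0]

lemma abs_Rt_le (hs0 : Bd s0) (hs1 : ∀ ω, |s0 ω| ≤ 1) (τ v : ℝ) (z : κ → ℝ) :
    |Rt av S M s0 s τ v z| ≤ √(Pt av S M s τ v z) := by
  have hb := bd_ms (S := S) (M := M) hs z
  have := hA.abs_mul_le hs0 hs1 ((hb.cmul τ).add (Bd.const v)) z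
  rwa [one_mul] at this

lemma abs_av0_le (hs0 : Bd s0) (hs1 : ∀ ω, |s0 ω| ≤ 1) (z : κ → ℝ) :
    |av (fun ω => s0 ω * (ms S M s z ω - m2 S M z)) z| ≤ √(Vt av S M s z) := by
  have hb := bd_ms (S := S) (M := M) hs z
  have := hA.abs_mul_le hs0 hs1 (hb.sub (Bd.const (m2 S M z))) z
  rwa [one_mul] at this

omit hs in
lemma abs_s0 (hs0 : Bd s0) (hs1 : ∀ ω, |s0 ω| ≤ 1) (ha : Bd a) (haη : ∀ ω, |a ω - 1| ≤ η)
    (hη : 0 ≤ η) (z : κ → ℝ) : |av s0 z - av (fun ω => a ω * s0 ω) z| ≤ η := by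
  have hb1 : Bd fun ω => a ω - 1 := ha.sub (Bd.const 1)
  have h1 := hA.abs_mul_le hb1 haη hs0 z
  have h2 : av (fun ω => s0 ω ^ 2) z ≤ 1 := by
    have := hA.mono hs0.sq (Bd.const 1) (fun ω => by
      have h3 := hs1 ω
      rw [_root_.abs_le] at h3
      nlinarith [h3.1, h3.2]) z
    rwa [hA.const] at this
  have h3 : √(av (fun ω => s0 ω ^ 2) z) ≤ 1 := Real.sqrt_le_one.2 h2
  have e : av (fun ω => (a ω - 1) * s0 ω) z = av (fun ω => a ω * s0 ω) z - av s0 z := by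
    have e : (fun ω => (a ω - 1) * s0 ω) = fun ω => a ω * s0 ω - s0 ω := by funext ω; ring
    rw [e, hA.sub (ha.mul hs0) hs0]
  rw [e, abs_sub_comm] at h1
  exact h1.trans (by nlinarith [Real.sqrt_nonneg (av (fun ω => s0 ω ^ 2) z)])

omit hs in
lemma abs_a1 (ha : Bd a) (haη : ∀ ω, |a ω - 1| ≤ η) (z : κ → ℝ) : |av a z - 1| ≤ η := by
  have hb1 : Bd fun ω => a ω - 1 := ha.sub (Bd.const 1)
  have h1 := hA.abs_mul_le hb1 haη (Bd.const 1) z
  have e : av (fun ω => (a ω - 1) * 1) z = av a z - 1 := by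
    have e : (fun ω => (a ω - 1) * 1) = fun ω => a ω - 1 := by funext ω; ring
    rw [e, hA.sub ha (Bd.const 1), hA.const]
  rw [e, hA.const] at h1
  simpa using h1

end pointwise

section bm
variable (hA : Av av) (hs : ∀ j, Bd (s j)) (hM : ∀ j, BM (M j))
include hA hs hM

lemma bm_m2 : BM (m2 S M) := BM.sum S fun j _ => bsq (hM j)

lemma bm_Y (τ v : ℝ) : BM (Yf S M τ v) := (bcm τ (bm_m2 (S := S) hA hs hM)).add (BM.const v)

lemma bm_avms {b : Ω → ℝ} (hb : Bd b) : BM (fun z => av (fun ω => b ω * ms S M s z ω) z) := by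
  have e : (fun z => av (fun ω => b ω * ms S M s z ω) z) =
      fun z => ∑ j ∈ S, M j z * av (fun ω => b ω * s j ω) z := by
    funext z; exact av_ms hA hs hb z
  rw [e]
  exact BM.sum S fun j _ => (hM j).mul (hA.bm (hb.mul (hs j)))

lemma bm_avms1 : BM (fun z => av (ms S M s z) z) := by
  have := bm_avms (S := S) hA hs hM (Bd.const 1)
  simpa only [one_mul] using this

lemma bm_avms2 : BM (fun z => av (fun ω => ms S M s z ω ^ 2) z) := by
  have e : (fun z => av (fun ω => ms S M s z ω ^ 2) z) =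
      fun z => ∑ j ∈ S, M j z * ∑ l ∈ S, M l z * av (fun ω => s j ω * s l ω) z := by
    funext z; exact av_ms2 hA hs z
  rw [e]
  exact BM.sum S fun j _ => (hM j).mul (BM.sum S fun l _ =>
    (hM l).mul (hA.bm ((hs j).mul (hs l))))

lemma bm_Vt : BM (Vt av S M s) := by
  have e : Vt av S M s = fun z => av (fun ω => ms S M s z ω ^ 2) z -
      2 * m2 S M z * av (ms S M s z) z + m2 S M z ^ 2 := by
    funext z; exact Vt_eq hA hs z
  rw [e]
  exact ((bm_avms2 hA hs hM).sub ((bcm 2 (bm_m2 hA hs hM)).mul (bm_avms1 hA hs hM))).add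
    (bsq (bm_m2 hA hs hM))

lemma bm_Pt (τ v : ℝ) : BM (Pt av S M s τ v) := by
  have e : Pt av S M s τ v = fun z => Yf S M τ v z ^ 2 +
      2 * Yf S M τ v z * (τ * (av (ms S M s z) z - m2 S M z)) + τ ^ 2 * Vt av S M s z := by
    funext z; exact Pt_eq hA hs τ v z
  rw [e]
  exact ((bsq (bm_Y hA hs hM τ v)).add ((bcm 2 (bm_Y hA hs hM τ v)).mul
    (bcm τ ((bm_avms1 hA hs hM).sub (bm_m2 hA hs hM))))).add (bcm _ (bm_Vt hA hs hM))

lemma bm_Rt (hs0 : Bd s0) (τ v : ℝ) : BM (Rt av S M s0 s τ v) := by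
  have e : Rt av S M s0 s τ v = fun z =>
      τ * (∑ j ∈ S, M j z * av (fun ω => s0 ω * s j ω) z) + v * av s0 z := by
    funext z; exact Rt_eq' hA hs hs0 τ v z
  rw [e]
  exact (bcm τ (BM.sum S fun j _ => (hM j).mul (hA.bm (hs0.mul (hs j))))).add
    (bcm v (hA.bm hs0))

lemma bm_Th (ha : Bd a) (hs0 : Bd s0) (x : ℝ) (j : I) : BM (Th av x a s0 s j) :=
  (hA.bm (ha.mul (hs j))).sub (bcm _ ((hA.bm (ha.mul hs0)).mul (hA.bm (hs0.mul (hs j)))))

omit hs hM in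
lemma bm_Tf (ha : Bd a) (hs0 : Bd s0) (x : ℝ) : BM (Tf av x a s0) :=
  (hA.bm ha).sub (bcm _ ((hA.bm (ha.mul hs0)).mul (hA.bm hs0)))

end bm

/-! ### the main algebra -/

section main
variable (hw : Wt μ w) (hA : Av av) (hs : ∀ j, Bd (s j)) (hM : ∀ j, BM (M j))
  (hMd : ∀ j, Dep K (M j))
include hw hA hs hM hMd

omit hs in
lemma dep_m2 : Dep K (m2 S M) := Dep.sum S fun j _ => Dep.sq (hMd j)

omit hs in
lemma dep_Y (τ v : ℝ) : Dep K (Yf S M τ v) :=
  Dep.add (Dep.mul (Dep.const τ) (dep_m2 (S := S) hw hA hM hMd)) (Dep.const v)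

/-- the average of `a M.s` against an `F`-measurable function. -/
lemma ex_aM (ha : Bd a) (hMc : ∀ j, ∀ g : (κ → ℝ) → ℝ, Dep K g → BM g →
      ex μ w (fun z => g z * av (fun ω => a ω * s j ω) z) = ex μ w (fun z => g z * M j z))
    {g : (κ → ℝ) → ℝ} (hg : Dep K g) (hgb : BM g) :
    ex μ w (fun z => g z * av (fun ω => a ω * ms S M s z ω) z) =
      ex μ w (fun z => g z * m2 S M z) := by
  have e1 : (fun z => g z * av (fun ω => a ω * ms S M s z ω) z) =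
      fun z => ∑ j ∈ S, (g z * M j z) * av (fun ω => a ω * s j ω) z := by
    funext z
    rw [av_ms hA hs ha, Finset.mul_sum]
    exact Finset.sum_congr rfl fun j _ => by ring
  have e2 : (fun z => g z * m2 S M z) = fun z => ∑ j ∈ S, (g z * M j z) * M j z := by
    funext z
    unfold m2
    rw [Finset.mul_sum]
    exact Finset.sum_congr rfl fun j _ => by ring
  rw [e1, e2, ex_sum hw S (fun j _ => (hgb.mul (hM j)).mul (hA.bm (ha.mul (hs j)))),
    ex_sum hw S (fun j _ => (hgb.mul (hM j)).mul (hM j))]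
  exact Finset.sum_congr rfl fun j _ => hMc j _ (Dep.mul hg (hMd j)) (hgb.mul (hM j))

/-- the diagonal term. -/
lemma stepP (ha : Bd a) (haη : ∀ ω, |a ω - 1| ≤ η) (hη : 0 ≤ η) (hτ : 0 ≤ τ) (hv : 0 ≤ v)
    (hMc : ∀ j, ∀ g : (κ → ℝ) → ℝ, Dep K g → BM g →
      ex μ w (fun z => g z * av (fun ω => a ω * s j ω) z) = ex μ w (fun z => g z * M j z))
    {φ : (κ → ℝ) → ℝ} (hφ : Dep K φ) (hφb : BM φ) (hφ0 : ∀ z, 0 ≤ φ z) :
    |ex μ w (fun z => φ z * Pt av S M s τ v z) - ex μ w (fun z => φ z * Yf S M τ v z ^ 2) -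
        τ ^ 2 * ex μ w (fun z => φ z * Vt av S M s z)| ≤
      2 * η * ex μ w (fun z => φ z * (Yf S M τ v z * (√(Pt av S M s τ v z) +
        Yf S M τ v z))) := by
  have bY := bm_Y (S := S) hA hs hM τ v
  have bP := bm_Pt (S := S) hA hs hM τ v
  have bV := bm_Vt (S := S) hA hs hM
  have b1 := bm_avms1 (S := S) hA hs hM
  have ba := bm_avms (S := S) hA hs hM ha
  have bm := bm_m2 (S := S) hA hs hM
  have e1 : (fun z => φ z * Pt av S M s τ v z) = fun z =>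
      (φ z * Yf S M τ v z ^ 2 + 2 * ((φ z * Yf S M τ v z) *
        (τ * (av (ms S M s z) z - m2 S M z)))) + τ ^ 2 * (φ z * Vt av S M s z) := by
    funext z; rw [Pt_eq hA hs]; ring
  have i1 : BM fun z => φ z * Yf S M τ v z := hφb.mul bY
  have i2 : BM fun z => τ * (av (ms S M s z) z - m2 S M z) := bcm τ (b1.sub bm)
  have e2 : ex μ w (fun z => (φ z * Yf S M τ v z) * (τ * (av (ms S M s z) z - m2 S M z))) =
      ex μ w (fun z => (φ z * Yf S M τ v z) *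
        (τ * (av (ms S M s z) z - av (fun ω => a ω * ms S M s z ω) z))) := by
    have h1 := ex_aM (S := S) hw hA hs hM hMd ha hMc
      (Dep.mul hφ (dep_Y (S := S) hw hA hM hMd τ v)) i1
    have f1 : (fun z => (φ z * Yf S M τ v z) * (τ * (av (ms S M s z) z - m2 S M z))) =
        fun z => τ * ((φ z * Yf S M τ v z) * av (ms S M s z) z) -
          τ * ((φ z * Yf S M τ v z) * m2 S M z) := by funext z; ring
    have f2 : (fun z => (φ z * Yf S M τ v z) *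
        (τ * (av (ms S M s z) z - av (fun ω => a ω * ms S M s z ω) z))) =
        fun z => τ * ((φ z * Yf S M τ v z) * av (ms S M s z) z) -
          τ * ((φ z * Yf S M τ v z) * av (fun ω => a ω * ms S M s z ω) z) := by funext z; ring
    rw [f1, f2, ex_sub hw (bcm τ (i1.mul b1)) (bcm τ (i1.mul bm)),
      ex_sub hw (bcm τ (i1.mul b1)) (bcm τ (i1.mul ba)), ex_cmul, ex_cmul, ex_cmul, h1]
  rw [e1, ex_add hw ((hφb.mul (bsq bY)).add (bcm 2 (i1.mul i2))) (bcm _ (hφb.mul bV)),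
    ex_add hw (hφb.mul (bsq bY)) (bcm 2 (i1.mul i2)), ex_cmul, ex_cmul, e2]
  have h3 : |ex μ w (fun z => (φ z * Yf S M τ v z) *
        (τ * (av (ms S M s z) z - av (fun ω => a ω * ms S M s z ω) z)))| ≤
      ex μ w (fun z => η * (φ z * (Yf S M τ v z * (√(Pt av S M s τ v z) + Yf S M τ v z)))) := by
    refine abs_ex_le hw (i1.mul (bcm τ (b1.sub ba)))
      (bcm η (hφb.mul (bY.mul ((bm_sqrt bP).add bY)))) fun z => ?_
    have hY := Y_nonneg (S := S) (M := M) hτ hv z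
    have h4 := abs_amp (S := S) (M := M) hA hs ha haη τ v hv z
    have h5 : v ≤ Yf S M τ v z := by
      unfold Yf
      have := mul_nonneg hτ (m2_nonneg (S := S) (M := M) z)
      linarith
    rw [abs_mul, abs_of_nonneg (mul_nonneg (hφ0 z) hY)]
    calc φ z * Yf S M τ v z * |τ * (av (ms S M s z) z - av (fun ω => a ω * ms S M s z ω) z)|
        ≤ φ z * Yf S M τ v z * (η * (√(Pt av S M s τ v z) + Yf S M τ v z)) :=
          mul_le_mul_of_nonneg_left (h4.trans (by gcongr)) (mul_nonneg (hφ0 z) hY)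
      _ = _ := by ring
  rw [ex_cmul] at h3
  have h6 : ∀ A B C : ℝ, A + 2 * B + C - A - C = 2 * B := fun A B C => by ring
  rw [h6, abs_mul, abs_two]
  linarith

/-- the off-diagonal term. -/
lemma stepR (ha : Bd a) (haη : ∀ ω, |a ω - 1| ≤ η) (hη : 0 ≤ η) (hτ : 0 ≤ τ) (hv : 0 ≤ v)
    (hs0 : Bd s0) (hs1 : ∀ ω, |s0 ω| ≤ 1)
    (hMc : ∀ j, ∀ g : (κ → ℝ) → ℝ, Dep K g → BM g →
      ex μ w (fun z => g z * av (fun ω => a ω * s j ω) z) = ex μ w (fun z => g z * M j z))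
    (hx0 : 0 ≤ x) (hx1 : x ≤ 1) {kp d0 d0f : ℝ}
    (hI2 : ∀ g : (κ → ℝ) → ℝ, Dep K g → BM g →
      |ex μ w (fun z => g z * ∑ j ∈ S, M j z * Th av x a s0 s j z) -
        kp * ex μ w (fun z => g z * m2 S M z)| ≤ d0 * √(ex μ w (fun z => g z ^ 2 * m2 S M z)))
    (hI2f : ∀ g : (κ → ℝ) → ℝ, Dep K g → BM g →
      |ex μ w (fun z => g z * Tf av x a s0 z) - kp * ex μ w g| ≤
        d0f * √(ex μ w (fun z => g z ^ 2)))
    {φ : (κ → ℝ) → ℝ} (hφ : Dep K φ) (hφb : BM φ) (hφ0 : ∀ z, 0 ≤ φ z) :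
    |(1 - x) * ex μ w (fun z => φ z * Rt av S M s0 s τ v z ^ 2) -
        (1 - kp) * ex μ w (fun z => φ z * Yf S M τ v z ^ 2)| ≤
      ex μ w (fun z => φ z * (η * (Yf S M τ v z * √(Pt av S M s τ v z)) +
        τ * (√(Pt av S M s τ v z) * √(Vt av S M s z)))) +
      (τ * (d0 * √(ex μ w (fun z => (φ z * Yf S M τ v z) ^ 2 * m2 S M z))) +
        v * (d0f * √(ex μ w (fun z => (φ z * Yf S M τ v z) ^ 2))) +
        v * (η * ex μ w (fun z => φ z * Yf S M τ v z))) := by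
  have bY := bm_Y (S := S) hA hs hM τ v
  have bP := bm_Pt (S := S) hA hs hM τ v
  have bV := bm_Vt (S := S) hA hs hM
  have b1 := bm_avms1 (S := S) hA hs hM
  have ba := bm_avms (S := S) hA hs hM ha
  have bm := bm_m2 (S := S) hA hs hM
  have bR := bm_Rt (S := S) hA hs hM hs0 τ v
  have bas0 : BM (av fun ω => a ω * s0 ω) := hA.bm (ha.mul hs0)
  have dφY := Dep.mul hφ (dep_Y (S := S) hw hA hM hMd τ v)
  have i1 : BM fun z => φ z * Yf S M τ v z := hφb.mul bY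
  have hY := Y_nonneg (S := S) (M := M) hτ hv
  have hx' : |1 - x| ≤ 1 := by rw [_root_.abs_le]; constructor <;> linarith
  -- the main part
  have A1 : (fun z => (1 - x) * ((φ z * Yf S M τ v z) * (Rt av S M s0 s τ v z *
      av (fun ω => a ω * s0 ω) z))) = fun z =>
      (τ * ((φ z * Yf S M τ v z) * av (fun ω => a ω * ms S M s z ω) z) -
        τ * ((φ z * Yf S M τ v z) * ∑ j ∈ S, M j z * Th av x a s0 s j z)) +
      (v * ((φ z * Yf S M τ v z) * av a z) - v * ((φ z * Yf S M τ v z) * Tf av x a s0 z)) := by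
    funext z
    have f1 : ∑ j ∈ S, M j z * Th av x a s0 s j z =
        av (fun ω => a ω * ms S M s z ω) z - (1 - x) * (av (fun ω => a ω * s0 ω) z *
          ∑ j ∈ S, M j z * av (fun ω => s0 ω * s j ω) z) := by
      rw [av_ms hA hs ha, Finset.mul_sum, Finset.mul_sum, ← Finset.sum_sub_distrib]
      exact Finset.sum_congr rfl fun j _ => by unfold Th; ring
    rw [f1, Rt_eq' hA hs hs0]
    unfold Tf
    ring
  have bTh : BM fun z => ∑ j ∈ S, M j z * Th av x a s0 s j z :=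
    BM.sum S fun j _ => (hM j).mul (bm_Th (M := M) hA hs hM ha hs0 x j)
  have bTf : BM (Tf av x a s0) := bm_Tf hA ha hs0 x
  have baa : BM (av a) := hA.bm ha
  have A2 : (1 - x) * ex μ w (fun z => (φ z * Yf S M τ v z) * (Rt av S M s0 s τ v z *
      av (fun ω => a ω * s0 ω) z)) =
      (τ * ex μ w (fun z => (φ z * Yf S M τ v z) * m2 S M z) -
        τ * ex μ w (fun z => (φ z * Yf S M τ v z) * ∑ j ∈ S, M j z * Th av x a s0 s j z)) +
      (v * ex μ w (fun z => (φ z * Yf S M τ v z) * av a z) -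
        v * ex μ w (fun z => (φ z * Yf S M τ v z) * Tf av x a s0 z)) := by
    rw [← ex_cmul, A1, ex_add hw ((bcm τ (i1.mul ba)).sub (bcm τ (i1.mul bTh)))
      ((bcm v (i1.mul baa)).sub (bcm v (i1.mul bTf))),
      ex_sub hw (bcm τ (i1.mul ba)) (bcm τ (i1.mul bTh)),
      ex_sub hw (bcm v (i1.mul baa)) (bcm v (i1.mul bTf)), ex_cmul, ex_cmul, ex_cmul, ex_cmul,
      ex_aM (S := S) hw hA hs hM hMd ha hMc dφY i1]
  have A3 := hI2 _ dφY i1
  have A4 := hI2f _ dφY i1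
  have A5 : |ex μ w (fun z => (φ z * Yf S M τ v z) * av a z) -
      ex μ w (fun z => φ z * Yf S M τ v z)| ≤ η * ex μ w (fun z => φ z * Yf S M τ v z) := by
    rw [← ex_sub hw (i1.mul baa) i1, ← ex_cmul]
    refine abs_ex_le hw ((i1.mul baa).sub i1) (bcm η i1) fun z => ?_
    have h1 := abs_a1 hA ha haη z
    have e : φ z * Yf S M τ v z * av a z - φ z * Yf S M τ v z =
        (φ z * Yf S M τ v z) * (av a z - 1) := by ring
    rw [e, abs_mul, abs_of_nonneg (mul_nonneg (hφ0 z) (hY z)), mul_comm]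
    exact mul_le_mul_of_nonneg_right h1 (mul_nonneg (hφ0 z) (hY z))
  have A6 : ex μ w (fun z => φ z * Yf S M τ v z ^ 2) =
      τ * ex μ w (fun z => (φ z * Yf S M τ v z) * m2 S M z) +
        v * ex μ w (fun z => φ z * Yf S M τ v z) := by
    rw [← ex_cmul, ← ex_cmul, ← ex_add hw (bcm τ (i1.mul bm)) (bcm v i1)]
    congr 1
    funext z
    have : Yf S M τ v z = τ * m2 S M z + v := rfl
    calc φ z * Yf S M τ v z ^ 2 = (φ z * Yf S M τ v z) * Yf S M τ v z := by ring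
      _ = (φ z * Yf S M τ v z) * (τ * m2 S M z + v) := by rw [this]
      _ = _ := by ring
  have A7 : |(1 - x) * ex μ w (fun z => (φ z * Yf S M τ v z) * (Rt av S M s0 s τ v z *
      av (fun ω => a ω * s0 ω) z)) - (1 - kp) * ex μ w (fun z => φ z * Yf S M τ v z ^ 2)| ≤
      τ * (d0 * √(ex μ w (fun z => (φ z * Yf S M τ v z) ^ 2 * m2 S M z))) +
        v * (d0f * √(ex μ w (fun z => (φ z * Yf S M τ v z) ^ 2))) +
        v * (η * ex μ w (fun z => φ z * Yf S M τ v z)) := by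
    rw [A2, A6]
    rw [_root_.abs_le] at A3 A4 A5 ⊢
    constructor <;> nlinarith [A3.1, A3.2, A4.1, A4.2, A5.1, A5.2,
      mul_le_mul_of_nonneg_left A3.1 hτ, mul_le_mul_of_nonneg_left A3.2 hτ,
      mul_le_mul_of_nonneg_left A4.1 hv, mul_le_mul_of_nonneg_left A4.2 hv,
      mul_le_mul_of_nonneg_left A5.1 hv, mul_le_mul_of_nonneg_left A5.2 hv]
  -- the replacement
  have B1 : |ex μ w (fun z => φ z * Rt av S M s0 s τ v z ^ 2) -
      ex μ w (fun z => (φ z * Yf S M τ v z) * (Rt av S M s0 s τ v z *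
        av (fun ω => a ω * s0 ω) z))| ≤
      ex μ w (fun z => φ z * (η * (Yf S M τ v z * √(Pt av S M s τ v z)) +
        τ * (√(Pt av S M s τ v z) * √(Vt av S M s z)))) := by
    rw [← ex_sub hw (hφb.mul (bsq bR)) (i1.mul (bR.mul bas0))]
    refine abs_ex_le hw ((hφb.mul (bsq bR)).sub (i1.mul (bR.mul bas0)))
      (hφb.mul ((bcm η (bY.mul (bm_sqrt bP))).add
        (bcm τ ((bm_sqrt bP).mul (bm_sqrt bV))))) fun z => ?_
    have r1 := Rt_eq (S := S) (M := M) hA hs hs0 τ v z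
    have r2 := abs_Rt_le (S := S) (M := M) hA hs hs0 hs1 τ v z
    have r3 := abs_av0_le (S := S) (M := M) hA hs hs0 hs1 z
    have r4 := abs_s0 hA hs0 hs1 ha haη hη z
    set Rz := Rt av S M s0 s τ v z
    set Yz := Yf S M τ v z with hYz
    set uz := av (fun ω => s0 ω * (ms S M s z ω - m2 S M z)) z
    set a0 := av (fun ω => a ω * s0 ω) z
    have e : φ z * Rz ^ 2 - φ z * Yz * (Rz * a0) =
        φ z * (Yz * Rz * (av s0 z - a0) + τ * (Rz * uz)) := by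
      have : Rz ^ 2 = Rz * (Yz * av s0 z + τ * uz) := by
        rw [sq]; nth_rw 2 [r1]
      rw [this]; ring
    rw [e, abs_mul, abs_of_nonneg (hφ0 z)]
    refine mul_le_mul_of_nonneg_left ?_ (hφ0 z)
    refine (abs_add_le _ _).trans (add_le_add ?_ ?_)
    · rw [abs_mul, abs_mul, abs_of_nonneg (hY z)]
      have q1 : |Rz| * |av s0 z - a0| ≤ √(Pt av S M s τ v z) * η :=
        mul_le_mul r2 r4 (abs_nonneg _) (Real.sqrt_nonneg _)
      calc Yz * |Rz| * |av s0 z - a0| = Yz * (|Rz| * |av s0 z - a0|) := by ring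
        _ ≤ Yz * (√(Pt av S M s τ v z) * η) := mul_le_mul_of_nonneg_left q1 (hY z)
        _ = _ := by ring
    · rw [abs_mul, abs_of_nonneg hτ, abs_mul]
      exact mul_le_mul_of_nonneg_left
        (mul_le_mul r2 r3 (abs_nonneg _) (Real.sqrt_nonneg _)) hτ
  set E1 := ex μ w (fun z => φ z * Rt av S M s0 s τ v z ^ 2)
  set E2 := ex μ w (fun z => (φ z * Yf S M τ v z) * (Rt av S M s0 s τ v z *
        av (fun ω => a ω * s0 ω) z))
  set E3 := ex μ w (fun z => φ z * Yf S M τ v z ^ 2)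
  calc |(1 - x) * E1 - (1 - kp) * E3| = |(1 - x) * (E1 - E2) + ((1 - x) * E2 - (1 - kp) * E3)| := by
        congr 1; ring
    _ ≤ |(1 - x) * (E1 - E2)| + |(1 - x) * E2 - (1 - kp) * E3| := abs_add_le _ _
    _ ≤ _ := by
        refine add_le_add ?_ A7
        rw [abs_mul]
        calc |1 - x| * |E1 - E2| ≤ 1 * |E1 - E2| :=
              mul_le_mul_of_nonneg_right hx' (abs_nonneg _)
          _ ≤ _ := by rw [one_mul]; exact B1

omit hw hA hs hM hMd in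
omit [Fintype κ] [DecidableEq κ] [∀ e, IsProbabilityMeasure (μ e)] in
lemma comb {EP ER EY2 DV EYP EPV EY η x kp v τ D1 D2 G : ℝ}
    (P1 : |EP - EY2 - DV| ≤ 2 * η * (EYP + EY2))
    (R1 : |(1 - x) * ER - (1 - kp) * EY2| ≤ η * EYP + τ * EPV + (D1 + D2 + v * (η * EY)))
    (hη : 0 ≤ η) (hDV : 0 ≤ DV) (hEY20 : 0 ≤ EY2)
    (p1 : EP ≤ 2 * EY2 + 2 * DV) (p2 : EYP ≤ (EY2 + EP) / 2) (p3 : τ * EPV ≤ G)
    (p4 : v * EY ≤ EY2) :
    |(EP - (1 - x) * ER) - kp * EY2| ≤ 8 * η * (EY2 + DV) + DV + G + D1 + D2 := by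
  have q1 : η * EYP ≤ η * ((EY2 + (2 * EY2 + 2 * DV)) / 2) :=
    mul_le_mul_of_nonneg_left (by linarith) hη
  have q2 : v * (η * EY) ≤ η * EY2 := by
    have := mul_le_mul_of_nonneg_left p4 hη
    linarith
  have q3 : 0 ≤ η * EY2 := mul_nonneg hη hEY20
  have q4 : 0 ≤ η * DV := mul_nonneg hη hDV
  have e : (EP - (1 - x) * ER) - kp * EY2 =
      (EP - EY2 - DV) + DV - ((1 - x) * ER - (1 - kp) * EY2) := by ring
  rw [e]
  generalize EP - EY2 - DV = A at P1 ⊢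
  generalize (1 - x) * ER - (1 - kp) * EY2 = B at R1 ⊢
  have t1 := abs_sub (A + DV) B
  have t2 := abs_add_le A DV
  rw [abs_of_nonneg hDV] at t2
  have t3 : 2 * η * (EYP + EY2) = 2 * (η * EYP) + 2 * (η * EY2) := by ring
  have t4 : 8 * η * (EY2 + DV) = 8 * (η * EY2) + 8 * (η * DV) := by ring
  have t5 : η * ((EY2 + (2 * EY2 + 2 * DV)) / 2) = 3 / 2 * (η * EY2) + η * DV := by ring
  rw [t3] at P1
  rw [t5] at q1
  rw [t4]
  linarith

/-- **The tested row equation, algebraic part.** -/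
theorem easm (ha : Bd a) (haη : ∀ ω, |a ω - 1| ≤ η) (hη : 0 ≤ η) (hτ : 0 ≤ τ) (hv : 0 ≤ v)
    (hs0 : Bd s0) (hs1 : ∀ ω, |s0 ω| ≤ 1)
    (hMc : ∀ j, ∀ g : (κ → ℝ) → ℝ, Dep K g → BM g →
      ex μ w (fun z => g z * av (fun ω => a ω * s j ω) z) = ex μ w (fun z => g z * M j z))
    (hx0 : 0 ≤ x) (hx1 : x ≤ 1) {kp d0 d0f : ℝ} (hk : 0 ≤ kp)
    (hI2 : ∀ g : (κ → ℝ) → ℝ, Dep K g → BM g →
      |ex μ w (fun z => g z * ∑ j ∈ S, M j z * Th av x a s0 s j z) -
        kp * ex μ w (fun z => g z * m2 S M z)| ≤ d0 * √(ex μ w (fun z => g z ^ 2 * m2 S M z)))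
    (hI2f : ∀ g : (κ → ℝ) → ℝ, Dep K g → BM g →
      |ex μ w (fun z => g z * Tf av x a s0 z) - kp * ex μ w g| ≤
        d0f * √(ex μ w (fun z => g z ^ 2)))
    {φ : (κ → ℝ) → ℝ} (hφ : Dep K φ) (hφb : BM φ) (hφ0 : ∀ z, 0 ≤ φ z) {nN c3 EY2 DV : ℝ}
    (hEY2 : EY2 = ex μ w (fun z => φ z * Yf S M τ v z ^ 2))
    (hDV : DV = τ ^ 2 * ex μ w (fun z => φ z * Vt av S M s z))
    (hstar : nN = 2 * kp * (τ * ex μ w (fun z => φ z * ∑ j ∈ S, M j z * Th av x a s0 s j z) +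
        v * ex μ w (fun z => φ z * Tf av x a s0 z)) -
      kp ^ 2 * ex μ w (fun z => φ z * Yf S M τ v z) -
      x * kp ^ 2 * (ex μ w (fun z => φ z * Pt av S M s τ v z) -
        (1 - x) * ex μ w (fun z => φ z * Rt av S M s0 s τ v z ^ 2)) + c3) :
    |nN - (kp ^ 2 * ex μ w (fun z => φ z * Yf S M τ v z) - x * kp ^ 3 * EY2 + c3)| ≤
      2 * kp * (τ * (d0 * √(ex μ w (fun z => φ z ^ 2 * m2 S M z))) +
        v * (d0f * √(ex μ w (fun z => φ z ^ 2)))) +
      x * kp ^ 2 * (8 * η * (EY2 + DV) + DV + √(2 * EY2 + 2 * DV) * √DV +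
        τ * (d0 * √(ex μ w (fun z => (φ z * Yf S M τ v z) ^ 2 * m2 S M z))) +
        v * (d0f * √(ex μ w (fun z => (φ z * Yf S M τ v z) ^ 2)))) := by
  have bY := bm_Y (S := S) hA hs hM τ v
  have bP := bm_Pt (S := S) hA hs hM τ v
  have bV := bm_Vt (S := S) hA hs hM
  have bm := bm_m2 (S := S) hA hs hM
  have hY := Y_nonneg (S := S) (M := M) hτ hv
  have i1 : BM fun z => φ z * Yf S M τ v z := hφb.mul bY
  have P1 := stepP (S := S) hw hA hs hM hMd ha haη hη hτ hv hMc hφ hφb hφ0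
  have R1 := stepR (S := S) hw hA hs hM hMd ha haη hη hτ hv hs0 hs1 hMc hx0 hx1 hI2 hI2f hφ
    hφb hφ0
  have G1 := hI2 φ hφ hφb
  have G2 := hI2f φ hφ hφb
  rw [← hEY2, ← hDV] at P1
  rw [← hEY2] at R1
  set EP := ex μ w (fun z => φ z * Pt av S M s τ v z) with hEP
  set EYP := ex μ w (fun z => φ z * (Yf S M τ v z * √(Pt av S M s τ v z))) with hEYP
  set EPV := ex μ w (fun z => φ z * (√(Pt av S M s τ v z) * √(Vt av S M s z))) with hEPV
  set ER := ex μ w (fun z => φ z * Rt av S M s0 s τ v z ^ 2)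
  set EY := ex μ w (fun z => φ z * Yf S M τ v z)
  set ED := √(ex μ w (fun z => (φ z * Yf S M τ v z) ^ 2 * m2 S M z))
  set EDf := √(ex μ w (fun z => (φ z * Yf S M τ v z) ^ 2))
  have hEY20 : 0 ≤ EY2 := by
    rw [hEY2]; exact ex_nonneg hw fun z => mul_nonneg (hφ0 z) (sq_nonneg _)
  have hDV0 : 0 ≤ DV := by
    rw [hDV]
    exact mul_nonneg (sq_nonneg _) (ex_nonneg hw fun z => mul_nonneg (hφ0 z)
      (Vt_nonneg (S := S) (M := M) hA hs z))
  -- P
  have p1 : EP ≤ 2 * EY2 + 2 * DV := by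
    rw [hEP, hEY2, hDV, ← ex_cmul, ← ex_cmul, ← ex_cmul, ← ex_add hw
      (bcm 2 (hφb.mul (bsq bY))) (bcm 2 (bcm _ (hφb.mul bV)))]
    refine ex_mono hw (hφb.mul bP) ((bcm 2 (hφb.mul (bsq bY))).add
      (bcm 2 (bcm _ (hφb.mul bV)))) fun z => ?_
    have := mul_le_mul_of_nonneg_left (Pt_le (S := S) (M := M) hA hs τ v z) (hφ0 z)
    linarith
  have p2 : EYP ≤ (EY2 + EP) / 2 := by
    have e : (EY2 + EP) / 2 = ex μ w (fun z => (1 / 2) * (φ z * Yf S M τ v z ^ 2 +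
        φ z * Pt av S M s τ v z)) := by
      rw [ex_cmul, ex_add hw (hφb.mul (bsq bY)) (hφb.mul bP), ← hEY2]
      ring
    rw [e, hEYP]
    refine ex_mono hw (hφb.mul (bY.mul (bm_sqrt bP)))
      (bcm _ ((hφb.mul (bsq bY)).add (hφb.mul bP))) fun z => ?_
    have h0 := Pt_nonneg (S := S) (M := M) hA hs τ v z
    have h1 := Real.sq_sqrt h0
    have h2 : Yf S M τ v z * √(Pt av S M s τ v z) ≤ (1 / 2) * (Yf S M τ v z ^ 2 +
        Pt av S M s τ v z) := by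
      nlinarith [sq_nonneg (Yf S M τ v z - √(Pt av S M s τ v z))]
    have h3 := mul_le_mul_of_nonneg_left h2 (hφ0 z)
    linarith
  have p3 : τ * EPV ≤ √(2 * EY2 + 2 * DV) * √DV := by
    have h1 := abs_ex_wmul_le hw hφb hφ0 (bm_sqrt bP) (bcm τ (bm_sqrt bV))
    have e1 : (fun z => φ z * (√(Pt av S M s τ v z) * (τ * √(Vt av S M s z)))) =
        fun z => τ * (φ z * (√(Pt av S M s τ v z) * √(Vt av S M s z))) := by funext z; ring
    have e2 : (fun z => φ z * √(Pt av S M s τ v z) ^ 2) = fun z => φ z * Pt av S M s τ v z := by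
      funext z; rw [Real.sq_sqrt (Pt_nonneg hA hs τ v z)]
    have e3 : (fun z => φ z * (τ * √(Vt av S M s z)) ^ 2) =
        fun z => τ ^ 2 * (φ z * Vt av S M s z) := by
      funext z; rw [mul_pow, Real.sq_sqrt (Vt_nonneg hA hs z)]; ring
    rw [e1, e2, e3, ex_cmul, ex_cmul, ← hDV] at h1
    refine (le_abs_self _).trans (h1.trans ?_)
    exact mul_le_mul_of_nonneg_right (Real.sqrt_le_sqrt p1) (Real.sqrt_nonneg _)
  have p4 : v * EY ≤ EY2 := by
    rw [hEY2, ← ex_cmul]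
    refine ex_mono hw (bcm v i1) (hφb.mul (bsq bY)) fun z => ?_
    have h1 : v ≤ Yf S M τ v z := by
      unfold Yf
      have := mul_nonneg hτ (m2_nonneg (S := S) (M := M) z)
      linarith
    nlinarith [mul_nonneg (mul_nonneg (hφ0 z) (hY z)) (sub_nonneg.2 h1)]
  have e4 : ex μ w (fun z => φ z * (Yf S M τ v z * (√(Pt av S M s τ v z) + Yf S M τ v z))) =
      EYP + EY2 := by
    rw [hEYP, hEY2, ← ex_add hw (hφb.mul (bY.mul (bm_sqrt bP))) (hφb.mul (bsq bY))]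
    congr 1; funext z; ring
  have e5 : ex μ w (fun z => φ z * (η * (Yf S M τ v z * √(Pt av S M s τ v z)) +
      τ * (√(Pt av S M s τ v z) * √(Vt av S M s z)))) = η * EYP + τ * EPV := by
    rw [hEYP, hEPV, ← ex_cmul, ← ex_cmul, ← ex_add hw
      (bcm η (hφb.mul (bY.mul (bm_sqrt bP)))) (bcm τ (hφb.mul ((bm_sqrt bP).mul (bm_sqrt bV))))]
    congr 1; funext z; ring
  rw [e4] at P1
  rw [e5] at R1
  -- combination
  have X1 : |(EP - (1 - x) * ER) - kp * EY2| ≤ 8 * η * (EY2 + DV) + DV +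
      √(2 * EY2 + 2 * DV) * √DV + τ * (d0 * ED) + v * (d0f * EDf) :=
    comb P1 R1 hη hDV0 hEY20 p1 p2 p3 p4
  have hxk : 0 ≤ x * kp ^ 2 := mul_nonneg hx0 (sq_nonneg _)
  have X2 := mul_le_mul_of_nonneg_left X1 hxk
  have hfin : nN - (kp ^ 2 * EY - x * kp ^ 3 * EY2 + c3) =
      2 * kp * (τ * (ex μ w (fun z => φ z * ∑ j ∈ S, M j z * Th av x a s0 s j z) -
        kp * ex μ w (fun z => φ z * m2 S M z)) +
        v * (ex μ w (fun z => φ z * Tf av x a s0 z) - kp * ex μ w φ)) -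
      x * kp ^ 2 * ((EP - (1 - x) * ER) - kp * EY2) := by
    have e6 : EY = τ * ex μ w (fun z => φ z * m2 S M z) + v * ex μ w φ := by
      rw [← ex_cmul, ← ex_cmul, ← ex_add hw (bcm τ (hφb.mul bm)) (bcm v hφb)]
      have e7 : (fun z => φ z * Yf S M τ v z) = fun z => τ * (φ z * m2 S M z) + v * φ z := by
        funext z
        have : Yf S M τ v z = τ * m2 S M z + v := rfl
        rw [this]; ring
      rw [← e7]
    rw [hstar, e6]
    ring
  rw [hfin]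
  refine (abs_sub _ _).trans (add_le_add ?_ ?_)
  · rw [abs_mul, abs_of_nonneg (by positivity : (0 : ℝ) ≤ 2 * kp)]
    refine mul_le_mul_of_nonneg_left ((abs_add_le _ _).trans (add_le_add ?_ ?_)) (by positivity)
    · rw [abs_mul, abs_of_nonneg hτ]
      exact mul_le_mul_of_nonneg_left G1 hτ
    · rw [abs_mul, abs_of_nonneg hv]
      exact mul_le_mul_of_nonneg_left G2 hv
  · rw [abs_mul, abs_of_nonneg hxk]
    exact X2

end main

end Vale.Agent.P146.H615
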