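import Vale.Agent.P146.H646.Blk

/-!
# P146: calculus of the mean `ex` of H646/Blk, and of a thermal average

Linearity, monotonicity, Cauchy-Schwarz for `ex`; the structure `Av` of a thermal average
(values: functions on the disorder space).
-/

open MeasureTheory

namespace Vale.Agent.P146.H615

open Vale.Agent.P146.H646

set_option linter.unusedSectionVars false

variable {κ : Type*} [Fintype κ] [DecidableEq κ] {μ : κ → Measure ℝ}
  [∀ e, IsProbabilityMeasure (μ e)] {w Ψ Φ Q : (κ → ℝ) → ℝ} {K : Finset κ}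

lemma bsq (h : BM Ψ) : BM (fun z => Ψ z ^ 2) := by
  simpa only [_root_.sq] using h.mul h

lemma bcm (c : ℝ) (h : BM Ψ) : BM (fun z => c * Ψ z) := (BM.const c).mul h

section ex
variable (hw : Wt μ w)
include hw

theorem ex_add (h : BM Ψ) (h' : BM Φ) :
    ex μ w (fun z => Ψ z + Φ z) = ex μ w Ψ + ex μ w Φ := by
  unfold ex
  rw [← add_div, ← integral_add (hw.int_mul h) (hw.int_mul h')]
  congr 1
  refine integral_congr_ae (Filter.Eventually.of_forall fun z => ?_)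
  show w z * (Ψ z + Φ z) = _
  ring

omit hw in
theorem ex_cmul (c : ℝ) (Ψ : (κ → ℝ) → ℝ) : ex μ w (fun z => c * Ψ z) = c * ex μ w Ψ := by
  unfold ex
  rw [← mul_div_assoc, ← integral_const_mul]
  congr 1
  refine integral_congr_ae (Filter.Eventually.of_forall fun z => ?_)
  show w z * (c * Ψ z) = c * (w z * Ψ z)
  ring

theorem ex_sub (h : BM Ψ) (h' : BM Φ) :
    ex μ w (fun z => Ψ z - Φ z) = ex μ w Ψ - ex μ w Φ := by
  have h1 := ex_add hw h (bcm (-1) h')
  rw [ex_cmul] at h1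
  have e : (fun z => Ψ z - Φ z) = fun z => Ψ z + -1 * Φ z := by funext z; ring
  rw [e, h1]; ring

theorem ex_const (c : ℝ) : ex μ w (fun _ : κ → ℝ => c) = c := by
  unfold ex
  have ht := hw.tot_pos
  rw [integral_mul_const]
  field_simp

theorem ex_sum {ι : Type*} (s : Finset ι) {f : ι → (κ → ℝ) → ℝ} (h : ∀ i ∈ s, BM (f i)) :
    ex μ w (fun z => ∑ i ∈ s, f i z) = ∑ i ∈ s, ex μ w (f i) := by
  classical
  induction s using Finset.induction_on with
  | empty => simpa using ex_const hw (0 : ℝ)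
  | insert a s ha ih =>
    simp only [Finset.sum_insert ha]
    rw [ex_add hw (h a (Finset.mem_insert_self _ _))
      (BM.sum s fun i hi => h i (Finset.mem_insert_of_mem hi)),
      ih fun i hi => h i (Finset.mem_insert_of_mem hi)]

theorem ex_mono (h : BM Ψ) (h' : BM Φ) (hle : ∀ z, Ψ z ≤ Φ z) : ex μ w Ψ ≤ ex μ w Φ := by
  unfold ex
  refine div_le_div_of_nonneg_right ?_ hw.tot_pos.le
  exact integral_mono (hw.int_mul h) (hw.int_mul h') fun z =>
    mul_le_mul_of_nonneg_left (hle z) (hw.pos z).le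

theorem ex_nonneg (hle : ∀ z, 0 ≤ Ψ z) : 0 ≤ ex μ w Ψ := by
  unfold ex
  exact div_nonneg (integral_nonneg fun z => mul_nonneg (hw.pos z).le (hle z)) hw.tot_pos.le

theorem abs_ex_le (h : BM Ψ) (h' : BM Φ) (hle : ∀ z, |Ψ z| ≤ Φ z) : |ex μ w Ψ| ≤ ex μ w Φ := by
  rw [abs_le]
  constructor
  · have h1 := ex_mono hw (bcm (-1) h') h (fun z => by
      have := (abs_le.1 (hle z)).1; linarith)
    rw [ex_cmul] at h1; linarith
  · exact ex_mono hw h h' fun z => (abs_le.1 (hle z)).2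

/-- Cauchy-Schwarz. -/
theorem ex_mul_sq_le (h : BM Ψ) (h' : BM Φ) :
    ex μ w (fun z => Ψ z * Φ z) ^ 2 ≤ ex μ w (fun z => Ψ z ^ 2) * ex μ w (fun z => Φ z ^ 2) := by
  have key : ∀ t : ℝ, 0 ≤ ex μ w (fun z => Φ z ^ 2) * (t * t) +
      (2 * ex μ w (fun z => Ψ z * Φ z)) * t + ex μ w (fun z => Ψ z ^ 2) := by
    intro t
    have h1 : 0 ≤ ex μ w (fun z => (Ψ z + t * Φ z) ^ 2) := ex_nonneg hw fun z => sq_nonneg _
    have e : (fun z => (Ψ z + t * Φ z) ^ 2) =
        fun z => (Ψ z ^ 2 + (2 * t) * (Ψ z * Φ z)) + (t * t) * Φ z ^ 2 := by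
      funext z; ring
    rw [e, ex_add hw ((bsq h).add (bcm _ (h.mul h'))) (bcm _ (bsq h')),
      ex_add hw (bsq h) (bcm _ (h.mul h')), ex_cmul, ex_cmul] at h1
    linarith
  have h2 := discrim_le_zero key
  unfold discrim at h2
  nlinarith

theorem abs_ex_mul_le (h : BM Ψ) (h' : BM Φ) :
    |ex μ w (fun z => Ψ z * Φ z)| ≤
      √(ex μ w (fun z => Ψ z ^ 2)) * √(ex μ w (fun z => Φ z ^ 2)) := by
  rw [← Real.sqrt_mul (ex_nonneg hw fun z => sq_nonneg _)]
  exact Real.abs_le_sqrt (ex_mul_sq_le hw h h')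

/-- weighted Cauchy-Schwarz. -/
theorem abs_ex_wmul_le {g : (κ → ℝ) → ℝ} (hg : BM g) (hg0 : ∀ z, 0 ≤ g z) (h : BM Ψ)
    (h' : BM Φ) : |ex μ w (fun z => g z * (Ψ z * Φ z))| ≤
      √(ex μ w (fun z => g z * Ψ z ^ 2)) * √(ex μ w (fun z => g z * Φ z ^ 2)) := by
  have hs : BM (fun z => √(g z)) := by
    obtain ⟨C, hC⟩ := hg.bd
    refine ⟨hg.meas.sqrt, √C, fun z => ?_⟩
    rw [abs_of_nonneg (Real.sqrt_nonneg _)]
    exact Real.sqrt_le_sqrt ((le_abs_self _).trans (hC z))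
  have h1 := abs_ex_mul_le hw (hs.mul h) (hs.mul h')
  have e1 : (fun z => √(g z) * Ψ z * (√(g z) * Φ z)) = fun z => g z * (Ψ z * Φ z) := by
    funext z
    have := Real.mul_self_sqrt (hg0 z)
    calc √(g z) * Ψ z * (√(g z) * Φ z) = √(g z) * √(g z) * (Ψ z * Φ z) := by ring
      _ = _ := by rw [this]
  have e2 : ∀ f : (κ → ℝ) → ℝ, (fun z => (√(g z) * f z) ^ 2) = fun z => g z * f z ^ 2 := by
    intro f
    funext z
    rw [mul_pow, Real.sq_sqrt (hg0 z)]
  rw [e1, e2, e2] at h1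
  exact h1

/-- a factor depending on `K` only, against the conditional mean. -/
theorem ex_mul_cx (hK : Dep K Q) (hQ : BM Q) (h : BM Ψ) :
    ex μ w (fun z => Q z * Ψ z) = ex μ w (fun z => Q z * cx μ K w Ψ z) :=
  (ex_cx hw hK hQ h).symm

end ex

/-! ### dependence -/

lemma Dep.const (c : ℝ) : Dep K (fun _ : κ → ℝ => c) := fun _ _ => rfl

lemma Dep.mul (h : Dep K Ψ) (h' : Dep K Φ) : Dep K (fun z => Ψ z * Φ z) := by
  intro z z'; simp only [h z z', h' z z']

lemma Dep.add (h : Dep K Ψ) (h' : Dep K Φ) : Dep K (fun z => Ψ z + Φ z) := by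
  intro z z'; simp only [h z z', h' z z']

lemma Dep.sum {ι : Type*} (s : Finset ι) {f : ι → (κ → ℝ) → ℝ} (h : ∀ i ∈ s, Dep K (f i)) :
    Dep K (fun z => ∑ i ∈ s, f i z) := by
  intro z z'
  exact Finset.sum_congr rfl fun i hi => h i hi z z'

lemma Dep.sq (h : Dep K Ψ) : Dep K (fun z => Ψ z ^ 2) := by
  intro z z'; simp only [h z z']

lemma Dep.comp (g : ℝ → ℝ) (h : Dep K Ψ) : Dep K (fun z => g (Ψ z)) := by
  intro z z'; simp only [h z z']

/-! ### thermal averages -/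

/-- bounded measurable functions on the thermal space. -/
def Bd {Ω : Type*} [MeasurableSpace Ω] (h : Ω → ℝ) : Prop :=
  Measurable h ∧ ∃ C : ℝ, 0 ≤ C ∧ ∀ w, |h w| ≤ C

/-- a thermal average. -/
structure Av {Ω : Type*} [MeasurableSpace Ω] (av : (Ω → ℝ) → (κ → ℝ) → ℝ) : Prop where
  one : ∀ z, av (fun _ => 1) z = 1
  add : ∀ {h g : Ω → ℝ}, Bd h → Bd g → ∀ z, av (fun ω => h ω + g ω) z = av h z + av g z
  smul : ∀ (c : ℝ) (h : Ω → ℝ) (z : κ → ℝ), av (fun ω => c * h ω) z = c * av h z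
  mono : ∀ {h g : Ω → ℝ}, Bd h → Bd g → (∀ ω, h ω ≤ g ω) → ∀ z, av h z ≤ av g z
  bm : ∀ {h : Ω → ℝ}, Bd h → BM (av h)

variable {Ω : Type*} [MeasurableSpace Ω] {h g : Ω → ℝ}

namespace Bd

lemma const (c : ℝ) : Bd (fun _ : Ω => c) := ⟨measurable_const, |c|, abs_nonneg c, fun _ => le_rfl⟩

lemma mul (hh : Bd h) (hg : Bd g) : Bd fun ω => h ω * g ω := by
  obtain ⟨C, hC0, hC⟩ := hh.2
  obtain ⟨C', hC0', hC'⟩ := hg.2
  refine ⟨hh.1.mul hg.1, C * C', by positivity, fun ω => ?_⟩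
  rw [abs_mul]
  exact mul_le_mul (hC ω) (hC' ω) (abs_nonneg _) hC0

lemma add (hh : Bd h) (hg : Bd g) : Bd fun ω => h ω + g ω := by
  obtain ⟨C, hC0, hC⟩ := hh.2
  obtain ⟨C', hC0', hC'⟩ := hg.2
  exact ⟨hh.1.add hg.1, C + C', by positivity, fun ω =>
    (abs_add_le _ _).trans (add_le_add (hC ω) (hC' ω))⟩

lemma cmul (c : ℝ) (hh : Bd h) : Bd fun ω => c * h ω := (Bd.const c).mul hh

lemma sub (hh : Bd h) (hg : Bd g) : Bd fun ω => h ω - g ω := by
  have := hh.add (hg.cmul (-1))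
  simpa only [neg_mul, one_mul, ← sub_eq_add_neg] using this

lemma sq (hh : Bd h) : Bd fun ω => h ω ^ 2 := by simpa only [_root_.sq] using hh.mul hh

lemma abs (hh : Bd h) : Bd fun ω => |h ω| := by
  obtain ⟨C, hC0, hC⟩ := hh.2
  refine ⟨(continuous_abs.measurable.comp hh.1 : Measurable fun ω => |h ω|), C, hC0, fun ω => ?_⟩
  rw [abs_abs]; exact hC ω

lemma sum {ι : Type*} (s : Finset ι) {f : ι → Ω → ℝ} (hf : ∀ i ∈ s, Bd (f i)) :
    Bd fun ω => ∑ i ∈ s, f i ω := by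
  classical
  induction s using Finset.induction_on with
  | empty => simpa using Bd.const (Ω := Ω) 0
  | insert a s ha ih =>
    simp only [Finset.sum_insert ha]
    exact (hf a (Finset.mem_insert_self _ _)).add
      (ih fun i hi => hf i (Finset.mem_insert_of_mem hi))

end Bd

namespace Av

variable {av : (Ω → ℝ) → (κ → ℝ) → ℝ} (hA : Av av)
include hA

lemma const (c : ℝ) (z : κ → ℝ) : av (fun _ => c) z = c := by
  have h1 := hA.smul c (fun _ => 1) z
  rw [hA.one] at h1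
  simpa using h1

lemma sub (hh : Bd h) (hg : Bd g) (z : κ → ℝ) : av (fun ω => h ω - g ω) z = av h z - av g z := by
  have h1 := hA.add hh (hg.cmul (-1)) z
  rw [hA.smul] at h1
  have e : (fun ω => h ω - g ω) = fun ω => h ω + -1 * g ω := by funext ω; ring
  rw [e, h1]; ring

lemma sum {ι : Type*} (s : Finset ι) {f : ι → Ω → ℝ} (hf : ∀ i ∈ s, Bd (f i)) (z : κ → ℝ) :
    av (fun ω => ∑ i ∈ s, f i ω) z = ∑ i ∈ s, av (f i) z := by
  classical
  induction s using Finset.induction_on with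
  | empty => simpa using hA.const 0 z
  | insert a s ha ih =>
    simp only [Finset.sum_insert ha]
    rw [hA.add (hf a (Finset.mem_insert_self _ _))
      (Bd.sum s fun i hi => hf i (Finset.mem_insert_of_mem hi)),
      ih fun i hi => hf i (Finset.mem_insert_of_mem hi)]

lemma nonneg (hh : Bd h) (h0 : ∀ ω, 0 ≤ h ω) (z : κ → ℝ) : 0 ≤ av h z := by
  have h1 := hA.mono (Bd.const 0) hh h0 z
  rwa [hA.const] at h1

/-- Jensen. -/
lemma sq_le (hh : Bd h) (z : κ → ℝ) : av h z ^ 2 ≤ av (fun ω => h ω ^ 2) z := by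
  set c := av h z with hc
  have h1 : 0 ≤ av (fun ω => (h ω ^ 2 + (-(2 * c)) * h ω) + c ^ 2) z := by
    refine hA.nonneg ((hh.sq.add (hh.cmul _)).add (Bd.const _)) (fun ω => ?_) z
    nlinarith [sq_nonneg (h ω - c)]
  rw [hA.add (hh.sq.add (hh.cmul _)) (Bd.const _), hA.add hh.sq (hh.cmul _), hA.smul,
    hA.const, ← hc] at h1
  nlinarith

lemma abs_le (hh : Bd h) (z : κ → ℝ) : |av h z| ≤ √(av (fun ω => h ω ^ 2) z) :=
  Real.abs_le_sqrt (hA.sq_le hh z)

lemma abs_le_abs (hh : Bd h) (z : κ → ℝ) : |av h z| ≤ av (fun ω => |h ω|) z := by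
  rw [_root_.abs_le]
  constructor
  · have h1 := hA.mono (hh.abs.cmul (-1)) hh (fun ω => by
      have := neg_abs_le (h ω); linarith) z
    rw [hA.smul] at h1; linarith
  · exact hA.mono hh hh.abs (fun ω => le_abs_self _) z

/-- Cauchy-Schwarz with a bounded multiplier. -/
lemma abs_mul_le {b : Ω → ℝ} (hb : Bd b) {c : ℝ} (hbc : ∀ ω, |b ω| ≤ c) (hh : Bd h)
    (z : κ → ℝ) : |av (fun ω => b ω * h ω) z| ≤ c * √(av (fun ω => h ω ^ 2) z) := by
  have hc : 0 ≤ c ∨ IsEmpty Ω := by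
    by_cases hΩ : Nonempty Ω
    · obtain ⟨ω⟩ := hΩ
      exact Or.inl ((abs_nonneg _).trans (hbc ω))
    · exact Or.inr (not_nonempty_iff.1 hΩ)
  rcases hc with hc | hc
  · have h1 := hA.abs_le_abs (hb.mul hh) z
    have h2 : av (fun ω => |b ω * h ω|) z ≤ av (fun ω => c * |h ω|) z := by
      refine hA.mono (hb.mul hh).abs (hh.abs.cmul c) (fun ω => ?_) z
      rw [abs_mul]
      exact mul_le_mul_of_nonneg_right (hbc ω) (abs_nonneg _)
    rw [hA.smul] at h2
    have h3 := hA.abs_le hh.abs z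
    have h4 : (fun ω => |h ω| ^ 2) = fun ω => h ω ^ 2 := by funext ω; rw [sq_abs]
    rw [h4, abs_of_nonneg (hA.nonneg hh.abs (fun ω => abs_nonneg _) z)] at h3
    exact (h1.trans h2).trans (mul_le_mul_of_nonneg_left h3 hc)
  · exfalso
    have h1 : (fun _ : Ω => (1 : ℝ)) = fun _ => 0 := by funext ω; exact (hc.false ω).elim
    have h2 := hA.one z
    rw [h1, hA.const] at h2
    exact zero_ne_one h2

end Av

end Vale.Agent.P146.H615
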