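import Vale.Agent.P146.H615.ErSk
import Vale.Agent.P146.H516.Ap2
import Vale.Agent.P146.H470.LowA0
import Vale.Agent.P146.H418.Par
import Vale.Agent.P146.H75.KUp

/-!
# P146: the numbers of one point, with their sizes

* `rk_typ`, `inc_typ`, `rb_typ`: the numbers of `H320.Typ` from the second moment at the end of the
  window;
* `NW`: the window `KW` in logarithmic form, `nw_ev`;
* `ApN`: the a priori numbers at the shares `1 - T`, `u`, `apn_ev`;
* `PtN`: all the numbers of a typical point, `ptn_typ`.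
-/

open MeasureTheory ProbabilityTheory Filter Set

namespace Vale.Agent.P146.H615

open Vale.Agent.P157.Lv hiding Dep
open Vale.Agent.P146.H425 Vale.Agent.P146.H646
open Vale.Agent.P146.H325 hiding cb cf
open Vale.Agent.P146.H196 Vale.Agent.P146.H347 Vale.Agent.P146.H475 Vale.Agent.P146.H418
  Vale.Agent.P146.H412 Vale.Agent.P146.H320 Vale.Agent.P146.H529 Vale.Agent.P146.H470
  Vale.Agent.P146.H516

set_option linter.unusedSectionVars false

/-! ### the numbers of a typical point from the second moment -/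

section typ

variable {L : Law} {t u t1 u1 dt du N M T G : ℝ} {m : ℕ}

lemma exCC_nonneg (hA : Adm L) (S : Finset (Fin L.n)) (t u : ℝ) :
    0 ≤ L.ex' t u (CC L S t u) :=
  ex_nonneg (wtL hA.lam0 hA.η0 t u) fun z => CC_nonneg hA.lam0 hA.η0 S t u z

lemma ff_le_CC (hA : Adm L) (S : Finset (Fin L.n)) (t u : ℝ) :
    L.ff S t u ≤ L.n * √(L.ex' t u (CC L S t u)) := by
  have hn' : (0 : ℝ) < L.n := by exact_mod_cast hA.n0
  have h1 := mom_Q0 hA.lam0 hA.η0 hA.n0 S t u 1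
  have h2 := ex_le_sqrt (wtL hA.lam0 hA.η0 t u) (bm_Q0 hA.lam0 hA.η0 S t u)
  have h3 : √(L.ex' t u (fun z => L.Q0 S t u z ^ 2)) ≤ √(L.ex' t u (CC L S t u)) := by
    refine Real.sqrt_le_sqrt ?_
    simpa using h1
  have e : L.ff S t u = L.n * L.ex' t u (L.Q0 S t u) := by
    have e1 : L.Q0 S t u = fun z => (1 / (L.n : ℝ)) *
        ∑ i ∈ S, L.cx' S t u (fun w => H325.sp w.2 i) z ^ 2 := by
      funext z
      unfold Law.Q0
      ring
    rw [e1]
    unfold Law.ff Law.ex'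
    rw [ex_cmul, ← mul_assoc, mul_one_div_cancel hn'.ne', one_mul]
  rw [e]
  exact mul_le_mul_of_nonneg_left (h2.trans h3) hn'.le

lemma exQ_le_CC (hA : Adm L) (S : Finset (Fin L.n)) (t u : ℝ) :
    L.ex' t u (L.Q S t u) ≤ (1 + L.η) ^ 2 * √(L.ex' t u (CC L S t u)) := by
  have hη := hA.η0
  have h1 := mom_Q hA.lam0 hA.η0 hA.n0 S t u 1
  have h2 := ex_le_sqrt (wtL hA.lam0 hA.η0 t u) (bm_Q hA.lam0 hA.η0 S t u)
  have h3 : √(L.ex' t u (fun z => L.Q S t u z ^ 2)) ≤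
      (1 + L.η) ^ 2 * √(L.ex' t u (CC L S t u)) := by
    have e : (1 + L.η) ^ 2 * √(L.ex' t u (CC L S t u)) =
        √((1 + L.η) ^ 4 * L.ex' t u (CC L S t u)) := by
      rw [Real.sqrt_mul (by positivity), show (1 + L.η) ^ 4 = ((1 + L.η) ^ 2) ^ 2 by ring,
        Real.sqrt_sq (by positivity)]
    rw [e]
    refine Real.sqrt_le_sqrt ?_
    simpa using h1
  exact h2.trans h3

lemma pp_le_CC (hA : Adm L) (S : Finset (Fin L.n)) (t u : ℝ) :
    L.pp S t u ≤ (L.n : ℝ) ^ 2 / 2 * L.ex' t u (CC L S t u) := by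
  have hn' : (0 : ℝ) < L.n := by exact_mod_cast hA.n0
  have h := H643.CC_eq_rr (S := S) (t := t) (u := u) hA.lam0 hA.η0 hA.n0
  have e : H643.CC L S t u = L.ex' t u (CC L S t u) := rfl
  rw [e] at h
  rw [h]
  unfold Law.rr
  have h1 : (0 : ℝ) ≤ S.card := Nat.cast_nonneg _
  have e2 : (L.n : ℝ) ^ 2 / 2 * ((S.card : ℝ) / (L.n : ℝ) ^ 2 + 2 * L.pp S t u / (L.n : ℝ) ^ 2) =
      S.card / 2 + L.pp S t u := by
    field_simp
  rw [e2]
  linarith

/-- the rank one number of the spins -/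
theorem rk_typ (hA : Adm L) (hx : 0 < L.x) (hdu : 0 < du) (hN : 0 ≤ N)
    (h : Typ L (H418.cb t) (H418.cf L.vp u) t1 u1 dt du N M m {true} {true})
    (hG : L.ex' t1 u1 (CC L Finset.univ t1 u1) ≤ G ^ 2) (hG0 : 0 ≤ G) {S : Finset (Fin L.n)}
    (hS : S = Sn L.n m ∨ S = Sn L.n (m - 1)) :
    L.rk S t u ≤ N * G / (L.x ^ 2 * L.vp * du * L.n) := by
  have hn' : (0 : ℝ) < L.n := by exact_mod_cast hA.n0
  have hv := hA.vp0
  have h1 := h.rk S hS
  have h2 := (ff_le_CC hA Finset.univ t1 u1).trans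
    (mul_le_mul_of_nonneg_left (sqrt_le_num hG0 hG) hn'.le)
  have h3 := h1.trans (mul_le_mul_of_nonneg_left h2 hN)
  have e : L.rk S t u = rkL L (H418.cb t) (H418.cf L.vp u) S (Kset S {true} {true}) /
      (L.n : ℝ) ^ 2 := rfl
  rw [e, div_le_div_iff₀ (by positivity) (by positivity)]
  calc rkL L (H418.cb t) (H418.cf L.vp u) S (Kset S {true} {true}) *
        (L.x ^ 2 * L.vp * du * L.n)
      = L.x ^ 2 * L.vp * du * rkL L (H418.cb t) (H418.cf L.vp u) S (Kset S {true} {true}) *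
        L.n := by ring
    _ ≤ N * (L.n * G) * L.n := mul_le_mul_of_nonneg_right h3 hn'.le
    _ = N * G * (L.n : ℝ) ^ 2 := by ring

/-- the increments -/
theorem inc_typ (hA : Adm L) (hN : 0 ≤ N) (hM : 0 < M)
    (h : Typ L (H418.cb t) (H418.cf L.vp u) t1 u1 dt du N M m {true} {true})
    (hG : L.ex' t1 u1 (CC L Finset.univ t1 u1) ≤ G ^ 2) (hG0 : 0 ≤ G) {i0 : Fin L.n}
    (hi : i0.1 + m = L.n) :
    incL L (H418.cb t) (H418.cf L.vp u) (Sn L.n m) (Kset (Sn L.n m) {true} {true})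
      (Kset (insert i0 (Sn L.n m)) {true} {true}) ≤ N * (L.n * ((1 + L.η) ^ 2 * G)) / M := by
  refine (h.inc i0 hi).trans (div_le_div_of_nonneg_right ?_ hM.le)
  refine mul_le_mul_of_nonneg_left (mul_le_mul_of_nonneg_left ?_ (Nat.cast_nonneg _)) hN
  exact (exQ_le_CC hA Finset.univ t1 u1).trans
    (mul_le_mul_of_nonneg_left (sqrt_le_num hG0 hG) (sq_nonneg _))

/-- the rank one number of the pairs -/
theorem rb_typ (hA : Adm L) (hx : 0 < L.x) (hdt : 0 < dt) (hN : 0 ≤ N)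
    (h : Typ L (H418.cb t) (H418.cf L.vp u) t1 u1 dt du N M m {true} {true})
    (hG : L.ex' t1 u1 (CC L Finset.univ t1 u1) ≤ G ^ 2) {S : Finset (Fin L.n)}
    (hS : S = Sn L.n m ∨ S = Sn L.n (m - 1)) :
    rbL L (H418.cb t) (H418.cf L.vp u) S (Kset S {true} {true}) / (L.n : ℝ) ^ 4 ≤
      N * G ^ 2 / (2 * (L.x ^ 2 * L.b ^ 2 * dt * L.n)) := by
  have hn' : (0 : ℝ) < L.n := by exact_mod_cast hA.n0
  have hb := hA.b0
  have h1 := h.rb S hS
  have h2 := (pp_le_CC hA Finset.univ t1 u1).trans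
    (mul_le_mul_of_nonneg_left hG (show 0 ≤ (L.n : ℝ) ^ 2 / 2 by positivity))
  have h3 := h1.trans (mul_le_mul_of_nonneg_left h2 hN)
  rw [div_le_div_iff₀ (by positivity) (by positivity)]
  have h4 := mul_le_mul_of_nonneg_right h3 (show 0 ≤ 2 * (L.n : ℝ) ^ 2 by positivity)
  have e1 : L.x ^ 2 * (L.b ^ 2 / L.n) * dt *
      rbL L (H418.cb t) (H418.cf L.vp u) S (Kset S {true} {true}) * (2 * (L.n : ℝ) ^ 2) =
      rbL L (H418.cb t) (H418.cf L.vp u) S (Kset S {true} {true}) *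
        (2 * (L.x ^ 2 * L.b ^ 2 * dt * L.n)) := by
    field_simp
  rw [e1] at h4
  refine h4.trans (le_of_eq ?_)
  ring

end typ

/-! ### the window -/

/-- The window with its logarithmic environment. -/
structure NW (a0 b₁ q A b : ℝ) (n : ℕ) (y V al s lam η : ℝ) : Prop where
  kw : KW a0 b₁ q A b n y V al s lam η
  env : Env a0 b₁ (24 * q) q (10 * |Real.log b| + 10 * |Real.log A| + 100000) n y V
  q0 : 0 < q
  b0 : 0 < b
  A1 : 1 ≤ A
  a0' : a0 ≤ 1 / 6
  b1 : 100 * q < b₁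

theorem nw_ev {a0 b₁ q A b : ℝ} (hq : 0 < q) (hb : 0 < b) (hA : 1 ≤ A) (ha0 : a0 ≤ 1 / 6)
    (hb₁ : 100 * q < b₁) :
    ∀ᶠ n : ℕ in atTop, ∀ y V al s lam η : ℝ, KW a0 b₁ q A b n y V al s lam η →
      NW a0 b₁ q A b n y V al s lam η := by
  filter_upwards [env_ev (a0 := a0) (b₁ := b₁) (d := 24 * q)
    (10 * |Real.log b| + 10 * |Real.log A| + 100000) hq hA] with n hn
  intro y V al s lam η h
  exact ⟨h, hn y V h.yl h.yu h.Vl h.Vu, hq, hb, hA, ha0, hb₁⟩

section window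

variable {a0 b₁ q A b : ℝ} {n : ℕ} {y V al s lam η : ℝ}

/-- all the facts in logarithmic form -/
lemma NW.facts (h : NW a0 b₁ q A b n y V al s lam η) :
    0 < q * Real.log n ∧ 100000 ≤ q / 100 * Real.log n ∧ Real.log b ≤ q / 1000 * Real.log n ∧
      -Real.log b ≤ q / 1000 * Real.log n ∧ 0 ≤ Real.log A ∧ Real.log A ≤ q / 1000 * Real.log n ∧
      (-(1 / 6) + 1000 * q) * Real.log n - q / 100 * Real.log n ≤ Real.log y ∧
      Real.log y ≤ -(100 * q) * Real.log n + q / 100 * Real.log n ∧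
      -(24 * q) * Real.log n + 3 * Real.log y - q / 100 * Real.log n ≤ Real.log V ∧
      Real.log V ≤ -(24 * q) * Real.log n + 3 * Real.log y + q / 100 * Real.log n ∧
      2 * Real.log s ≤ -(80 * q) * Real.log n + Real.log V ∧
      Real.log η ≤ -(2000 * q) * Real.log n ∧
      q * Real.log n ≤ Real.log y + Real.log lam + Real.log η ∧
      Real.log lam ≤ -(3800 * q) * Real.log n + 2 * Real.log y + 2 * Real.log s + Real.log n := by
  have e := h.env
  have hn := e.n0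
  have hy := e.y0
  have hV := e.V0
  have hL := e.L1
  have hb := h.b0
  have hc := e.cst
  have k1 := abs_nonneg (Real.log b)
  have k2 := abs_nonneg (Real.log A)
  have k3 := le_abs_self (Real.log b)
  have k4 := neg_abs_le (Real.log b)
  have k5 := le_abs_self (Real.log A)
  have k6 := Real.log_nonneg h.A1
  have m1 : a0 * Real.log n ≤ 1 / 6 * Real.log n :=
    mul_le_mul_of_nonneg_right h.a0' (by linarith)
  have m2 : 100 * q * Real.log n ≤ b₁ * Real.log n :=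
    mul_le_mul_of_nonneg_right h.b1.le (by linarith)
  have yl := e.yl
  have yu := e.yu
  have w := env2_of (q := q) (k := 80) (j := 2000) (p := 3800) hn hy hV h.kw.s0 h.kw.s2 h.kw.η0
    h.kw.η1 h.kw.l0 h.kw.ll h.kw.gg
  refine ⟨e.qL, by linarith, by linarith, by linarith, k6, by linarith, by linarith, by linarith,
    e.Vl, e.Vu, w.sV, w.ηu, w.ly, w.lu⟩

lemma NW.al_abs (h : NW a0 b₁ q A b n y V al s lam η) : |al| ≤ (n : ℝ) ^ (25 * q) * y ^ 2 := by
  obtain ⟨f1, f2, f3, f4, f5, f6, f7, f8, f9, f10, f11, f12, f13, f14⟩ := h.facts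
  have hn := h.env.n0
  have hy := h.env.y0
  have hV := h.env.V0
  have hb := h.b0
  have h4 := h.kw.sg.abs_le h.kw.n1.le hb hy.le h.kw.ap hV
  have c1 := log_c 4 (by norm_num)
  refine h4.trans ?_
  refine le_of_log (by positivity) (by positivity) ?_
  simp (disch := positivity) only [Real.log_div, Real.log_mul, Real.log_rpow, Real.log_pow]
  push_cast
  linarith

lemma NW.al_small (h : NW a0 b₁ q A b n y V al s lam η) : |al| ≤ 1 / 1000 := by
  obtain ⟨f1, f2, f3, f4, f5, f6, f7, f8, f9, f10, f11, f12, f13, f14⟩ := h.facts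
  have hn := h.env.n0
  have hy := h.env.y0
  have c1 := log_c 1000 (by norm_num)
  refine h.al_abs.trans ?_
  refine le_of_log (by positivity) (by positivity) ?_
  simp (disch := positivity) only [Real.log_div, Real.log_mul, Real.log_rpow, Real.log_pow,
    Real.log_one]
  push_cast
  linarith

/-- the elementary sizes -/
lemma NW.bd (h : NW a0 b₁ q A b n y V al s lam η) :
    y ≤ 1 / 1000 ∧ V ≤ 1 / 1000 ∧ η ≤ 1 / 1000 ∧ s ^ 2 ≤ V / 1000 ∧ 1 ≤ lam * η ∧ 1 ≤ lam ∧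
      1000 * (y ^ 2 * b ^ 2) ≤ 1 ∧ (n : ℝ) ^ (-(1 / 6) + 999 * q) ≤ y := by
  obtain ⟨f1, f2, f3, f4, f5, f6, f7, f8, f9, f10, f11, f12, f13, f14⟩ := h.facts
  have hn := h.env.n0
  have hy := h.env.y0
  have hV := h.env.V0
  have hb := h.b0
  have hs := h.kw.s0
  have hη := h.kw.η0
  have hl := h.kw.l0
  have c1 := log_c 1000 (by norm_num)
  have hη1 : η ≤ 1 / 1000 := by
    refine le_of_log (by positivity) (by positivity) ?_
    simp (disch := positivity) only [Real.log_div, Real.log_one]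
    linarith
  have hle : 1 ≤ lam * η := by
    refine le_of_log (by positivity) (by positivity) ?_
    simp (disch := positivity) only [Real.log_mul, Real.log_one]
    linarith
  refine ⟨?_, ?_, hη1, ?_, hle, ?_, ?_, ?_⟩
  · refine le_of_log (by positivity) (by positivity) ?_
    simp (disch := positivity) only [Real.log_div, Real.log_one]
    linarith
  · refine le_of_log (by positivity) (by positivity) ?_
    simp (disch := positivity) only [Real.log_div, Real.log_one]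
    linarith
  · refine le_of_log (by positivity) (by positivity) ?_
    simp (disch := positivity) only [Real.log_div, Real.log_pow]
    push_cast
    linarith
  · nlinarith
  · refine le_of_log (by positivity) (by positivity) ?_
    simp (disch := positivity) only [Real.log_mul, Real.log_pow, Real.log_one]
    push_cast
    linarith
  · refine le_of_log (by positivity) (by positivity) ?_
    simp (disch := positivity) only [Real.log_rpow]
    linarith

lemma NW.adm (h : NW a0 b₁ q A b n y V al s lam η) :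
    Adm (lawOf n b y V al s lam η) ∧ V / 2 ≤ V - s ^ 2 ∧ V - s ^ 2 ≤ V := by
  obtain ⟨k1, k2, k3, k4, k5, k6, k7, k8⟩ := h.bd
  have hV := h.env.V0
  refine ⟨⟨h.env.n_pos, h.b0, ?_, h.kw.l0, h.kw.η0.le, h.kw.y0.le, ?_⟩, by linarith, ?_⟩
  · show 0 < V - s ^ 2
    linarith
  · show y ≤ 1
    linarith
  · have := sq_nonneg s
    linarith

lemma NW.par (h : NW a0 b₁ q A b n y V al s lam η) :
    Par1 b (q / 2) (999 * q) n (V - s ^ 2) s lam η y V al := by
  obtain ⟨k1, k2, k3, k4, k5, k6, k7, k8⟩ := h.bd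
  have hV := h.env.V0
  exact ⟨by linarith, by ring, by linarith, h.kw.s0, k6, h.kw.η0, by linarith, k5, k8,
    by linarith, h.kw.ap, h.kw.sg⟩

end window

/-! ### the a priori numbers -/

/-- the a priori size of the overlap at the share `1 - T` -/
noncomputable def Uq (q : ℝ) (n : ℕ) (y T : ℝ) : ℝ := (n : ℝ) ^ q * y ^ 2 / √T

/-- the a priori numbers at the shares `1 - T`, `u` -/
structure ApN (q D : ℝ) (L : Law) (T u : ℝ) : Prop where
  m1 : ∀ S : Finset (Fin L.n), L.ex' (1 - T) u (CC L S (1 - T) u) ≤ Uq q L.n L.x T ^ 2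
  m2 : ∀ S : Finset (Fin L.n),
    L.ex' (1 - T) u (fun z => CC L S (1 - T) u z ^ 2) ≤ Uq q L.n L.x T ^ 4
  tC : ∀ S : Finset (Fin L.n),
    L.ex' (1 - T) u (H317.ind (Uq q L.n L.x T ^ 2) (CC L S (1 - T) u)) ≤ (L.n : ℝ) ^ (-D)
  tQ : ∀ S : Finset (Fin L.n),
    L.ex' (1 - T) u (H317.ind (Uq q L.n L.x T) (L.Q S (1 - T) u)) ≤ (L.n : ℝ) ^ (-D)
  tQ0 : ∀ S : Finset (Fin L.n),
    L.ex' (1 - T) u (H317.ind (Uq q L.n L.x T) (L.Q0 S (1 - T) u)) ≤ (L.n : ℝ) ^ (-D)
  ps : PstL L (1 - T) u ≤ (L.n : ℝ) ^ (-D)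

lemma Uq_pos {q : ℝ} {n : ℕ} {y T : ℝ} (hn : (0 : ℝ) < n) (hy : 0 < y) (hT : 0 < T) :
    0 < Uq q n y T := by
  unfold Uq
  positivity

lemma Uq_sq {q : ℝ} {n : ℕ} {y T : ℝ} (hT : 0 < T) :
    Uq q n y T ^ 2 = ((n : ℝ) ^ q * y ^ 2) ^ 2 / T := by
  unfold Uq
  rw [div_pow, Real.sq_sqrt hT.le]

/-- **The a priori numbers, eventually.** -/
theorem apn_ev {a0 b₁ q A b : ℝ} (D : ℝ) (hq : 0 < q) (hb : 0 < b) (hA : 1 ≤ A)
    (ha0 : a0 ≤ 1 / 6) (hb₁ : 100 * q < b₁) :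
    ∀ᶠ n : ℕ in atTop, ∀ y V al s lam η : ℝ, KW a0 b₁ q A b n y V al s lam η →
      NW a0 b₁ q A b n y V al s lam η ∧ ∀ T, 0 < T → T ≤ 1 → ∀ u ∈ Icc (0 : ℝ) 1,
        ApN q D (lawOf n b y V al s lam η) T u := by
  filter_upwards [nw_ev (a0 := a0) (b₁ := b₁) hq hb hA ha0 hb₁,
    mom_ev1 (b := b) (e := 999 * q) (s0 := q / 2) (s1 := q) hb (by positivity) (by positivity)
      (by linarith),
    tail_ev1 (b := b) (e := 999 * q) (s0 := q / 2) (s1 := q) (s2 := q) D hb (by positivity)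
      (by positivity) (by linarith) (by linarith),
    tail_ap (b := b) (D := D) hq hb,
    ev_log (θ := q) hq (Real.log (4 * (Cp 1 + 1) * (Cp 2 + 1) / b ^ 2))] with n h1 h2 h3 h4 h5
  intro y V al s lam η hkw
  have hw := h1 y V al s lam η hkw
  refine ⟨hw, fun T hT hT1 u hu => ?_⟩
  obtain ⟨k1, k2, k3, k4, k5, k6, k7, k8⟩ := hw.bd
  have hn := hw.env.n0
  have hy := hw.env.y0
  have hV := hw.env.V0
  have hpar := hw.par
  have hyb : y ^ 2 * b ^ 2 ≤ 4 := by nlinarith [sq_nonneg (y * b)]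
  have e1 : 1 - (1 - T) = T := by ring
  have hCp : ∀ p, 0 < Cp p := fun p => by
    unfold Cp
    positivity
  have hc1 := hCp 1
  have hc2 := hCp 2
  have hnq : 4 * (Cp 1 + 1) * (Cp 2 + 1) / b ^ 2 ≤ (n : ℝ) ^ q := by
    refine le_of_log (by positivity) (by positivity) ?_
    rw [Real.log_rpow hn]
    exact h5
  have hmid : (Cp 1 + 1) * (Cp 2 + 1) * (4 * ((n : ℝ) ^ q * y ^ 4) / (b ^ 2 * T)) ≤
      Uq q n y T ^ 2 := by
    rw [Uq_sq hT]
    calc (Cp 1 + 1) * (Cp 2 + 1) * (4 * ((n : ℝ) ^ q * y ^ 4) / (b ^ 2 * T))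
        = 4 * (Cp 1 + 1) * (Cp 2 + 1) / b ^ 2 * ((n : ℝ) ^ q * y ^ 4 / T) := by
          field_simp
      _ ≤ (n : ℝ) ^ q * ((n : ℝ) ^ q * y ^ 4 / T) :=
          mul_le_mul_of_nonneg_right hnq (by positivity)
      _ = ((n : ℝ) ^ q * y ^ 2) ^ 2 / T := by ring
  have hX : 0 ≤ 4 * ((n : ℝ) ^ q * y ^ 4) / (b ^ 2 * T) := by positivity
  have g2 := h2 (V - s ^ 2) s lam η y V al hpar hyb (1 - T) (by linarith) (by linarith) u hu
  have g3 := h3 (V - s ^ 2) s lam η y V al hpar hyb (1 - T) (by linarith) (by linarith) u hu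
  rw [e1] at g2 g3
  have hU := Uq_pos (q := q) hn hy hT
  have hUT : ((n : ℝ) ^ q * y ^ 2) ^ 2 ≤ Uq q n y T ^ 2 * T := by
    rw [Uq_sq hT, div_mul_cancel₀ _ hT.ne']
  refine ⟨fun S => ?_, fun S => ?_, fun S => (g3 S _ hU.le hUT).1, fun S =>
    (g3 S _ hU.le hUT).2.1, fun S => (g3 S _ hU.le hUT).2.2, ?_⟩
  · have g := g2 S 1
    simp only [pow_one] at g
    refine g.trans (le_trans ?_ hmid)
    refine mul_le_mul_of_nonneg_right ?_ hX
    nlinarith
  · have g := g2 S 2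
    refine g.trans ?_
    have h6 := pow_le_pow_left₀ (by positivity) hmid 2
    have e2 : (Uq q n y T ^ 2) ^ 2 = Uq q n y T ^ 4 := by ring
    show _ ≤ Uq q n y T ^ 4
    rw [← e2]
    refine le_trans ?_ h6
    rw [mul_pow]
    refine mul_le_mul_of_nonneg_right ?_ (sq_nonneg _)
    have h7 : 1 ≤ (Cp 1 + 1) := by linarith
    have h8 : Cp 2 + 1 ≤ (Cp 1 + 1) * (Cp 2 + 1) := by nlinarith
    nlinarith
  · refine h4 Bool Bool (H418.cb (1 - T)) (H418.cf (V - s ^ 2) u) lam s η y V al ?_ ?_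
      (by linarith) hkw.s0 k6 hkw.η0 (by linarith) hkw.ll hy (by linarith) hkw.sg
    · exact sum_cb (by linarith) (by linarith)
    · rw [sum_cf (by linarith) hu.1 hu.2]
      ring

/-! ### the typical point -/

section point

variable {a0 b₁ q A b D : ℝ} {n : ℕ} {y V al s lam η T u : ℝ}

/-- the parameter of the slope: `b (1 - (1 - y) rq) = 1 + al` -/
noncomputable def rq (b y al : ℝ) : ℝ := (1 - (1 + al) / b) / (1 - y)

lemma rq_eq {b y al : ℝ} (hy : y < 1) : 1 - (1 - y) * rq b y al = (1 + al) / b := by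
  unfold rq
  have : 1 - y ≠ 0 := by
    have : 0 < 1 - y := by linarith
    exact this.ne'
  field_simp
  ring

lemma b_rq {b y al : ℝ} (hb : 0 < b) (hy : y < 1) : b * (1 - (1 - y) * rq b y al) = 1 + al := by
  rw [rq_eq hy]
  field_simp

/-- the window of `T` in logarithmic form -/
lemma logT (h : NW a0 b₁ q A b n y V al s lam η) (hT : (n : ℝ) ^ (-(71 * q)) * y ^ 2 ≤ T)
    (hT1 : T ≤ 1) : 0 < T ∧ -(71 * q) * Real.log n + 2 * Real.log y ≤ Real.log T ∧
      Real.log T ≤ 0 := by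
  have hn := h.env.n0
  have hy := h.env.y0
  have hT0 : 0 < T := lt_of_lt_of_le (by positivity) hT
  have h1 := Real.log_le_log (by positivity) hT
  simp (disch := positivity) only [Real.log_mul, Real.log_rpow, Real.log_pow] at h1
  push_cast at h1
  exact ⟨hT0, h1, Real.log_nonpos hT0.le hT1⟩

lemma NW.U_le (h : NW a0 b₁ q A b n y V al s lam η) (hT : (n : ℝ) ^ (-(71 * q)) * y ^ 2 ≤ T)
    (hT1 : T ≤ 1) : Uq q n y T ≤ 1 / 1000 := by
  obtain ⟨f1, f2, f3, f4, f5, f6, f7, f8, f9, f10, f11, f12, f13, f14⟩ := h.facts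
  obtain ⟨hT0, t1, t2⟩ := logT h hT hT1
  have hn := h.env.n0
  have hy := h.env.y0
  have c1 := log_c 1000 (by norm_num)
  unfold Uq
  refine le_of_log (by positivity) (by positivity) ?_
  simp (disch := positivity) only [Real.log_div, Real.log_mul, Real.log_rpow, Real.log_pow,
    Real.log_one, Real.log_sqrt]
  push_cast
  linarith

/-- the field against the a priori size -/
lemma NW.wf_le (h : NW a0 b₁ q A b n y V al s lam η) (hu : u ∈ Icc (0 : ℝ) 1) :
    u * (V - s ^ 2) / b ^ 2 ≤ (n : ℝ) ^ (-(23 * q)) * y ^ 3 := by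
  obtain ⟨f1, f2, f3, f4, f5, f6, f7, f8, f9, f10, f11, f12, f13, f14⟩ := h.facts
  obtain ⟨k1, k2, k3, k4, k5, k6, k7, k8⟩ := h.bd
  have hn := h.env.n0
  have hy := h.env.y0
  have hV := h.env.V0
  have hb := h.b0
  have h1 : u * (V - s ^ 2) ≤ 1 * V :=
    mul_le_mul hu.2 (by linarith [sq_nonneg s]) (by linarith) zero_le_one
  rw [one_mul] at h1
  refine (div_le_div_of_nonneg_right h1 (sq_nonneg b)).trans ?_
  refine le_of_log (by positivity) (by positivity) ?_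
  simp (disch := positivity) only [Real.log_div, Real.log_mul, Real.log_rpow, Real.log_pow]
  push_cast
  linarith

lemma NW.wf_U (h : NW a0 b₁ q A b n y V al s lam η) (hT : (n : ℝ) ^ (-(71 * q)) * y ^ 2 ≤ T)
    (hT1 : T ≤ 1) : (n : ℝ) ^ (-(23 * q)) * y ^ 3 ≤ Uq q n y T := by
  obtain ⟨f1, f2, f3, f4, f5, f6, f7, f8, f9, f10, f11, f12, f13, f14⟩ := h.facts
  obtain ⟨hT0, t1, t2⟩ := logT h hT hT1
  have hn := h.env.n0
  have hy := h.env.y0
  unfold Uq
  refine le_of_log (by positivity) (by positivity) ?_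
  simp (disch := positivity) only [Real.log_div, Real.log_mul, Real.log_rpow, Real.log_pow,
    Real.log_sqrt]
  push_cast
  linarith

lemma NW.rq_le (h : NW a0 b₁ q A b n y V al s lam η) : |rq b y al| + 1 ≤ (n : ℝ) ^ q := by
  obtain ⟨f1, f2, f3, f4, f5, f6, f7, f8, f9, f10, f11, f12, f13, f14⟩ := h.facts
  obtain ⟨k1, k2, k3, k4, k5, k6, k7, k8⟩ := h.bd
  have hn := h.env.n0
  have hy := h.env.y0
  have hb := h.b0
  have hal := abs_le.1 h.al_small
  have c1 := log_c 8 (by norm_num)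
  have h1 : 0 < 1 - y := by linarith
  have h2 : |rq b y al| ≤ 2 * (1 + 2 / b) := by
    unfold rq
    rw [abs_div, abs_of_pos h1, div_le_iff₀ h1]
    have h3 : 0 < 2 / b := by positivity
    have h4 : (1 + al) / b ≤ 2 / b := div_le_div_of_nonneg_right (by linarith) hb.le
    have h5 : 0 ≤ (1 + al) / b := div_nonneg (by linarith) hb.le
    have h6 : |1 - (1 + al) / b| ≤ 1 + 2 / b := by
      rw [abs_le]
      constructor <;> linarith
    nlinarith
  have h3 : 8 ≤ (n : ℝ) ^ q := by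
    refine le_of_log (by positivity) (by positivity) ?_
    simp (disch := positivity) only [Real.log_rpow]
    linarith
  have h4 : 8 / b ≤ (n : ℝ) ^ q := by
    refine le_of_log (by positivity) (by positivity) ?_
    simp (disch := positivity) only [Real.log_rpow, Real.log_div]
    linarith
  have h5 : 2 * (1 + 2 / b) = 2 + 8 / b / 2 := by ring
  linarith

/-- the numbers of a typical point at the shares `1 - T`, `u`, `m` hidden sites -/
structure PtN (q D : ℝ) (L : Law) (r0 T u : ℝ) (m : ℕ) : Prop where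
  ap : ApN q D L T u
  U0 : 0 < Uq q L.n L.x T
  U1 : Uq q L.n L.x T ≤ 1 / 1000
  w0 : 0 < u * L.vp / L.b ^ 2
  wf : u * L.vp / L.b ^ 2 ≤ (L.n : ℝ) ^ (-(23 * q)) * L.x ^ 3
  wU : u * L.vp / L.b ^ 2 ≤ Uq q L.n L.x T
  th : 5 / √m + 2 * |L.lam / ((1 - L.x) * (L.s ^ 2 * L.n))| +
      3 * ((|r0| + 1) * √(PstL L (1 - T) u)) / √(Uq q L.n L.x T) ≤
      (L.n : ℝ) ^ (-(2900 * q)) * L.x ^ 2
  rk : ∀ S : Finset (Fin L.n), S = Sn L.n m ∨ S = Sn L.n (m - 1) →
    L.rk S (1 - T) u ≤ (L.n : ℝ) ^ (106 * q) / (L.n * L.x ^ 3 * √T)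
  inc : ∀ i0 : Fin L.n, i0.1 + m = L.n →
    incL L (H418.cb (1 - T)) (H418.cf L.vp u) (Sn L.n m) (Kset (Sn L.n m) {true} {true})
      (Kset (insert i0 (Sn L.n m)) {true} {true}) ≤ (L.n : ℝ) ^ (112 * q) / √T

lemma Uq_double {T'' : ℝ} {n : ℕ} {y : ℝ} (hT0 : 0 < T) (h1 : T / 2 ≤ T'') :
    Uq q n y T'' ^ 2 ≤ (2 * Uq q n y T) ^ 2 := by
  have hT'' : 0 < T'' := by linarith
  rw [mul_pow, Uq_sq hT'', Uq_sq hT0, div_le_iff₀ hT'']
  have h2 : 0 ≤ ((n : ℝ) ^ q * y ^ 2) ^ 2 := sq_nonneg _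
  have e : 2 ^ 2 * (((n : ℝ) ^ q * y ^ 2) ^ 2 / T) * T'' =
      ((n : ℝ) ^ q * y ^ 2) ^ 2 * (4 * T'' / T) := by
    ring
  rw [e]
  have h3 : 1 ≤ 4 * T'' / T := by
    rw [le_div_iff₀ hT0]
    linarith
  nlinarith

lemma NW.u_mem (h : NW a0 b₁ q A b n y V al s lam η) (hu : u ∈ Icc (1 - 2 * dl q n) (1 - dl q n)) :
    1 / 2 ≤ u ∧ u ≤ 1 ∧ 0 < dl q n ∧ 0 ≤ 1 - dl q n ∧ 1 - dl q n ≤ 1 := by
  obtain ⟨f1, f2, f3, f4, f5, f6, f7, f8, f9, f10, f11, f12, f13, f14⟩ := h.facts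
  have hn := h.env.n0
  have c1 := log_c 4 (by norm_num)
  have h1 : 0 < dl q n := Real.rpow_pos_of_pos hn _
  have h2 : dl q n ≤ 1 / 4 := by
    unfold dl
    refine le_of_log (by positivity) (by positivity) ?_
    simp (disch := positivity) only [Real.log_rpow, Real.log_div, Real.log_one]
    linarith
  exact ⟨by linarith [hu.1], by linarith [hu.2], h1, by linarith, by linarith⟩

lemma NW.mm_facts (h : NW a0 b₁ q A b n y V al s lam η) :
    (n : ℝ) ^ (1 - 110 * q) * y ^ 2 ≤ mm q n y ∧ 1 ≤ mm q n y ∧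
      (mm q n y : ℝ) ≤ 2 * ((n : ℝ) ^ (1 - 110 * q) * y ^ 2) ∧ 2 * (mm q n y : ℝ) ≤ n / 2 := by
  obtain ⟨f1, f2, f3, f4, f5, f6, f7, f8, f9, f10, f11, f12, f13, f14⟩ := h.facts
  have hn := h.env.n0
  have hy := h.env.y0
  have hL := h.env.L1
  have c8 := log_c 8 (by norm_num)
  have k1 : 1 ≤ (n : ℝ) ^ (1 - 110 * q) * y ^ 2 := by
    refine le_of_log (by positivity) (by positivity) ?_
    simp (disch := positivity) only [Real.log_mul, Real.log_rpow, Real.log_pow, Real.log_one]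
    push_cast
    linarith
  have k2 := (Nat.ceil_lt_add_one (show 0 ≤ (n : ℝ) ^ (1 - 110 * q) * y ^ 2 by positivity)).le
  have k3 : (n : ℝ) ^ (1 - 110 * q) * y ^ 2 ≤ mm q n y := by
    unfold mm
    exact Nat.le_ceil _
  have k4 : (mm q n y : ℝ) ≤ 2 * ((n : ℝ) ^ (1 - 110 * q) * y ^ 2) := by
    unfold mm
    linarith
  have k5 : (1 : ℝ) ≤ mm q n y := k1.trans k3
  have k6 : (n : ℝ) ^ (1 - 110 * q) * y ^ 2 ≤ n / 8 := by
    refine le_of_log (by positivity) (by positivity) ?_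
    simp (disch := positivity) only [Real.log_mul, Real.log_rpow, Real.log_pow, Real.log_div]
    push_cast
    linarith
  exact ⟨k3, by exact_mod_cast k5, k4, by linarith⟩

lemma NW.rk_num (h : NW a0 b₁ q A b n y V al s lam η)
    (hT : (n : ℝ) ^ (-(71 * q)) * y ^ 2 ≤ T) (hT1 : T ≤ 1) :
    6 * (2 * Uq q n y T) / (y ^ 2 * (V - s ^ 2) * dl q n * n) ≤
      (n : ℝ) ^ (106 * q) / (n * y ^ 3 * √T) := by
  obtain ⟨f1, f2, f3, f4, f5, f6, f7, f8, f9, f10, f11, f12, f13, f14⟩ := h.facts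
  obtain ⟨hT0, t1, t2⟩ := logT h hT hT1
  obtain ⟨hA, a1, a2⟩ := h.adm
  have hn := h.env.n0
  have hy := h.env.y0
  have hV := h.env.V0
  have v3 : 0 < dl q n := Real.rpow_pos_of_pos hn _
  have hU0 := Uq_pos (q := q) hn hy hT0
  have h2 : 6 * (2 * Uq q n y T) / (y ^ 2 * (V - s ^ 2) * dl q n * n) ≤
      6 * (2 * Uq q n y T) / (y ^ 2 * (V / 2) * dl q n * n) := by
    gcongr
  refine h2.trans ?_
  unfold Uq dl
  refine le_of_log (by positivity) (by positivity) ?_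
  simp (disch := positivity) only [Real.log_mul, Real.log_rpow, Real.log_pow, Real.log_div,
    Real.log_sqrt]
  have c6 := log_c 6 (by norm_num)
  have c2 := log_c 2 (by norm_num)
  have c2' : 0 ≤ Real.log 2 := Real.log_nonneg (by norm_num)
  push_cast
  linarith

lemma NW.inc_num (h : NW a0 b₁ q A b n y V al s lam η)
    (hT : (n : ℝ) ^ (-(71 * q)) * y ^ 2 ≤ T) (hT1 : T ≤ 1) :
    6 * (n * ((1 + η) ^ 2 * (2 * Uq q n y T))) / (mm q n y + 1) ≤ (n : ℝ) ^ (112 * q) / √T := by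
  obtain ⟨f1, f2, f3, f4, f5, f6, f7, f8, f9, f10, f11, f12, f13, f14⟩ := h.facts
  obtain ⟨k1, k2, k3, k4, k5, k6, k7, k8⟩ := h.bd
  obtain ⟨hT0, t1, t2⟩ := logT h hT hT1
  obtain ⟨m1, m2, m3, m4⟩ := h.mm_facts
  have hn := h.env.n0
  have hy := h.env.y0
  have hη := h.kw.η0
  have hU0 := Uq_pos (q := q) hn hy hT0
  have h2 : 6 * (n * ((1 + η) ^ 2 * (2 * Uq q n y T))) / (mm q n y + 1) ≤
      6 * (n * (2 * (2 * Uq q n y T))) / ((n : ℝ) ^ (1 - 110 * q) * y ^ 2) := by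
    have h3 : (1 + η) ^ 2 ≤ 2 := by nlinarith
    have h4 : (n : ℝ) ^ (1 - 110 * q) * y ^ 2 ≤ mm q n y + 1 := by linarith
    gcongr
  refine h2.trans ?_
  unfold Uq
  refine le_of_log (by positivity) (by positivity) ?_
  simp (disch := positivity) only [Real.log_mul, Real.log_rpow, Real.log_pow, Real.log_div,
    Real.log_sqrt]
  have c6 := log_c 6 (by norm_num)
  have c2 := log_c 2 (by norm_num)
  push_cast
  linarith

lemma NW.th_num (h : NW a0 b₁ q A b n y V al s lam η) {P : ℝ}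
    (hT : (n : ℝ) ^ (-(71 * q)) * y ^ 2 ≤ T) (hT1 : T ≤ 1) {m : ℕ} (hm : mm q n y ≤ m)
    (hP : P ≤ (n : ℝ) ^ (-(1 / 2 : ℝ))) (hP0 : 0 ≤ P) :
    5 / √(m : ℝ) + 2 * |lam / ((1 - y) * (s ^ 2 * n))| +
      3 * ((|rq b y al| + 1) * P) / √(Uq q n y T) ≤ (n : ℝ) ^ (-(2900 * q)) * y ^ 2 := by
  obtain ⟨f1, f2, f3, f4, f5, f6, f7, f8, f9, f10, f11, f12, f13, f14⟩ := h.facts
  obtain ⟨k1, k2, k3, k4, k5, k6, k7, k8⟩ := h.bd
  obtain ⟨hT0, t1, t2⟩ := logT h hT hT1
  obtain ⟨m1, m2, m3, m4⟩ := h.mm_facts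
  have hn := h.env.n0
  have hy := h.env.y0
  have hl := h.kw.l0
  have hs := h.kw.s0
  have hU0 := Uq_pos (q := q) hn hy hT0
  have hm0 : (0 : ℝ) < m := by
    have : 1 ≤ m := m2.trans hm
    exact_mod_cast this
  have hmm : (n : ℝ) ^ (1 - 110 * q) * y ^ 2 ≤ m := m1.trans (by exact_mod_cast hm)
  have hlm := Real.log_le_log (by positivity) hmm
  simp (disch := positivity) only [Real.log_mul, Real.log_rpow, Real.log_pow] at hlm
  push_cast at hlm
  have c5 := log_c 5 (by norm_num)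
  have c3 := log_c 3 (by norm_num)
  have c4 := log_c 4 (by norm_num)
  have x1 : 5 / √(m : ℝ) ≤ (n : ℝ) ^ (-(2900 * q)) * y ^ 2 / 3 := by
    refine le_of_log (by positivity) (by positivity) ?_
    simp (disch := positivity) only [Real.log_mul, Real.log_rpow, Real.log_pow, Real.log_div,
      Real.log_sqrt]
    push_cast
    linarith
  have x2 : 2 * |lam / ((1 - y) * (s ^ 2 * n))| ≤ (n : ℝ) ^ (-(2900 * q)) * y ^ 2 / 3 := by
    have y1 : 0 < 1 - y := by linarith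
    rw [abs_of_pos (by positivity)]
    have y2 : 2 * (lam / ((1 - y) * (s ^ 2 * n))) ≤ 4 * (lam / (s ^ 2 * n)) := by
      rw [show 4 * (lam / (s ^ 2 * n)) = 2 * (lam / (1 / 2 * (s ^ 2 * n))) by ring]
      refine mul_le_mul_of_nonneg_left ?_ (by norm_num)
      refine div_le_div_of_nonneg_left hl.le (by positivity) ?_
      exact mul_le_mul_of_nonneg_right (by linarith) (by positivity)
    refine y2.trans ?_
    refine le_of_log (by positivity) (by positivity) ?_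
    simp (disch := positivity) only [Real.log_mul, Real.log_rpow, Real.log_pow, Real.log_div]
    push_cast
    linarith
  have x3 : 3 * ((|rq b y al| + 1) * P) / √(Uq q n y T) ≤
      (n : ℝ) ^ (-(2900 * q)) * y ^ 2 / 3 := by
    have y3 : 3 * ((|rq b y al| + 1) * P) / √(Uq q n y T) ≤
        3 * ((n : ℝ) ^ q * (n : ℝ) ^ (-(1 / 2 : ℝ))) / √(Uq q n y T) := by
      refine div_le_div_of_nonneg_right (mul_le_mul_of_nonneg_left ?_ (by norm_num))
        (Real.sqrt_nonneg _)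
      exact mul_le_mul h.rq_le hP hP0 (by positivity)
    refine y3.trans ?_
    unfold Uq
    refine le_of_log (by positivity) (by positivity) ?_
    simp (disch := positivity) only [Real.log_mul, Real.log_rpow, Real.log_pow, Real.log_div,
      Real.log_sqrt]
    push_cast
    linarith
  linarith

/-- **The numbers of a typical point.** -/
theorem ptn_typ (h : NW a0 b₁ q A b n y V al s lam η) (hD : 1 ≤ D)
    (hap : ∀ T, 0 < T → T ≤ 1 → ∀ u ∈ Icc (0 : ℝ) 1, ApN q D (lawOf n b y V al s lam η) T u)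
    (hT : (n : ℝ) ^ (-(71 * q)) * y ^ 2 ≤ T) (hT1 : T ≤ 1)
    (hu : u ∈ Icc (1 - 2 * dl q n) (1 - dl q n)) {m : ℕ}
    (hm : m ∈ Finset.Icc (mm q n y) (2 * mm q n y)) {T'' dt : ℝ} (hT2 : T / 2 ≤ T'')
    (hT3 : T'' ≤ 1)
    (hty : Typ (lawOf n b y V al s lam η) (H418.cb (1 - T)) (H418.cf (V - s ^ 2) u) (1 - T'')
      (1 - dl q n) dt (1 - dl q n - (1 - 2 * dl q n)) 6
      (((2 * mm q n y : ℕ) : ℝ) - mm q n y + 1) m {true} {true}) :
    PtN q D (lawOf n b y V al s lam η) (rq b y al) T u m := by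
  obtain ⟨k1, k2, k3, k4, k5, k6, k7, k8⟩ := h.bd
  obtain ⟨hT0, t1, t2⟩ := logT h hT hT1
  obtain ⟨v1, v2, v3, v4, v5⟩ := h.u_mem hu
  obtain ⟨m1, m2, m3, m4⟩ := h.mm_facts
  obtain ⟨hA, a1, a2⟩ := h.adm
  have hn := h.env.n0
  have hy := h.env.y0
  have hV := h.env.V0
  have hb := h.b0
  have hmI := Finset.mem_Icc.1 hm
  have hU0 := Uq_pos (q := q) hn hy hT0
  have hT''0 : 0 < T'' := by linarith
  have hwf := h.wf_le (u := u) ⟨by linarith, v2⟩
  have hG : (lawOf n b y V al s lam η).ex' (1 - T'') (1 - dl q n)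
      (CC (lawOf n b y V al s lam η) Finset.univ (1 - T'') (1 - dl q n)) ≤
        (2 * Uq q n y T) ^ 2 :=
    ((hap T'' hT''0 hT3 _ ⟨v4, v5⟩).m1 Finset.univ).trans (Uq_double hT0 hT2)
  have hG0 : 0 ≤ 2 * Uq q n y T := by positivity
  have hap' := hap T hT0 hT1 u ⟨by linarith, v2⟩
  refine ⟨hap', hU0, h.U_le hT hT1, ?_, hwf, hwf.trans (h.wf_U hT hT1), ?_, fun S hS => ?_,
    fun i0 hi => ?_⟩
  · show 0 < u * (V - s ^ 2) / b ^ 2
    have : 0 < V - s ^ 2 := by linarith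
    have : 0 < u := by linarith
    positivity
  · refine h.th_num hT hT1 hmI.1 ?_ (Real.sqrt_nonneg _)
    have y2 : (n : ℝ) ^ (-D) ≤ (n : ℝ) ^ (-(1 : ℝ)) :=
      Real.rpow_le_rpow_of_exponent_le (by exact_mod_cast h.kw.n1.le) (by linarith)
    refine (Real.sqrt_le_sqrt (hap'.ps.trans y2)).trans (le_of_eq ?_)
    rw [Real.sqrt_eq_rpow]
    show ((n : ℝ) ^ (-(1 : ℝ))) ^ (1 / 2 : ℝ) = _
    rw [← Real.rpow_mul hn.le]
    norm_num
  · have e1 : 1 - dl q n - (1 - 2 * dl q n) = dl q n := by ring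
    rw [e1] at hty
    exact (rk_typ (L := lawOf n b y V al s lam η) hA hy v3 (by norm_num) hty hG hG0 hS).trans
      (h.rk_num hT hT1)
  · have e3 : ((2 * mm q n y : ℕ) : ℝ) - mm q n y + 1 = mm q n y + 1 := by
      push_cast
      ring
    rw [e3] at hty
    have hm0 : (0 : ℝ) < mm q n y := by exact_mod_cast m2
    exact (inc_typ (L := lawOf n b y V al s lam η) hA (by norm_num)
      (show (0 : ℝ) < mm q n y + 1 by linarith) hty hG hG0 hi).trans (h.inc_num hT hT1)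

/-- the rank one number of the pairs in the window `[T / (1 + hh), T]` -/
theorem rb_pt (h : NW a0 b₁ q A b n y V al s lam η)
    (hap : ∀ T, 0 < T → T ≤ 1 → ∀ u ∈ Icc (0 : ℝ) 1, ApN q D (lawOf n b y V al s lam η) T u)
    (hT : (n : ℝ) ^ (-(71 * q)) * y ^ 2 ≤ T) (hT1 : T ≤ 1)
    (hu : u ∈ Icc (1 - 2 * dl q n) (1 - dl q n)) {m : ℕ} {M : ℝ} {T'' : ℝ} (hT2 : T / 2 ≤ T'')
    (hT3 : T'' ≤ 1)
    (hty : Typ (lawOf n b y V al s lam η) (H418.cb (1 - T)) (H418.cf (V - s ^ 2) u) (1 - T'')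
      (1 - dl q n) (hh q n * T'') (1 - dl q n - (1 - 2 * dl q n)) 6 M m {true} {true})
    {S : Finset (Fin n)} (hS : S = Sn n m ∨ S = Sn n (m - 1)) :
    rbL (lawOf n b y V al s lam η) (H418.cb (1 - T)) (H418.cf (V - s ^ 2) u) S
      (Kset S {true} {true}) / (n : ℝ) ^ 4 ≤ (n : ℝ) ^ (10 * q) * y ^ 2 / (n * T ^ 2) := by
  obtain ⟨f1, f2, f3, f4, f5, f6, f7, f8, f9, f10, f11, f12, f13, f14⟩ := h.facts
  obtain ⟨hT0, t1, t2⟩ := logT h hT hT1
  obtain ⟨v1, v2, v3, v4, v5⟩ := h.u_mem hu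
  obtain ⟨hA, a1, a2⟩ := h.adm
  have hn := h.env.n0
  have hy := h.env.y0
  have hb := h.b0
  have hU0 := Uq_pos (q := q) hn hy hT0
  have hT''0 : 0 < T'' := by linarith
  have hhp : 0 < hh q n := Real.rpow_pos_of_pos hn _
  have hG : (lawOf n b y V al s lam η).ex' (1 - T'') (1 - dl q n)
      (CC (lawOf n b y V al s lam η) Finset.univ (1 - T'') (1 - dl q n)) ≤
        (2 * Uq q n y T) ^ 2 :=
    ((hap T'' hT''0 hT3 _ ⟨v4, v5⟩).m1 Finset.univ).trans (Uq_double hT0 hT2)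
  have h1 := rb_typ (L := lawOf n b y V al s lam η) hA hy (mul_pos hhp hT''0) (by norm_num) hty
    hG hS
  refine h1.trans ?_
  show 6 * (2 * Uq q n y T) ^ 2 / (2 * (y ^ 2 * b ^ 2 * (hh q n * T'') * n)) ≤ _
  have h2 : 6 * (2 * Uq q n y T) ^ 2 / (2 * (y ^ 2 * b ^ 2 * (hh q n * T'') * n)) ≤
      6 * (2 * Uq q n y T) ^ 2 / (2 * (y ^ 2 * b ^ 2 * (hh q n * (T / 2)) * n)) := by
    gcongr
  refine h2.trans ?_
  unfold Uq hh
  refine le_of_log (by positivity) (by positivity) ?_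
  simp (disch := positivity) only [Real.log_mul, Real.log_rpow, Real.log_pow, Real.log_div,
    Real.log_sqrt]
  have c6 := log_c 6 (by norm_num)
  have c2 := log_c 2 (by norm_num)
  push_cast
  linarith

end point

end Vale.Agent.P146.H615
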