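import Vale.Agent.P146.H615.PointR

/-!
# P146: bounds of `E Q^2` from the tested row equation

`point_low`, `point_up` (test function of `H317.Rho`), `regime2`, `point_up2` (test function
`min Q U`).
-/

open MeasureTheory ProbabilityTheory

namespace Vale.Agent.P146.H615

open Vale.Agent.P146.H196 Vale.Agent.P146.H646 Vale.Agent.P146.H347 Vale.Agent.P146.H475
  Vale.Agent.P157.Lv Vale.Agent.P146.H816 Vale.Agent.P146.H325 Vale.Agent.P146.H161
  Vale.Agent.P146.H205 Vale.Agent.P146.H197 Vale.Agent.P146.H317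

set_option linter.unusedSectionVars false

/-! ### regime 2, abstract -/

section reg

variable {κ : Type*} [Fintype κ] [DecidableEq κ] {μ : κ → Measure ℝ}
  [∀ e, IsProbabilityMeasure (μ e)] {w Q : (κ → ℝ) → ℝ}

lemma bm_min (hQ : BM Q) (U : ℝ) : BM fun z => min (Q z) U := by
  obtain ⟨C, hC⟩ := hQ.bd
  refine ⟨hQ.meas.min measurable_const, max C |U|, fun z => ?_⟩
  refine (abs_min_le_max_abs_abs).trans (max_le_max (hC z) le_rfl)

/-- **regime 2**: the tested inequality with `min Q U` bounds `E Q^2` without the square term. -/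
theorem regime2 (hw : Wt μ w) (hQ : BM Q) (h0 : ∀ z, 0 ≤ Q z) {B : ℝ} (hB : ∀ z, Q z ≤ B)
    {U c d wf err : ℝ} (hU : 0 ≤ U) (hc : 0 ≤ c) (hd : 0 < d) (hwf : 0 ≤ wf)
    (h : ex μ w (fun z => min (Q z) U * (c * Q z ^ 2 + d * Q z - wf)) ≤ err) :
    ex μ w (fun z => Q z ^ 2) ≤ wf ^ 2 / d ^ 2 + 2 * err / d + B ^ 2 * ex μ w (ind U Q) := by
  have bp := bm_min hQ U
  have hp0 : ∀ z, 0 ≤ min (Q z) U := fun z => le_min (h0 z) hU
  set X := ex μ w (fun z => min (Q z) U * Q z) with hX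
  set m := ex μ w (fun z => min (Q z) U) with hm
  have h1 : ex μ w (fun z => min (Q z) U * (c * Q z ^ 2 + d * Q z - wf)) =
      (c * ex μ w (fun z => min (Q z) U * Q z ^ 2) + d * X) - wf * m := by
    have e : (fun z => min (Q z) U * (c * Q z ^ 2 + d * Q z - wf)) = fun z =>
        (c * (min (Q z) U * Q z ^ 2) + d * (min (Q z) U * Q z)) - wf * min (Q z) U := by
      funext z
      ring
    rw [e, ex_sub hw ((bcm c (bp.mul (bsq hQ))).add (bcm d (bp.mul hQ))) (bcm wf bp),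
      ex_add hw (bcm c (bp.mul (bsq hQ))) (bcm d (bp.mul hQ)), ex_cmul, ex_cmul, ex_cmul]
  have h2 : 0 ≤ c * ex μ w (fun z => min (Q z) U * Q z ^ 2) :=
    mul_nonneg hc (ex_nonneg hw fun z => mul_nonneg (hp0 z) (sq_nonneg _))
  have h3 : m ^ 2 ≤ X := by
    have h4 : m ^ 2 ≤ ex μ w (fun z => (min (Q z) U) ^ 2) := Wt.ex_sq_le hw bp
    refine h4.trans (ex_mono hw (bsq bp) (bp.mul hQ) fun z => ?_)
    rw [sq]
    exact mul_le_mul_of_nonneg_left (min_le_left _ _) (hp0 z)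
  rw [h1] at h
  have h5 : d * X ≤ wf * m + err := by linarith
  -- `wf m ≤ wf^2 / (2 d) + d X / 2`
  have h6 : wf * m ≤ wf ^ 2 / (2 * d) + d * X / 2 := by
    have h7 : wf * m ≤ wf ^ 2 / (2 * d) + d * m ^ 2 / 2 := by
      have h8 : 0 ≤ (wf - d * m) ^ 2 / (2 * d) := by positivity
      have h9 : (wf - d * m) ^ 2 / (2 * d) = wf ^ 2 / (2 * d) + d * m ^ 2 / 2 - wf * m := by
        field_simp
        ring
      linarith
    have h8 : d * m ^ 2 ≤ d * X := mul_le_mul_of_nonneg_left h3 hd.le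
    linarith
  have h7 : X ≤ wf ^ 2 / d ^ 2 + 2 * err / d := by
    have h8 : d * X ≤ wf ^ 2 / d + 2 * err := by
      have : wf ^ 2 / d = 2 * (wf ^ 2 / (2 * d)) := by field_simp
      rw [this]
      linarith
    have h9 : wf ^ 2 / d ^ 2 + 2 * err / d = (wf ^ 2 / d + 2 * err) / d := by field_simp
    rw [h9, le_div_iff₀ hd]
    linarith
  have h10 : ex μ w (fun z => Q z ^ 2) ≤ X + B ^ 2 * ex μ w (ind U Q) := by
    rw [hX, ← ex_cmul, ← ex_add hw (bp.mul hQ) (bcm _ (bm_ind hQ.meas U))]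
    refine ex_mono hw (bsq hQ) ((bp.mul hQ).add (bcm _ (bm_ind hQ.meas U))) fun z => ?_
    have hb := hB z
    have hz := h0 z
    by_cases hz' : U < Q z
    · have e : ind U Q z = 1 := if_pos hz'
      rw [e, mul_one]
      have : 0 ≤ min (Q z) U * Q z := mul_nonneg (hp0 z) hz
      nlinarith
    · have e : ind U Q z = 0 := if_neg hz'
      rw [e, mul_zero, add_zero, min_eq_left (not_lt.1 hz'), sq]
  linarith

end reg

section main

variable {n : ℕ} {LB LF : Type} [Fintype LB] [DecidableEq LB] [Fintype LF] [DecidableEq LF]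
variable {b s η lam c x r0 : ℝ} {cB : LB → ℝ} {cF : LF → ℝ} {BL : Finset LB} {FL : Finset LF}

lemma measurable_phi (c a w T : ℝ) : Measurable fun q : ℝ => phi c a w T q := by
  unfold phi
  exact (measurable_id.add_const _).div ((measurable_id.const_mul _).add_const _)

/-- a positive measurable function of `Q`, bounded for `Q ≥ 0`. -/
lemma bm_phiQ {κ : Type*} [Fintype κ] {Q : (κ → ℝ) → ℝ} (hQ : BM Q) (h0 : ∀ z, 0 ≤ Q z)
    {c a w T : ℝ} (hc : 0 < c) (hw : 0 < w) : BM fun z => phi c a w T (Q z) := by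
  refine ⟨(measurable_phi c a w T).comp hQ.meas, 1 / c + rho c a w T ^ 2 / w, fun z => ?_⟩
  rw [abs_of_pos (phi_pos hc hw (h0 z))]
  exact phi_le hc hw (h0 z)

variable (hl : 0 < lam) (hη : 0 ≤ η) (hη1 : η ≤ 1 / 2) (hs : s ≠ 0) (hx0 : 0 < x) (hx1 : x < 1)
  (hn : 0 < n) (hc : c = s ^ 2 * n * (1 - (1 - x) * r0)) (hk : 0 < b * (1 - (1 - x) * r0))
  (hb : 0 < b)
include hl hη hη1 hs hx0 hx1 hn hc hk hb

/-- the tested inequalities for `φ = G(√Q)` -/
theorem point_G {S S1 : Finset (Fin n)} (hS : S ⊆ S1) (hSn : S.Nonempty) {i0 : Fin n}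
    (hi0 : i0 ∉ S) (hne : (S1 \ S).Nonempty) {t wf : ℝ} (ht : ∑ l ∈ BL, cB l ^ 2 = t)
    (hwf : ∑ l ∈ FL, cF l ^ 2 = b ^ 2 * wf) (hwf0 : 0 ≤ wf) {G : ℝ → ℝ} (hG : Measurable G)
    (hG0 : ∀ r, 0 ≤ r → 0 ≤ G r) {P Lr : ℝ} (hP0 : 0 ≤ P) (hP : ∀ r, 0 ≤ r → G r ≤ P)
    (hL0 : 0 ≤ Lr) (hL : ∀ r r', 0 ≤ r → 0 ≤ r' → |G r - G r'| ≤ Lr * |r - r'|) :
    (∀ {a e' : ℝ}, 1 - e' ≤ b * (1 - (1 - x) * r0) * t ^ 2 →
      1 - 1 / (b * (1 - (1 - x) * r0)) ^ 2 ≤ a →
      exS n b cB cF s η lam c x (fun z => G (√(Qv n b cB cF s η lam c x S BL FL z)) *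
        ((1 - e') * (b * x) * Qv n b cB cF s η lam c x S BL FL z ^ 2 + (1 - t - a) *
        Qv n b cB cF s η lam c x S BL FL z - wf)) ≤
      (C3v n b cB cF s η lam c x (1 - (1 - x) * r0) S BL FL i0
        (fun z => G (√(Qv n b cB cF s η lam c x S BL FL z))) +
        P * Er1 n b cB cF s η lam c x r0 t wf S S1 BL FL +
        E2n n b cB cF s η lam c x P Lr S BL FL i0) / (b * (1 - (1 - x) * r0)) ^ 2) ∧
    (∀ {a e e' : ℝ}, t ≤ 1 → b * (1 - (1 - x) * r0) ≤ 1 + e' →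
      n / S.card / (b * (1 - (1 - x) * r0)) ^ 2 +
        2 * (b * x * (b * (1 - (1 - x) * r0)) * wf) ≤ 1 - a + e →
      b * x * (b * (1 - (1 - x) * r0)) * wf ≤ e' →
      -((P * Er1 n b cB cF s η lam c x r0 t wf S S1 BL FL +
        E2n n b cB cF s η lam c x P Lr S BL FL i0) / (b * (1 - (1 - x) * r0)) ^ 2) ≤
      exS n b cB cF s η lam c x (fun z => G (√(Qv n b cB cF s η lam c x S BL FL z)) *
        ((1 + e') * (b * x) * Qv n b cB cF s η lam c x S BL FL z ^ 2 + (1 - t - a + e) *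
        Qv n b cB cF s η lam c x S BL FL z - (1 - e') * wf))) := by
  have hk' : 0 ≤ 1 - (1 - x) * r0 := by
    by_contra h
    push Not at h
    have := mul_neg_of_pos_of_neg hb h
    linarith
  have ht0 : 0 ≤ t := by rw [← ht]; exact Finset.sum_nonneg fun _ _ => sq_nonneg _
  have bQ : BM (Qv n b cB cF s η lam c x S BL FL) := bm_Qv hl hη S BL FL
  have dQ : Dep (Kset S BL FL) (Qv n b cB cF s η lam c x S BL FL) := dep_Qv S BL FL
  have hGa : ∀ r, 0 ≤ r → |G r| ≤ P := fun r hr => by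
    rw [abs_of_nonneg (hG0 r hr)]; exact hP r hr
  have bφ : BM fun z => G (√(Qv n b cB cF s η lam c x S BL FL z)) :=
    ⟨hG.comp bQ.meas.sqrt, P, fun z => hGa _ (Real.sqrt_nonneg _)⟩
  have dφ : Dep (Kset S BL FL) fun z => G (√(Qv n b cB cF s η lam c x S BL FL z)) := by
    intro z z'
    simp only [dQ z z']
  have hφ0 : ∀ z, 0 ≤ G (√(Qv n b cB cF s η lam c x S BL FL z)) := fun z =>
    hG0 _ (Real.sqrt_nonneg _)
  have her := er_le (b := b) (cB := cB) (cF := cF) (s := s) (c := c) (BL := BL) (FL := FL) hl hη hx0.le hx1.le hk'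
    S S1 ht0 hwf0 bφ hφ0 hP0 fun z => hP _ (Real.sqrt_nonneg _)
  have he2 := e2_of (b := b) (cB := cB) (cF := cF) (s := s) (c := c) (x := x) hl hη hn hSn hi0
    BL FL hG hGa hL0 hL
  have key := point_two hl hη hη1 hs hx0.le hx1 hn hc hk hb hS hi0 hne dφ bφ hφ0 ht hwf hwf0
    her he2
  refine ⟨fun {a e'} h1 h2 => key.1 ?_ h1 h2, fun {a e e'} h1 h2 h3 h4 => key.2 h1 h2 h3 h4⟩
  rw [one_le_div (by exact_mod_cast hSn.card_pos)]
  have := Finset.card_le_univ S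
  rw [Fintype.card_fin] at this
  exact_mod_cast this

/-- **lower bound of `E Q^2`** -/
theorem point_low {S S1 : Finset (Fin n)} (hS : S ⊆ S1) (hSn : S.Nonempty) {i0 : Fin n}
    (hi0 : i0 ∉ S) (hne : (S1 \ S).Nonempty) {t wf : ℝ} (ht : ∑ l ∈ BL, cB l ^ 2 = t)
    (hwf : ∑ l ∈ FL, cF l ^ 2 = b ^ 2 * wf) (hwf0 : 0 < wf) {a e e' : ℝ} (he0 : 0 ≤ e')
    (he1 : e' < 1) (ht1 : t ≤ 1) (hA1 : b * (1 - (1 - x) * r0) ≤ 1 + e')
    (hae : n / S.card / (b * (1 - (1 - x) * r0)) ^ 2 +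
        2 * (b * x * (b * (1 - (1 - x) * r0)) * wf) ≤ 1 - a + e)
    (hwe : b * x * (b * (1 - (1 - x) * r0)) * wf ≤ e') {c1 a1 w1 ρ P Lr : ℝ}
    (hc1 : c1 = (1 + e') * (b * x)) (ha1 : a1 = a - e) (hw1 : w1 = (1 - e') * wf)
    (hρ : ρ = rho c1 a1 w1 (1 - t)) (hP : P = 1 / c1 + ρ ^ 2 / w1)
    (hLr : Lr = (1 + c1 * ρ ^ 2 / w1) * √(ρ / (c1 * w1))) :
    ρ ^ 2 - (P * Er1 n b cB cF s η lam c x r0 t wf S S1 BL FL +
        E2n n b cB cF s η lam c x P Lr S BL FL i0) / (b * (1 - (1 - x) * r0)) ^ 2 ≤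
      exS n b cB cF s η lam c x (fun z => Qv n b cB cF s η lam c x S BL FL z ^ 2) := by
  have hc0 : 0 < c1 := by rw [hc1]; exact mul_pos (by linarith) (mul_pos hb hx0)
  have hw0 : 0 < w1 := by rw [hw1]; exact mul_pos (by linarith) hwf0
  have hρ0 : 0 < ρ := by rw [hρ]; exact rho_pos hc0 hw0
  have hP0 : 0 ≤ P := by rw [hP]; positivity
  have hL0 : 0 ≤ Lr := by rw [hLr]; positivity
  have hw : Wt (g1 (Co n LB LF)) (wS n b cB cF s η lam c x) := wtA b cB cF s hl hη c x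
  have bQ : BM (Qv n b cB cF s η lam c x S BL FL) := bm_Qv hl hη S BL FL
  have hQ0 : ∀ z, 0 ≤ Qv n b cB cF s η lam c x S BL FL z := Qv_nonneg S BL FL
  have key := (point_G hl hη hη1 hs hx0 hx1 hn hc hk hb hS hSn hi0 hne ht hwf hwf0.le
    (G := fun r => phi c1 a1 w1 (1 - t) (r ^ 2))
    ((measurable_phi c1 a1 w1 (1 - t)).comp (measurable_id.pow_const 2))
    (fun r _ => (phi_pos hc0 hw0 (sq_nonneg r)).le) hP0
    (fun r _ => by rw [hP, hρ]; exact phi_le hc0 hw0 (sq_nonneg r)) hL0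
    (fun r r' hr hr' => by rw [hLr, hρ]; exact phi_lip_r hc0 hw0 hr hr')).2
    ht1 hA1 hae hwe
  rw [hρ]
  refine tested_low hc0 hw0 (exS n b cB cF s η lam c x) hQ0 ?_ ?_
  · show ex _ _ _ = _ + ex _ _ _
    rw [ex_sub hw (bsq bQ) (BM.const _), ex_const hw]
    ring
  · refine key.trans (le_of_eq ?_)
    congr 1
    funext z
    simp only [Real.sq_sqrt (hQ0 z)]
    rw [hc1, ha1, hw1]
    ring

/-- **upper bound of `E Q^2`**, given a bound of the third order term -/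
theorem point_up {S S1 : Finset (Fin n)} (hS : S ⊆ S1) (hSn : S.Nonempty) {i0 : Fin n}
    (hi0 : i0 ∉ S) (hne : (S1 \ S).Nonempty) {t wf : ℝ} (ht : ∑ l ∈ BL, cB l ^ 2 = t)
    (hwf : ∑ l ∈ FL, cF l ^ 2 = b ^ 2 * wf) (hwf0 : 0 < wf) {a e' e3 err3 : ℝ}
    (hAt : 1 - e' ≤ b * (1 - (1 - x) * r0) * t ^ 2)
    (ha : 1 - 1 / (b * (1 - (1 - x) * r0)) ^ 2 ≤ a) (he : e' + e3 < 1) {c1 ρ P Lr : ℝ}
    (hc1 : c1 = (1 - e' - e3) * (b * x))
    (hρ : ρ = rho c1 a wf (1 - t)) (hP : P = 1 / c1 + ρ ^ 2 / wf)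
    (hLr : Lr = (1 + c1 * ρ ^ 2 / wf) * √(ρ / (c1 * wf)))
    (hC3 : C3v n b cB cF s η lam c x (1 - (1 - x) * r0) S BL FL i0
        (fun z => phi c1 a wf (1 - t) (Qv n b cB cF s η lam c x S BL FL z)) ≤
      (b * (1 - (1 - x) * r0)) ^ 2 * (e3 * (b * x) * exS n b cB cF s η lam c x (fun z =>
        phi c1 a wf (1 - t) (Qv n b cB cF s η lam c x S BL FL z) *
          Qv n b cB cF s η lam c x S BL FL z ^ 2)) + err3) :
    exS n b cB cF s η lam c x (fun z => Qv n b cB cF s η lam c x S BL FL z ^ 2) ≤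
      ρ ^ 2 + (err3 + P * Er1 n b cB cF s η lam c x r0 t wf S S1 BL FL +
        E2n n b cB cF s η lam c x P Lr S BL FL i0) / (b * (1 - (1 - x) * r0)) ^ 2 := by
  have hc0 : 0 < c1 := by rw [hc1]; exact mul_pos (by linarith) (mul_pos hb hx0)
  have hρ0 : 0 < ρ := by rw [hρ]; exact rho_pos hc0 hwf0
  have hP0 : 0 ≤ P := by rw [hP]; positivity
  have hL0 : 0 ≤ Lr := by rw [hLr]; positivity
  have hw : Wt (g1 (Co n LB LF)) (wS n b cB cF s η lam c x) := wtA b cB cF s hl hη c x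
  have bQ : BM (Qv n b cB cF s η lam c x S BL FL) := bm_Qv hl hη S BL FL
  have hQ0 : ∀ z, 0 ≤ Qv n b cB cF s η lam c x S BL FL z := Qv_nonneg S BL FL
  have key := (point_G hl hη hη1 hs hx0 hx1 hn hc hk hb hS hSn hi0 hne ht hwf hwf0.le
    (G := fun r => phi c1 a wf (1 - t) (r ^ 2))
    ((measurable_phi c1 a wf (1 - t)).comp (measurable_id.pow_const 2))
    (fun r _ => (phi_pos hc0 hwf0 (sq_nonneg r)).le) hP0
    (fun r _ => by rw [hP, hρ]; exact phi_le hc0 hwf0 (sq_nonneg r)) hL0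
    (fun r r' hr hr' => by rw [hLr, hρ]; exact phi_lip_r hc0 hwf0 hr hr')).1 hAt ha
  simp only [Real.sq_sqrt (hQ0 _)] at key
  set A := b * (1 - (1 - x) * r0) with hA
  set Q := Qv n b cB cF s η lam c x S BL FL with hQ
  have bφ : BM fun z => phi c1 a wf (1 - t) (Q z) := bm_phiQ bQ hQ0 hc0 hwf0
  have hA2 : 0 < A ^ 2 := by positivity
  rw [hρ]
  refine tested_up hc0 hwf0 (exS n b cB cF s η lam c x) hQ0 ?_ ?_
  · show ex _ _ _ = _ + ex _ _ _
    rw [ex_sub hw (bsq bQ) (BM.const _), ex_const hw]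
    ring
  · have e : exS n b cB cF s η lam c x (fun z => phi c1 a wf (1 - t) (Q z) *
        (c1 * Q z ^ 2 + (1 - t - a) * Q z - wf)) =
        exS n b cB cF s η lam c x (fun z => phi c1 a wf (1 - t) (Q z) *
        ((1 - e') * (b * x) * Q z ^ 2 + (1 - t - a) * Q z - wf)) -
        e3 * (b * x) * exS n b cB cF s η lam c x
          (fun z => phi c1 a wf (1 - t) (Q z) * Q z ^ 2) := by
      show ex _ _ _ = ex _ _ _ - _ * ex _ _ _
      rw [← ex_cmul, ← ex_sub hw (bφ.mul (((bcm _ (bsq bQ)).add (bcm _ bQ)).sub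
        (BM.const _))) (bcm _ (bφ.mul (bsq bQ)))]
      congr 1
      funext z
      rw [hc1]
      ring
    rw [e]
    have h1 := key.trans (div_le_div_of_nonneg_right (add_le_add (add_le_add hC3 le_rfl)
      le_rfl) hA2.le)
    have h2 : (A ^ 2 * (e3 * (b * x) * exS n b cB cF s η lam c x (fun z =>
        phi c1 a wf (1 - t) (Q z) * Q z ^ 2)) + err3 +
        P * Er1 n b cB cF s η lam c x r0 t wf S S1 BL FL +
        E2n n b cB cF s η lam c x P Lr S BL FL i0) / A ^ 2 =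
        e3 * (b * x) * exS n b cB cF s η lam c x (fun z =>
        phi c1 a wf (1 - t) (Q z) * Q z ^ 2) + (err3 +
        P * Er1 n b cB cF s η lam c x r0 t wf S S1 BL FL +
        E2n n b cB cF s η lam c x P Lr S BL FL i0) / A ^ 2 := by
      field_simp
      ring
    rw [h2] at h1
    linarith

/-- **regime 2 at the model**, given a bound of the third order term -/
theorem point_up2 {S S1 : Finset (Fin n)} (hS : S ⊆ S1) (hSn : S.Nonempty) {i0 : Fin n}
    (hi0 : i0 ∉ S) (hne : (S1 \ S).Nonempty) {t wf : ℝ} (ht : ∑ l ∈ BL, cB l ^ 2 = t)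
    (hwf : ∑ l ∈ FL, cF l ^ 2 = b ^ 2 * wf) (hwf0 : 0 ≤ wf) {a e' e3 err3 U : ℝ} (hU : 0 ≤ U)
    (hAt : 1 - e' ≤ b * (1 - (1 - x) * r0) * t ^ 2)
    (ha : 1 - 1 / (b * (1 - (1 - x) * r0)) ^ 2 ≤ a) (he : e' + e3 ≤ 1) (haT : a < 1 - t)
    (hC3 : C3v n b cB cF s η lam c x (1 - (1 - x) * r0) S BL FL i0
        (fun z => min (Qv n b cB cF s η lam c x S BL FL z) U) ≤
      (b * (1 - (1 - x) * r0)) ^ 2 * (e3 * (b * x) * exS n b cB cF s η lam c x (fun z =>
        min (Qv n b cB cF s η lam c x S BL FL z) U *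
          Qv n b cB cF s η lam c x S BL FL z ^ 2)) + err3) :
    exS n b cB cF s η lam c x (fun z => Qv n b cB cF s η lam c x S BL FL z ^ 2) ≤
      wf ^ 2 / (1 - t - a) ^ 2 + 2 * ((err3 +
        U * Er1 n b cB cF s η lam c x r0 t wf S S1 BL FL +
        E2n n b cB cF s η lam c x U (2 * √U) S BL FL i0) / (b * (1 - (1 - x) * r0)) ^ 2) /
        (1 - t - a) + ((1 + η) ^ 2) ^ 2 *
        exS n b cB cF s η lam c x (ind U (Qv n b cB cF s η lam c x S BL FL)) := by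
  have hw : Wt (g1 (Co n LB LF)) (wS n b cB cF s η lam c x) := wtA b cB cF s hl hη c x
  have bQ : BM (Qv n b cB cF s η lam c x S BL FL) := bm_Qv hl hη S BL FL
  have hQ0 : ∀ z, 0 ≤ Qv n b cB cF s η lam c x S BL FL z := Qv_nonneg S BL FL
  have hlip : ∀ r r' : ℝ, 0 ≤ r → 0 ≤ r' →
      |min (r ^ 2) U - min (r' ^ 2) U| ≤ 2 * √U * |r - r'| := by
    intro r r' hr hr'
    have hs0 : 0 ≤ √U := Real.sqrt_nonneg U
    have hsq : √U ^ 2 = U := Real.sq_sqrt hU
    have hm : ∀ q : ℝ, 0 ≤ q → min (q ^ 2) U = (min q (√U)) ^ 2 := by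
      intro q hq
      rcases le_total q (√U) with h | h
      · rw [min_eq_left h, min_eq_left]
        rw [← hsq]
        exact pow_le_pow_left₀ hq h 2
      · rw [min_eq_right h, hsq, min_eq_right]
        rw [← hsq]
        exact pow_le_pow_left₀ hs0 h 2
    have e : min r (√U) ^ 2 - min r' (√U) ^ 2 =
        (min r (√U) + min r' (√U)) * (min r (√U) - min r' (√U)) := by ring
    rw [hm r hr, hm r' hr', e, abs_mul]
    have h1 : |min r (√U) - min r' (√U)| ≤ |r - r'| := by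
      refine (abs_min_sub_min_le_max _ _ _ _).trans ?_
      rw [sub_self, abs_zero]
      exact max_le le_rfl (abs_nonneg _)
    have h2 : |min r (√U) + min r' (√U)| ≤ 2 * √U := by
      rw [abs_of_nonneg (add_nonneg (le_min hr hs0) (le_min hr' hs0))]
      linarith [min_le_right r (√U), min_le_right r' (√U)]
    exact mul_le_mul h2 h1 (abs_nonneg _) (by positivity)
  have key := (point_G hl hη hη1 hs hx0 hx1 hn hc hk hb hS hSn hi0 hne ht hwf hwf0
    (G := fun r => min (r ^ 2) U) (P := U) (Lr := 2 * √U)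
    ((measurable_id.pow_const 2).min measurable_const)
    (fun r _ => le_min (sq_nonneg r) hU) hU (fun r _ => min_le_right _ _) (by positivity)
    hlip).1 hAt ha
  simp only [Real.sq_sqrt (hQ0 _)] at key
  have hQB : ∀ z, Qv n b cB cF s η lam c x S BL FL z ≤ (1 + η) ^ 2 := by
    intro z
    have hn' : (0 : ℝ) < n := Nat.cast_pos.2 hn
    unfold Qv
    rw [div_le_iff₀ hn']
    unfold m2
    have h1 : ∀ j ∈ S, Mv n b cB cF s η lam c x S BL FL j z ^ 2 ≤ (1 + η) ^ 2 := by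
      intro j _
      rw [← sq_abs]
      refine pow_le_pow_left₀ (abs_nonneg _) ?_ 2
      refine hw.abs_cx_le _ ((av_gm (gmA (n := n) b cB cF s hl hη c) 1).bm
        ((bm_of_al (n := n) hη).mul (H347.bm_sp j))) (fun z' => ?_) z
      exact abs_Fa b cB cF s η hl hη c j z'
    calc ∑ j ∈ S, Mv n b cB cF s η lam c x S BL FL j z ^ 2 ≤ ∑ _j ∈ S, (1 + η) ^ 2 :=
          Finset.sum_le_sum h1
      _ = S.card * (1 + η) ^ 2 := by rw [Finset.sum_const, nsmul_eq_mul]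
      _ ≤ n * (1 + η) ^ 2 := by
          refine mul_le_mul_of_nonneg_right ?_ (sq_nonneg _)
          have := Finset.card_le_univ S
          rw [Fintype.card_fin] at this
          exact_mod_cast this
      _ = _ := by ring
  set A := b * (1 - (1 - x) * r0) with hA
  set Q := Qv n b cB cF s η lam c x S BL FL with hQ
  have bφ : BM fun z => min (Q z) U := bm_min bQ U
  have hA2 : 0 < A ^ 2 := by positivity
  refine regime2 hw bQ hQ0 hQB hU (c := (1 - e' - e3) * (b * x))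
    (mul_nonneg (by linarith) (mul_nonneg hb.le hx0.le)) (by linarith) hwf0 ?_
  have e : ex (g1 (Co n LB LF)) (wS n b cB cF s η lam c x) (fun z => min (Q z) U *
      ((1 - e' - e3) * (b * x) * Q z ^ 2 + (1 - t - a) * Q z - wf)) =
      exS n b cB cF s η lam c x (fun z => min (Q z) U *
      ((1 - e') * (b * x) * Q z ^ 2 + (1 - t - a) * Q z - wf)) -
      e3 * (b * x) * exS n b cB cF s η lam c x (fun z => min (Q z) U * Q z ^ 2) := by
    show ex _ _ _ = ex _ _ _ - _ * ex _ _ _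
    rw [← ex_cmul, ← ex_sub hw (bφ.mul (((bcm _ (bsq bQ)).add (bcm _ bQ)).sub
      (BM.const _))) (bcm _ (bφ.mul (bsq bQ)))]
    congr 1
    funext z
    ring
  rw [e]
  have h1 := key.trans (div_le_div_of_nonneg_right (add_le_add (add_le_add hC3 le_rfl)
    le_rfl) hA2.le)
  have h2 : (A ^ 2 * (e3 * (b * x) * exS n b cB cF s η lam c x (fun z =>
      min (Q z) U * Q z ^ 2)) + err3 +
      U * Er1 n b cB cF s η lam c x r0 t wf S S1 BL FL +
      E2n n b cB cF s η lam c x U (2 * √U) S BL FL i0) / A ^ 2 =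
      e3 * (b * x) * exS n b cB cF s η lam c x (fun z => min (Q z) U * Q z ^ 2) + (err3 +
      U * Er1 n b cB cF s η lam c x r0 t wf S S1 BL FL +
      E2n n b cB cF s η lam c x U (2 * √U) S BL FL i0) / A ^ 2 := by
    field_simp
    ring
  rw [h2] at h1
  linarith

end main

end Vale.Agent.P146.H615
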