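import Vale.Agent.P146.H615.NumU

/-!
# P146: the error of the row equation at a typical point

`xe_pt`: `XE P Lr ≤ P n^(-1890 q) y^3 + Lr n^(-2880 q) y^3 √y` at every typical point with
`T ≥ n^(-71 q) y^2`.
-/

open MeasureTheory ProbabilityTheory Filter Set

namespace Vale.Agent.P146.H615

open Vale.Agent.P157.Lv hiding Dep
open Vale.Agent.P146.H425 Vale.Agent.P146.H646
open Vale.Agent.P146.H325 hiding cb cf
open Vale.Agent.P146.H196 Vale.Agent.P146.H347 Vale.Agent.P146.H475 Vale.Agent.P146.H418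
  Vale.Agent.P146.H412 Vale.Agent.P146.H320 Vale.Agent.P146.H529 Vale.Agent.P146.H470
  Vale.Agent.P146.H516

set_option linter.unusedSectionVars false

variable {a0 b₁ q A b D : ℝ} {n : ℕ} {y V al s lam η T u : ℝ}

lemma alg_e1c {b x kp η U wf θ rk : ℝ} (hb : 0 < b) (hk : 0 < kp) :
    E1c b x kp η U wf θ rk / (b * kp) ^ 2 =
      5 * (1 / kp) * (U * θ) + 2 * (wf * η) +
        x * b ^ 2 * (U ^ 2 * (23 * θ + (312 + 12 * kp) * η) + 42 * (U * √rk)) := by
  unfold E1c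
  field_simp

lemma NW.e1c_le (h : NW a0 b₁ q A b n y V al s lam η) (hT : (n : ℝ) ^ (-(71 * q)) * y ^ 2 ≤ T)
    (hT1 : T ≤ 1) {wf : ℝ} (hw : wf ≤ (n : ℝ) ^ (-(23 * q)) * y ^ 3) :
    E1c b y ((1 + al) / b) η (Uq q n y T) wf ((n : ℝ) ^ (-(2900 * q)) * y ^ 2)
      ((n : ℝ) ^ (106 * q) / (n * y ^ 3 * √T)) / (b * ((1 + al) / b)) ^ 2 ≤
      (n : ℝ) ^ (-(1890 * q)) * y ^ 3 / 2 := by
  obtain ⟨f1, f2, f3, f4, f5, f6, f7, f8, f9, f10, f11, f12, f13, f14⟩ := h.facts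
  obtain ⟨k1, k2, k3, k4, k5, k6, k7, k8⟩ := h.bd
  obtain ⟨hT0, t1, t2⟩ := logT h hT hT1
  have hn := h.env.n0
  have hy := h.env.y0
  have hb := h.b0
  have hη := h.kw.η0
  have hal := abs_le.1 h.al_small
  have hkp : 0 < (1 + al) / b := div_pos (by linarith) hb
  have hU0 := Uq_pos (q := q) hn hy hT0
  rw [alg_e1c hb hkp]
  have hk1 : 1 / ((1 + al) / b) ≤ 2 * b := by
    rw [one_div, inv_div, div_le_iff₀ (by linarith)]
    nlinarith
  have hk2 : (1 + al) / b ≤ 2 / b := div_le_div_of_nonneg_right (by linarith) hb.le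
  have hUl : Real.log (Uq q n y T) ≤ 73 / 2 * (q * Real.log n) + Real.log y := by
    unfold Uq
    simp (disch := positivity) only [Real.log_mul, Real.log_rpow, Real.log_pow, Real.log_div,
      Real.log_sqrt]
    push_cast
    linarith
  have c10 := log_c 10 (by norm_num)
  have c12 := log_c 12 (by norm_num)
  have c2 := log_c 2 (by norm_num)
  have c23 := log_c 23 (by norm_num)
  have c42 := log_c 42 (by norm_num)
  have c312 := log_c 312 (by norm_num)
  have c24 := log_c 24 (by norm_num)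
  have hP : (0 : ℝ) < (n : ℝ) ^ (-(1890 * q)) * y ^ 3 / 12 := by positivity
  have x1 : 10 * b * (Uq q n y T * ((n : ℝ) ^ (-(2900 * q)) * y ^ 2)) ≤
      (n : ℝ) ^ (-(1890 * q)) * y ^ 3 / 12 := by
    refine le_of_log (by positivity) hP ?_
    simp (disch := positivity) only [Real.log_mul, Real.log_rpow, Real.log_pow, Real.log_div]
    push_cast
    linarith
  have x2 : 2 * ((n : ℝ) ^ (-(23 * q)) * y ^ 3 * η) ≤ (n : ℝ) ^ (-(1890 * q)) * y ^ 3 / 12 := by
    refine le_of_log (by positivity) hP ?_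
    simp (disch := positivity) only [Real.log_mul, Real.log_rpow, Real.log_pow, Real.log_div]
    push_cast
    linarith
  have x3 : y * b ^ 2 * (Uq q n y T ^ 2 * (23 * ((n : ℝ) ^ (-(2900 * q)) * y ^ 2))) ≤
      (n : ℝ) ^ (-(1890 * q)) * y ^ 3 / 12 := by
    refine le_of_log (by positivity) hP ?_
    simp (disch := positivity) only [Real.log_mul, Real.log_rpow, Real.log_pow, Real.log_div]
    push_cast
    linarith
  have x4 : y * b ^ 2 * (Uq q n y T ^ 2 * (312 * η)) ≤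
      (n : ℝ) ^ (-(1890 * q)) * y ^ 3 / 12 := by
    refine le_of_log (by positivity) hP ?_
    simp (disch := positivity) only [Real.log_mul, Real.log_rpow, Real.log_pow, Real.log_div]
    push_cast
    linarith
  have x5 : y * b ^ 2 * (Uq q n y T ^ 2 * (24 / b * η)) ≤
      (n : ℝ) ^ (-(1890 * q)) * y ^ 3 / 12 := by
    refine le_of_log (by positivity) hP ?_
    simp (disch := positivity) only [Real.log_mul, Real.log_rpow, Real.log_pow, Real.log_div]
    push_cast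
    linarith
  have x6 : y * b ^ 2 * (42 * (Uq q n y T * √((n : ℝ) ^ (106 * q) / (n * y ^ 3 * √T)))) ≤
      (n : ℝ) ^ (-(1890 * q)) * y ^ 3 / 12 := by
    refine le_of_log (by positivity) hP ?_
    simp (disch := positivity) only [Real.log_mul, Real.log_rpow, Real.log_pow, Real.log_div,
      Real.log_sqrt]
    push_cast
    linarith
  have z1 : 5 * (1 / ((1 + al) / b)) * (Uq q n y T * ((n : ℝ) ^ (-(2900 * q)) * y ^ 2)) ≤
      10 * b * (Uq q n y T * ((n : ℝ) ^ (-(2900 * q)) * y ^ 2)) :=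
    mul_le_mul_of_nonneg_right (by linarith) (by positivity)
  have z2 : 2 * (wf * η) ≤ 2 * ((n : ℝ) ^ (-(23 * q)) * y ^ 3 * η) :=
    mul_le_mul_of_nonneg_left (mul_le_mul_of_nonneg_right hw hη.le) (by norm_num)
  have z3 : y * b ^ 2 * (Uq q n y T ^ 2 * (12 * ((1 + al) / b) * η)) ≤
      y * b ^ 2 * (Uq q n y T ^ 2 * (24 / b * η)) := by
    have : 12 * ((1 + al) / b) ≤ 24 / b := by
      rw [show (24 : ℝ) / b = 12 * (2 / b) by ring]
      linarith
    gcongr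
  have e : y * b ^ 2 * (Uq q n y T ^ 2 * (23 * ((n : ℝ) ^ (-(2900 * q)) * y ^ 2) +
      (312 + 12 * ((1 + al) / b)) * η) +
        42 * (Uq q n y T * √((n : ℝ) ^ (106 * q) / (n * y ^ 3 * √T)))) =
      y * b ^ 2 * (Uq q n y T ^ 2 * (23 * ((n : ℝ) ^ (-(2900 * q)) * y ^ 2))) +
      y * b ^ 2 * (Uq q n y T ^ 2 * (312 * η)) +
      y * b ^ 2 * (Uq q n y T ^ 2 * (12 * ((1 + al) / b) * η)) +
      y * b ^ 2 * (42 * (Uq q n y T * √((n : ℝ) ^ (106 * q) / (n * y ^ 3 * √T)))) := by ring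
  rw [e]
  linarith

lemma NW.inc_n (h : NW a0 b₁ q A b n y V al s lam η) (hT : (n : ℝ) ^ (-(71 * q)) * y ^ 2 ≤ T)
    (hT1 : T ≤ 1) :
    4 * ((n : ℝ) ^ (112 * q) / √T / n) ≤ (n : ℝ) ^ (-(1890 * q)) * y ^ 3 / 2 := by
  obtain ⟨f1, f2, f3, f4, f5, f6, f7, f8, f9, f10, f11, f12, f13, f14⟩ := h.facts
  obtain ⟨hT0, t1, t2⟩ := logT h hT hT1
  have hn := h.env.n0
  have hy := h.env.y0
  have c4 := log_c 4 (by norm_num)
  have c2 := log_c 2 (by norm_num)
  refine le_of_log (by positivity) (by positivity) ?_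
  simp (disch := positivity) only [Real.log_mul, Real.log_rpow, Real.log_pow, Real.log_div,
    Real.log_sqrt]
  push_cast
  linarith

lemma NW.lr_n (h : NW a0 b₁ q A b n y V al s lam η) (hT : (n : ℝ) ^ (-(71 * q)) * y ^ 2 ≤ T)
    (hT1 : T ≤ 1) :
    4000 * (b ^ 2 * (Uq q n y T * √((n : ℝ) ^ (112 * q) / √T + 9 / 4 * Uq q n y T) / √n)) ≤
      (n : ℝ) ^ (-(2880 * q)) * y ^ 3 * √y := by
  obtain ⟨f1, f2, f3, f4, f5, f6, f7, f8, f9, f10, f11, f12, f13, f14⟩ := h.facts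
  obtain ⟨hT0, t1, t2⟩ := logT h hT hT1
  have hn := h.env.n0
  have hy := h.env.y0
  have hb := h.b0
  have hU0 := Uq_pos (q := q) hn hy hT0
  have hU1 := h.U_le hT hT1
  have hUl : Real.log (Uq q n y T) ≤ 73 / 2 * (q * Real.log n) + Real.log y := by
    unfold Uq
    simp (disch := positivity) only [Real.log_mul, Real.log_rpow, Real.log_pow, Real.log_div,
      Real.log_sqrt]
    push_cast
    linarith
  have c4 := log_c 4 (by norm_num)
  have c8 := log_c 4000 (by norm_num)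
  have c2 := log_c 2 (by norm_num)
  have hI : (1 : ℝ) ≤ (n : ℝ) ^ (112 * q) / √T := by
    refine le_of_log (by positivity) (by positivity) ?_
    simp (disch := positivity) only [Real.log_rpow, Real.log_div, Real.log_sqrt, Real.log_one]
    linarith
  have h1 : √((n : ℝ) ^ (112 * q) / √T + 9 / 4 * Uq q n y T) ≤
      √(2 * ((n : ℝ) ^ (112 * q) / √T)) := Real.sqrt_le_sqrt (by linarith)
  have h2 : 4000 * (b ^ 2 * (Uq q n y T * √((n : ℝ) ^ (112 * q) / √T + 9 / 4 * Uq q n y T) /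
      √n)) ≤ 4000 * (b ^ 2 * (Uq q n y T * √(2 * ((n : ℝ) ^ (112 * q) / √T)) / √n)) := by
    gcongr
  refine h2.trans ?_
  refine le_of_log (by positivity) (by positivity) ?_
  simp (disch := positivity) only [Real.log_mul, Real.log_rpow, Real.log_pow, Real.log_div,
    Real.log_sqrt]
  push_cast
  linarith

lemma alg_xe {P E Z I R Lr b U N M A1 L1 : ℝ} (hP : 0 ≤ P) (hLr : 0 ≤ Lr) (hE : E / Z ≤ A1 / 2)
    (hI : 4 * (I / N) ≤ A1 / 2) (hL : 4000 * (b ^ 2 * (U * R / √N)) ≤ L1) (hZ : 1 / 2 ≤ Z)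
    (hN : 0 < N) (hM : M ≤ N / 2) (hI0 : 0 ≤ I) (hU : 0 ≤ U) (hR : 0 ≤ R) :
    (P * E + P * I / (N - M) + 918 * b ^ 2 * Lr * U * R / √N) / Z ≤ P * A1 + Lr * L1 := by
  have hZ0 : 0 < Z := by linarith
  rw [add_div, add_div]
  have y1 : P * E / Z ≤ P * (A1 / 2) := by
    rw [mul_div_assoc]
    exact mul_le_mul_of_nonneg_left hE hP
  have y2 : P * I / (N - M) / Z ≤ P * (A1 / 2) := by
    refine le_trans ?_ (mul_le_mul_of_nonneg_left hI hP)
    rw [div_div, div_le_iff₀ (mul_pos (by linarith) hZ0)]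
    have y3 : N / 2 * (1 / 2) ≤ (N - M) * Z :=
      mul_le_mul (by linarith) hZ (by norm_num) (by linarith)
    have y4 : 0 ≤ P * (4 * (I / N)) := by positivity
    have y5 := mul_le_mul_of_nonneg_left y3 y4
    have e : P * (4 * (I / N)) * (N / 2 * (1 / 2)) = P * I := by
      field_simp
      ring
    rw [e] at y5
    exact y5
  have y3 : 918 * b ^ 2 * Lr * U * R / √N / Z ≤ Lr * L1 := by
    refine le_trans ?_ (mul_le_mul_of_nonneg_left hL hLr)
    rw [div_le_iff₀ hZ0]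
    have y4 : 0 ≤ Lr * (4000 * (b ^ 2 * (U * R / √N))) := by positivity
    have y5 := mul_le_mul_of_nonneg_left hZ y4
    have y6 : 0 ≤ Lr * (b ^ 2 * (U * R / √N)) := by positivity
    have e : 918 * b ^ 2 * Lr * U * R / √N = 918 * (Lr * (b ^ 2 * (U * R / √N))) := by ring
    rw [e]
    linarith
  linarith

/-- **The error of the row equation at a typical point.** -/
theorem xe_pt (h : NW a0 b₁ q A b n y V al s lam η) (hT : (n : ℝ) ^ (-(71 * q)) * y ^ 2 ≤ T)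
    (hT1 : T ≤ 1) (hu : u ∈ Icc (1 - 2 * dl q n) (1 - dl q n)) {m : ℕ}
    (hm : m ∈ Finset.Icc (mm q n y) (2 * mm q n y))
    (hp : PtN q D (lawOf n b y V al s lam η) (rq b y al) T u m) {P Lr : ℝ} (hP : 0 ≤ P)
    (hLr : 0 ≤ Lr) {i0 : Fin n} (hi : i0.1 + m = n) :
    H643.XE (lawOf n b y V al s lam η) (rq b y al) P Lr m (1 - T) u i0 ≤
      P * ((n : ℝ) ^ (-(1890 * q)) * y ^ 3) + Lr * ((n : ℝ) ^ (-(2880 * q)) * y ^ 3 * √y) := by
  obtain ⟨k1, k2, k3, k4, k5, k6, k7, k8⟩ := h.bd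
  have hT0 := (logT h hT hT1).1
  obtain ⟨v1, v2, v3, v4, v5⟩ := h.u_mem hu
  obtain ⟨m1, m2, m3, m4⟩ := h.mm_facts
  obtain ⟨hA, a1, a2⟩ := h.adm
  have hn := h.env.n0
  have hy := h.env.y0
  have hb := h.b0
  have hal := abs_le.1 h.al_small
  have hmI := Finset.mem_Icc.1 hm
  have hm2 : (m : ℝ) ≤ n / 2 := by
    have : (m : ℝ) ≤ 2 * (mm q n y : ℝ) := by exact_mod_cast hmI.2
    linarith
  have hmn : m ≤ n := by
    have : (m : ℝ) ≤ n := by linarith
    exact_mod_cast this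
  have hy1 : y < 1 := by linarith
  have hkp := rq_eq (b := b) (al := al) hy1
  have hk0 : 0 < (1 + al) / b := div_pos (by linarith) hb
  have hU1 : Uq q n y T ≤ 1 / 1000 := hp.U1
  have hU0 : 0 < Uq q n y T := hp.U0
  have key := xe_sk (L := lawOf n b y V al s lam η) hA (show η ≤ 1 / 2 by linarith)
    (r0 := rq b y al) (by
      show 0 ≤ 1 - (1 - y) * rq b y al
      rw [hkp]
      exact hk0.le) (m := m) hmn (t := 1 - T) (by linarith) (by linarith) (u := u) (by linarith)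
    (U := Uq q n y T) (θ := (n : ℝ) ^ (-(2900 * q)) * y ^ 2)
    (rk := (n : ℝ) ^ (106 * q) / (n * y ^ 3 * √T)) (P := P) (Lr := Lr)
    (I := (n : ℝ) ^ (112 * q) / √T) hp.wU hp.U0 (by linarith) (by
      show 8 * (y ^ 2 * b ^ 2) ≤ 1
      nlinarith [sq_nonneg (y * b)])
    (hp.ap.m1 _) (hp.ap.m2 _) (hp.rk _ (Or.inl rfl)) hp.th hP hLr hi (hp.inc i0 hi)
  have hkey : H643.XE (lawOf n b y V al s lam η) (rq b y al) P Lr m (1 - T) u i0 ≤
      (P * E1c b y ((1 + al) / b) η (Uq q n y T) (u * (V - s ^ 2) / b ^ 2)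
        ((n : ℝ) ^ (-(2900 * q)) * y ^ 2) ((n : ℝ) ^ (106 * q) / (n * y ^ 3 * √T)) +
        P * ((n : ℝ) ^ (112 * q) / √T) / (n - m) +
      918 * b ^ 2 * Lr * Uq q n y T * √((n : ℝ) ^ (112 * q) / √T + 9 / 4 * Uq q n y T) / √n) /
        (b * ((1 + al) / b)) ^ 2 := by
    rw [← hkp]
    exact key
  refine hkey.trans ?_
  have hbk : b * ((1 + al) / b) = 1 + al := by field_simp
  refine alg_xe hP hLr (h.e1c_le hT hT1 (hp.wf : u * (V - s ^ 2) / b ^ 2 ≤ _)) (h.inc_n hT hT1)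
    (h.lr_n hT hT1) ?_ hn hm2 (by positivity) hU0.le (Real.sqrt_nonneg _)
  rw [hbk]
  nlinarith

end Vale.Agent.P146.H615
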