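import Vale.Agent.P146.H615.PointS
import Vale.Agent.P146.H205.N4M
import Vale.Agent.P146.H412.K8

/-!
# P146: the errors of the tested row equation in closed numbers

The a-priori size `U` enters through two numbers: `E CC ≤ U^2` at the block `Kset univ BL FL` and
`E CC^2 ≤ U^4` at the block `Kset S BL FL`, `CC` = second moment of the overlap of two copies
(`H412.CCz`). `θ` bounds the relative error of the linear identities, `rk` the rank one defect,
`inc` the increment of `E |M|^2` in one step.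

* `er1_num`: the number `Er1` of `PointR`.
* `e2n_num`: the number `E2n` of `PointR`.
-/

open MeasureTheory ProbabilityTheory

namespace Vale.Agent.P146.H615

open Vale.Agent.P146.H196 Vale.Agent.P146.H646 Vale.Agent.P146.H347 Vale.Agent.P146.H475
  Vale.Agent.P157.Lv Vale.Agent.P146.H816 Vale.Agent.P146.H325 Vale.Agent.P146.H161
  Vale.Agent.P146.H205 Vale.Agent.P146.H197 Vale.Agent.P146.H317 Vale.Agent.P146.H412

set_option linter.unusedSectionVars false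

/-! ### numbers -/

lemma sqrt_le_num {a b : ℝ} (hb : 0 ≤ b) (h : a ≤ b ^ 2) : √a ≤ b := by
  rw [← Real.sqrt_sq hb]
  exact Real.sqrt_le_sqrt h

/-- the error of the tested row equation, all sizes put in -/
noncomputable def E1c (b x kp η U wf θ rk : ℝ) : ℝ :=
  2 * kp * b ^ 2 * (5 / 2 * (U * θ) + wf * (kp * η)) +
    x * kp ^ 2 * b ^ 4 * (U ^ 2 * (23 * θ + (312 + 12 * kp) * η) + 42 * (U * √rk))

lemma Er_num {b t wf η x kp d df u2 R rk e1 e2 e3 e4 U θ : ℝ} (hη : 0 ≤ η) (hη1 : η ≤ 1 / 2)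
    (hx : 0 ≤ x) (hk : 0 ≤ kp) (ht : 0 ≤ t) (ht1 : t ≤ 1) (hw0 : 0 ≤ wf) (hw : wf ≤ U)
    (hθ : 0 ≤ θ) (hd0 : 0 ≤ d) (hd : d ≤ √U * θ) (hdf0 : 0 ≤ df)
    (hdf : df ≤ θ + kp * η) (hu0 : 0 ≤ u2) (hu : u2 ≤ 13 * U ^ 2) (hr : R ≤ rk)
    (he1 : e1 ≤ 9 / 4 * U) (he2 : e2 ≤ 29 * U ^ 3) (he3 : e3 ≤ 13 * U ^ 2)
    (he4 : e4 ≤ 64 * U ^ 4) :
    Er b t wf η x kp d df u2 R e1 1 e2 e3 e4 ≤ E1c b x kp η U wf θ rk := by
  have hU : 0 ≤ U := hw0.trans hw
  have hsU : √U * √U = U := Real.mul_self_sqrt hU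
  -- square roots
  have s1 : √e1 ≤ 3 / 2 * √U := by
    refine sqrt_le_num (by positivity) (he1.trans (le_of_eq ?_))
    rw [mul_pow, Real.sq_sqrt hU]
    ring
  have s2 : √e2 ≤ 11 / 2 * (√U * U) := by
    refine sqrt_le_num (by positivity) (he2.trans ?_)
    have h1 : (11 / 2 * (√U * U)) ^ 2 = 121 / 4 * U ^ 3 := by
      rw [mul_pow, mul_pow, Real.sq_sqrt hU]
      ring
    rw [h1]
    have : 0 ≤ U ^ 3 := by positivity
    linarith
  have s3 : √e3 ≤ 4 * U := by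
    refine sqrt_le_num (by positivity) (he3.trans ?_)
    nlinarith [sq_nonneg U]
  have s4 : √e4 ≤ 8 * U ^ 2 := by
    refine sqrt_le_num (by positivity) (he4.trans (le_of_eq ?_))
    ring
  have s5 : √u2 ≤ 4 * U := by
    refine sqrt_le_num (by positivity) (hu.trans ?_)
    nlinarith [sq_nonneg U]
  have s6 : √R ≤ √rk := Real.sqrt_le_sqrt hr
  -- the rank one error
  have hDV : DVu t η u2 R ≤ 6 * (U * √rk) + 52 * (η ^ 2 * U ^ 2) := by
    unfold DVu
    have h1 : √u2 * (t * √R) ≤ (4 * U) * (1 * √rk) :=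
      mul_le_mul s5 (mul_le_mul ht1 s6 (Real.sqrt_nonneg _) zero_le_one)
        (mul_nonneg ht (Real.sqrt_nonneg _)) (by positivity)
    have h2 : 4 * η ^ 2 * u2 ≤ 4 * η ^ 2 * (13 * U ^ 2) :=
      mul_le_mul_of_nonneg_left hu (by positivity)
    linarith
  have hDV0 : 0 ≤ DVu t η u2 R := by
    unfold DVu
    positivity
  have h10 : 10 * η * (u2 + DVu t η u2 R) + 2 * DVu t η u2 R ≤
      312 * (η * U ^ 2) + 42 * (U * √rk) := by
    have h1 : 10 * η * u2 ≤ 10 * η * (13 * U ^ 2) := mul_le_mul_of_nonneg_left hu (by positivity)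
    have h2 : 10 * η * DVu t η u2 R ≤ 5 * DVu t η u2 R :=
      mul_le_mul_of_nonneg_right (by linarith) hDV0
    have h3 : η ^ 2 * U ^ 2 ≤ 1 / 2 * (η * U ^ 2) := by
      have : η * (η * U ^ 2) ≤ 1 / 2 * (η * U ^ 2) :=
        mul_le_mul_of_nonneg_right hη1 (by positivity)
      linarith
    linarith
  -- the terms with the linear identities
  have k1 : t * (d * √e1) ≤ 3 / 2 * (U * θ) := by
    have h1 : d * √e1 ≤ (√U * θ) * (3 / 2 * √U) :=
      mul_le_mul hd s1 (Real.sqrt_nonneg _) (by positivity)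
    have h2 : t * (d * √e1) ≤ 1 * ((√U * θ) * (3 / 2 * √U)) :=
      mul_le_mul ht1 h1 (by positivity) zero_le_one
    calc _ ≤ _ := h2
      _ = 3 / 2 * ((√U * √U) * θ) := by ring
      _ = _ := by rw [hsU]
  have hdf' : 0 ≤ θ + kp * η := by positivity
  have k0 : wf * (df * √1) ≤ U * θ + wf * (kp * η) := by
    rw [Real.sqrt_one, mul_one]
    have h1 := mul_le_mul_of_nonneg_left hdf hw0
    have h2 := mul_le_mul_of_nonneg_right hw hθ
    linarith
  have k2 : t * (d * √e2) ≤ 11 / 2 * (U ^ 2 * θ) := by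
    have h1 : d * √e2 ≤ (√U * θ) * (11 / 2 * (√U * U)) :=
      mul_le_mul hd s2 (Real.sqrt_nonneg _) (by positivity)
    have h2 : t * (d * √e2) ≤ 1 * ((√U * θ) * (11 / 2 * (√U * U))) :=
      mul_le_mul ht1 h1 (by positivity) zero_le_one
    calc _ ≤ _ := h2
      _ = 11 / 2 * ((√U * √U) * U * θ) := by ring
      _ = _ := by rw [hsU]; ring
  have k3 : wf * (df * √e3) ≤ 4 * (U ^ 2 * (θ + kp * η)) := by
    have h1 : df * √e3 ≤ (θ + kp * η) * (4 * U) :=
      mul_le_mul hdf s3 (Real.sqrt_nonneg _) hdf'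
    have h2 := mul_le_mul hw h1 (mul_nonneg hdf0 (Real.sqrt_nonneg _)) hU
    linarith
  have k4 : t * (df * √e4) ≤ 8 * (U ^ 2 * (θ + kp * η)) := by
    have h1 : df * √e4 ≤ (θ + kp * η) * (8 * U ^ 2) :=
      mul_le_mul hdf s4 (Real.sqrt_nonneg _) hdf'
    have h2 := mul_le_mul ht1 h1 (mul_nonneg hdf0 (Real.sqrt_nonneg _)) zero_le_one
    linarith
  unfold Er E1c
  have a1 : 2 * kp * (b ^ 2 * (t * (d * √e1) + wf * (df * √1))) ≤
      2 * kp * b ^ 2 * (5 / 2 * (U * θ) + wf * (kp * η)) := by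
    have := mul_le_mul_of_nonneg_left (add_le_add k1 k0) (by positivity : 0 ≤ 2 * kp * b ^ 2)
    calc _ = 2 * kp * b ^ 2 * (t * (d * √e1) + wf * (df * √1)) := by ring
      _ ≤ _ := this
      _ = _ := by ring
  have a2 : x * kp ^ 2 * (b ^ 4 * (10 * η * (u2 + DVu t η u2 R) + 2 * DVu t η u2 R +
      2 * (t * (d * √e2)) + wf * (df * √e3) + t * (df * √e4))) ≤
      x * kp ^ 2 * b ^ 4 * (U ^ 2 * (23 * θ + (312 + 12 * kp) * η) + 42 * (U * √rk)) := by
    rw [← mul_assoc]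
    refine mul_le_mul_of_nonneg_left ?_ (by positivity)
    linarith
  linarith

/-- the error of the bonds, in numbers -/
lemma d0_core {η x ρ R R' P D nn U θ r0 : ℝ} (hη : 0 ≤ η) (hη1 : η ≤ 1 / 2) (hx0 : 0 ≤ x)
    (hn : 0 < nn) (hP : 0 ≤ P) (hD : 0 ≤ D) (hU : 0 < U)
    (hR : √R ≤ nn * U) (hR' : √R' ≤ nn * U)
    (hθ : 5 / √D + 2 * |ρ| + 3 * ((|r0| + 1) * √P) / √U ≤ θ) :
    (√(8 * (1 + η) ^ 2 * √R / D) + (1 - x) * √(2 * ρ ^ 2 * √R' +
      2 * (nn * ((|r0| + 1) * (1 + η)) ^ 2 * P))) / √nn ≤ √U * θ := by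
  have hsn : 0 < √nn := Real.sqrt_pos.2 hn
  have hsU : 0 < √U := Real.sqrt_pos.2 hU
  set g := (|r0| + 1) * √P with hg
  have hg0 : 0 ≤ g := by positivity
  have hg2 : g ^ 2 = (|r0| + 1) ^ 2 * P := by rw [hg, mul_pow, Real.sq_sqrt hP]
  have h18 : 8 * (1 + η) ^ 2 ≤ 18 := by nlinarith
  have h94 : (1 + η) ^ 2 ≤ 9 / 4 := by nlinarith
  have hρ2 : |ρ| ^ 2 = ρ ^ 2 := sq_abs ρ
  have hD5 : (5 / √D) ^ 2 = 25 / D := by
    rw [div_pow, Real.sq_sqrt hD]
    norm_num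
  have hPP : ((|r0| + 1) * (1 + η)) ^ 2 * P ≤ 9 / 4 * g ^ 2 := by
    rw [hg2, mul_pow]
    have : 0 ≤ (|r0| + 1) ^ 2 * P := by positivity
    nlinarith
  rw [div_le_iff₀ hsn]
  have a1 : √(8 * (1 + η) ^ 2 * √R / D) ≤ √U * (5 / √D) * √nn := by
    refine sqrt_le_num (by positivity) ?_
    have e : (√U * (5 / √D) * √nn) ^ 2 = 25 * (nn * U) / D := by
      rw [mul_pow, mul_pow, hD5, Real.sq_sqrt hU.le, Real.sq_sqrt hn.le]
      ring
    rw [e]
    refine div_le_div_of_nonneg_right ?_ hD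
    have h1 : 8 * (1 + η) ^ 2 * √R ≤ 18 * (nn * U) :=
      mul_le_mul h18 hR (Real.sqrt_nonneg _) (by norm_num)
    have : 0 ≤ nn * U := by positivity
    linarith
  have a2 : (1 - x) * √(2 * ρ ^ 2 * √R' + 2 * (nn * ((|r0| + 1) * (1 + η)) ^ 2 * P)) ≤
      (√U * (2 * |ρ|) + 3 * g) * √nn := by
    have h1 : √(2 * ρ ^ 2 * √R' + 2 * (nn * ((|r0| + 1) * (1 + η)) ^ 2 * P)) ≤
        (√U * (2 * |ρ|) + 3 * g) * √nn := by
      refine sqrt_le_num (by positivity) ?_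
      have h2 : 2 * ρ ^ 2 * √R' ≤ 2 * ρ ^ 2 * (nn * U) :=
        mul_le_mul_of_nonneg_left hR' (by positivity)
      have h3 : nn * (((|r0| + 1) * (1 + η)) ^ 2 * P) ≤ nn * (9 / 4 * g ^ 2) :=
        mul_le_mul_of_nonneg_left hPP hn.le
      have h4 : ((√U * (2 * |ρ|) + 3 * g) * √nn) ^ 2 =
          4 * (nn * (U * ρ ^ 2)) + 12 * (nn * (√U * |ρ| * g)) + 9 * (nn * g ^ 2) := by
        have e2 : √U ^ 2 = U := Real.sq_sqrt hU.le
        rw [mul_pow, Real.sq_sqrt hn.le, ← hρ2]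
        calc _ = (4 * (√U ^ 2 * |ρ| ^ 2) + 12 * (√U * |ρ| * g) + 9 * g ^ 2) * nn := by ring
          _ = _ := by rw [e2]; ring
      rw [h4]
      have h5 : 0 ≤ nn * (√U * |ρ| * g) := by positivity
      have h6 : 0 ≤ nn * (U * ρ ^ 2) := by positivity
      have h7 : 0 ≤ nn * g ^ 2 := by positivity
      linarith
    calc _ ≤ 1 * _ := mul_le_mul_of_nonneg_right (by linarith) (Real.sqrt_nonneg _)
      _ ≤ _ := by rw [one_mul]; exact h1
  have e : √U * (3 * g / √U) = 3 * g := by field_simp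
  calc _ ≤ √U * (5 / √D) * √nn + (√U * (2 * |ρ|) + 3 * g) * √nn := add_le_add a1 a2
    _ = √U * (5 / √D + 2 * |ρ| + 3 * g / √U) * √nn := by
        rw [mul_add, mul_add, e]
        ring
    _ ≤ √U * θ * √nn := by gcongr

/-- the error of the own field, in numbers -/
lemma df_core {η x ρ P D U θ r0 : ℝ} (hη : 0 ≤ η) (hη1 : η ≤ 1 / 2) (hx0 : 0 ≤ x)
    (hP : 0 ≤ P) (hD : 0 ≤ D) (hU : 0 < U) (hU1 : U ≤ 1)
    (hθ : 5 / √D + 2 * |ρ| + 3 * ((|r0| + 1) * √P) / √U ≤ θ) :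
    √(8 * (1 + η) ^ 2 / D) + (1 - x) * √(2 * ρ ^ 2 +
      2 * (((|r0| + 1) * (1 + η)) ^ 2 * P)) ≤ θ := by
  have hsU : 0 < √U := Real.sqrt_pos.2 hU
  have hsU1 : √U ≤ 1 := Real.sqrt_le_one.2 hU1
  set g := (|r0| + 1) * √P with hg
  have hg0 : 0 ≤ g := by positivity
  have hg2 : g ^ 2 = (|r0| + 1) ^ 2 * P := by rw [hg, mul_pow, Real.sq_sqrt hP]
  have hg1 : g ≤ g / √U := by
    rw [le_div_iff₀ hsU]
    nlinarith
  have h18 : 8 * (1 + η) ^ 2 ≤ 18 := by nlinarith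
  have h94 : (1 + η) ^ 2 ≤ 9 / 4 := by nlinarith
  have hρ2 : |ρ| ^ 2 = ρ ^ 2 := sq_abs ρ
  have hD5 : (5 / √D) ^ 2 = 25 / D := by
    rw [div_pow, Real.sq_sqrt hD]
    norm_num
  have hPP : ((|r0| + 1) * (1 + η)) ^ 2 * P ≤ 9 / 4 * g ^ 2 := by
    rw [hg2, mul_pow]
    have : 0 ≤ (|r0| + 1) ^ 2 * P := by positivity
    nlinarith
  have a1 : √(8 * (1 + η) ^ 2 / D) ≤ 5 / √D := by
    refine sqrt_le_num (by positivity) ?_
    rw [hD5]
    exact div_le_div_of_nonneg_right (by linarith) hD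
  have a2 : (1 - x) * √(2 * ρ ^ 2 + 2 * (((|r0| + 1) * (1 + η)) ^ 2 * P)) ≤
      2 * |ρ| + 3 * g := by
    have h1 : √(2 * ρ ^ 2 + 2 * (((|r0| + 1) * (1 + η)) ^ 2 * P)) ≤ 2 * |ρ| + 3 * g := by
      refine sqrt_le_num (by positivity) ?_
      have h4 : (2 * |ρ| + 3 * g) ^ 2 = 4 * ρ ^ 2 + 12 * (|ρ| * g) + 9 * g ^ 2 := by
        rw [← hρ2]
        ring
      rw [h4]
      have h5 : 0 ≤ |ρ| * g := by positivity
      have h6 := sq_nonneg ρ
      have h7 := sq_nonneg g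
      linarith
    calc _ ≤ 1 * _ := mul_le_mul_of_nonneg_right (by linarith) (Real.sqrt_nonneg _)
      _ ≤ _ := by rw [one_mul]; exact h1
  calc _ ≤ 5 / √D + (2 * |ρ| + 3 * g) := add_le_add a1 a2
    _ ≤ 5 / √D + 2 * |ρ| + 3 * (g / √U) := by linarith
    _ = 5 / √D + 2 * |ρ| + 3 * g / √U := by ring
    _ ≤ θ := hθ

section main

variable {n : ℕ} {LB LF : Type} [Fintype LB] [DecidableEq LB] [Fintype LF] [DecidableEq LF]
variable {b s η lam c x r0 : ℝ} {cB : LB → ℝ} {cF : LF → ℝ} {BL : Finset LB} {FL : Finset LF}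

lemma abs_al32 {η : ℝ} (hη : 0 ≤ η) (hη1 : η ≤ 1 / 2) (t : ℝ) : |al η t| ≤ 3 / 2 := by
  have := al_mem hη t
  rw [abs_le]
  constructor <;> linarith [this.1, this.2]

/-- `E f ≤ √(E f^2)` -/
lemma ex_le_sqrt {κ : Type} [Fintype κ] [DecidableEq κ] {μ : κ → Measure ℝ}
    [∀ e, IsProbabilityMeasure (μ e)] {w f : (κ → ℝ) → ℝ} (hw : Wt μ w) (hf : BM f) :
    ex μ w f ≤ √(ex μ w (fun z => f z ^ 2)) := by
  have h := abs_ex_mul_le hw (BM.const 1) hf
  simp only [one_mul, one_pow] at h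
  rw [ex_const hw, Real.sqrt_one, one_mul] at h
  exact (le_abs_self _).trans h

section

variable (hl : 0 < lam) (hη : 0 ≤ η)
include hl hη

lemma bm_as (j : Fin n) : BM (avS (LB := LB) (LF := LF) b cB cF s η lam c
    (fun w => al η w.1 * sp w.2 j)) :=
  bmA b cB cF s hl hη c ((bm_of_al (n := n) hη).mul (bm_sp j))

/-- the block `Kset univ` has the largest second moments -/
lemma ex_univ (S : Finset (Fin n)) (BL : Finset LB) (FL : Finset LF)
    {Ψ : (Co n LB LF → ℝ) → ℝ} (hΨ : BM Ψ) :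
    exS n b cB cF s η lam c x (fun z => cxS n b cB cF s η lam c x (Kset S BL FL) Ψ z ^ 2) ≤
      exS n b cB cF s η lam c x
        (fun z => cxS n b cB cF s η lam c x (Kset Finset.univ BL FL) Ψ z ^ 2) :=
  ex_cx_sq_mono (wtA b cB cF s hl hη c x)
    (Kset_mono (Finset.subset_univ S) (Finset.Subset.refl _) (Finset.Subset.refl _)) hΨ

/-- all pairs at `Kset univ` -/
lemma ex_mo (BL : Finset LB) (FL : Finset LF) (hn : 0 < n) :
    ∑ j : Fin n, ∑ l : Fin n, exS n b cB cF s η lam c x (fun z =>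
      cxS n b cB cF s η lam c x (Kset Finset.univ BL FL)
        (avS b cB cF s η lam c (fun w => sp w.2 j * sp w.2 l)) z ^ 2) =
    (n : ℝ) ^ 2 * exS n b cB cF s η lam c x
      (CCz n b cB cF s η lam c x (Kset Finset.univ BL FL) Finset.univ) := by
  have hw := wtA (n := n) b cB cF s hl hη c x
  have bs : ∀ j l : Fin n, BM (avS (LB := LB) (LF := LF) b cB cF s η lam c
      (fun w => sp w.2 j * sp w.2 l)) := fun j l =>
    bmA b cB cF s hl hη c ((bm_sp j).mul (bm_sp l))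
  have hn0 : (0 : ℝ) < n := by exact_mod_cast hn
  rw [← ex_cmul]
  have e1 : (fun z => (n : ℝ) ^ 2 * CCz n b cB cF s η lam c x (Kset Finset.univ BL FL)
      Finset.univ z) = fun z => ∑ j : Fin n, ∑ l : Fin n,
      cxS n b cB cF s η lam c x (Kset Finset.univ BL FL)
        (avS b cB cF s η lam c (fun w => sp w.2 j * sp w.2 l)) z ^ 2 := by
    funext z
    unfold CCz
    rw [← mo_two_cx b cB cF s hl hη c x (Kset Finset.univ BL FL) Finset.univ z]
    field_simp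
  rw [e1, ex_sum hw _ fun j _ => BM.sum _ fun l _ => bsq (hw.bm_cx _ (bs j l))]
  refine Finset.sum_congr rfl fun j _ => ?_
  rw [ex_sum hw _ fun l _ => bsq (hw.bm_cx _ (bs j l))]

/-- the number `R2` of `H646` at every block `Kset S` -/
lemma R2_le (BL : Finset LB) (FL : Finset LF) (hn : 0 < n) (S : Finset (Fin n)) {U : ℝ}
    (hU : exS n b cB cF s η lam c x
      (CCz n b cB cF s η lam c x (Kset Finset.univ BL FL) Finset.univ) ≤ U ^ 2) :
    R2 n b cB cF s η lam c x (Kset S BL FL) ≤ (n * U) ^ 2 := by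
  have h1 : R2 n b cB cF s η lam c x (Kset S BL FL) ≤
      ∑ j : Fin n, ∑ l : Fin n, exS n b cB cF s η lam c x (fun z =>
      cxS n b cB cF s η lam c x (Kset Finset.univ BL FL)
        (avS b cB cF s η lam c (fun w => sp w.2 j * sp w.2 l)) z ^ 2) := by
    unfold R2
    exact Finset.sum_le_sum fun j _ => Finset.sum_le_sum fun l _ =>
      ex_univ hl hη S BL FL (bmA b cB cF s hl hη c ((bm_sp j).mul (bm_sp l)))
  rw [ex_mo hl hη BL FL hn] at h1
  refine h1.trans ?_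
  rw [mul_pow]
  exact mul_le_mul_of_nonneg_left hU (by positivity)

/-- the first moments at `Kset univ` -/
lemma ex_q1 (BL : Finset LB) (FL : Finset LF) (hn : 0 < n) {h : ℝ × Xs n → ℝ} (hh : Bm h)
    {C : ℝ} (hC : ∀ w, |h w| ≤ C) (hC0 : 0 ≤ C) {U : ℝ} (hU0 : 0 ≤ U)
    (hU : exS n b cB cF s η lam c x
      (CCz n b cB cF s η lam c x (Kset Finset.univ BL FL) Finset.univ) ≤ U ^ 2) :
    ∑ j : Fin n, exS n b cB cF s η lam c x (fun z =>
      cxS n b cB cF s η lam c x (Kset Finset.univ BL FL)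
        (avS b cB cF s η lam c (fun w => h w * sp w.2 j)) z ^ 2) ≤ C ^ 2 * (n * U) := by
  have hw := wtA (n := n) b cB cF s hl hη c x
  have hn0 : (0 : ℝ) < n := by exact_mod_cast hn
  have bs : ∀ j : Fin n, BM (avS (LB := LB) (LF := LF) b cB cF s η lam c
      (fun w => h w * sp w.2 j)) := fun j => bmA b cB cF s hl hη c (hh.mul (bm_sp j))
  have bC := bm_CCz hl hη c x b cB cF s (Kset Finset.univ BL FL) (Finset.univ : Finset (Fin n))
  have bR : BM fun z => √(CCz n b cB cF s η lam c x (Kset Finset.univ BL FL) Finset.univ z) := by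
    obtain ⟨C', hC'⟩ := bC.bd
    refine ⟨bC.meas.sqrt, √C', fun z => ?_⟩
    rw [abs_of_nonneg (Real.sqrt_nonneg _)]
    exact Real.sqrt_le_sqrt ((le_abs_self _).trans (hC' z))
  have key : ∀ z, ∑ j : Fin n, cxS n b cB cF s η lam c x (Kset Finset.univ BL FL)
        (avS b cB cF s η lam c (fun w => h w * sp w.2 j)) z ^ 2 ≤
      C ^ 2 * n * √(CCz n b cB cF s η lam c x (Kset Finset.univ BL FL) Finset.univ z) := by
    intro z
    have h1 := Qz_le hl hη hh hC hC0 c x b cB cF s hn (Kset Finset.univ BL FL) Finset.univ z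
    unfold Qz at h1
    rw [div_le_iff₀ hn0] at h1
    refine h1.trans (le_of_eq ?_)
    ring
  rw [← ex_sum hw _ fun j _ => bsq (hw.bm_cx _ (bs j))]
  refine (ex_mono hw (BM.sum _ fun j _ => bsq (hw.bm_cx _ (bs j))) (bcm _ bR) key).trans ?_
  rw [ex_cmul]
  have h2 := ex_le_sqrt hw bR
  have e2 : (fun z => √(CCz n b cB cF s η lam c x (Kset Finset.univ BL FL) Finset.univ z) ^ 2) =
      CCz n b cB cF s η lam c x (Kset Finset.univ BL FL) Finset.univ := by
    funext z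
    exact Real.sq_sqrt (CCz_nonneg hl hη c x b cB cF s _ _ z)
  rw [e2] at h2
  have h3 := h2.trans (sqrt_le_num hU0 hU)
  calc _ ≤ C ^ 2 * n * U := mul_le_mul_of_nonneg_left h3 (by positivity)
    _ = _ := by ring

/-- `Q ≤ (9/4) √CC` -/
lemma Qv_le (hη1 : η ≤ 1 / 2) (hn : 0 < n) (S : Finset (Fin n)) (BL : Finset LB)
    (FL : Finset LF) (z : Co n LB LF → ℝ) :
    Qv n b cB cF s η lam c x S BL FL z ≤
      9 / 4 * √(CCz n b cB cF s η lam c x (Kset S BL FL) S z) := by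
  have h1 := Qz_le hl hη (h := fun w : ℝ × Xs n => al η w.1) (bm_of_al (n := n) hη)
    (C := 3 / 2) (fun w => abs_al32 hη hη1 w.1) (by norm_num) c x b cB cF s hn
    (Kset S BL FL) S z
  refine le_trans (le_of_eq ?_) (h1.trans (le_of_eq ?_))
  · rfl
  · ring

/-- the moments of `Q` from one number -/
lemma Q_moms (hη1 : η ≤ 1 / 2) (hn : 0 < n) (S : Finset (Fin n)) (BL : Finset LB)
    (FL : Finset LF) {U : ℝ} (hU0 : 0 ≤ U)
    (hU : exS n b cB cF s η lam c x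
      (fun z => CCz n b cB cF s η lam c x (Kset S BL FL) S z ^ 2) ≤ U ^ 4) :
    exS n b cB cF s η lam c x (Qv n b cB cF s η lam c x S BL FL) ≤ 9 / 4 * U ∧
    exS n b cB cF s η lam c x (fun z => Qv n b cB cF s η lam c x S BL FL z ^ 2) ≤
      81 / 16 * U ^ 2 ∧
    exS n b cB cF s η lam c x (fun z => Qv n b cB cF s η lam c x S BL FL z ^ 3) ≤ 12 * U ^ 3 ∧
    exS n b cB cF s η lam c x (fun z => Qv n b cB cF s η lam c x S BL FL z ^ 4) ≤
      26 * U ^ 4 := by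
  have hw := wtA (n := n) b cB cF s hl hη c x
  have bC := bm_CCz hl hη c x b cB cF s (Kset S BL FL) S
  have bQ : BM (Qv n b cB cF s η lam c x S BL FL) := bm_Qv hl hη S BL FL
  have hQ0 : ∀ z, 0 ≤ Qv n b cB cF s η lam c x S BL FL z := Qv_nonneg S BL FL
  have hC0 : ∀ z, 0 ≤ CCz n b cB cF s η lam c x (Kset S BL FL) S z :=
    CCz_nonneg hl hη c x b cB cF s (Kset S BL FL) S
  have hQ := Qv_le (b := b) (cB := cB) (cF := cF) (s := s) (c := c) (x := x) hl hη hη1 hn S BL FL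
  set Q := Qv n b cB cF s η lam c x S BL FL with hQd
  set CC := CCz n b cB cF s η lam c x (Kset S BL FL) S with hCd
  have hQ2 : ∀ z, Q z ^ 2 ≤ 81 / 16 * CC z := by
    intro z
    have h1 := pow_le_pow_left₀ (hQ0 z) (hQ z) 2
    rw [mul_pow, Real.sq_sqrt (hC0 z)] at h1
    linarith
  have bQ2 : BM fun z => Q z ^ 2 := bsq bQ
  have bQ4 : BM fun z => (Q z ^ 2) ^ 2 := bsq bQ2
  have g1' : exS n b cB cF s η lam c x CC ≤ U ^ 2 := by
    refine (ex_le_sqrt hw bC).trans (sqrt_le_num (by positivity) (hU.trans (le_of_eq ?_)))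
    ring
  have m2 : exS n b cB cF s η lam c x (fun z => Q z ^ 2) ≤ 81 / 16 * U ^ 2 := by
    have h1 := ex_mono hw bQ2 (bcm (81 / 16) bC) hQ2
    rw [ex_cmul] at h1
    exact h1.trans (mul_le_mul_of_nonneg_left g1' (by norm_num))
  have m4 : exS n b cB cF s η lam c x (fun z => (Q z ^ 2) ^ 2) ≤ (81 / 16) ^ 2 * U ^ 4 := by
    have h1 := ex_mono hw bQ4 (bcm ((81 / 16) ^ 2) (bsq bC)) fun z => by
      have := pow_le_pow_left₀ (sq_nonneg (Q z)) (hQ2 z) 2
      rw [mul_pow] at this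
      exact this
    rw [ex_cmul] at h1
    exact h1.trans (mul_le_mul_of_nonneg_left hU (by norm_num))
  refine ⟨?_, m2, ?_, ?_⟩
  · refine (ex_le_sqrt hw bQ).trans (sqrt_le_num (by positivity) (m2.trans (le_of_eq ?_)))
    ring
  · have h1 := abs_ex_mul_le hw bQ bQ2
    have e1 : (fun z => Q z * Q z ^ 2) = fun z => Q z ^ 3 := by
      funext z
      ring
    rw [e1] at h1
    refine (le_abs_self _).trans (h1.trans ?_)
    have h2 : √(ex (g1 (Co n LB LF)) (Zxm (muA (Xs n) lam η c) 1 (Sm b cB cF s η) x)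
        (fun z => Q z ^ 2)) ≤ 9 / 4 * U := by
      refine sqrt_le_num (by positivity) (m2.trans (le_of_eq ?_))
      ring
    have h3 : √(ex (g1 (Co n LB LF)) (Zxm (muA (Xs n) lam η c) 1 (Sm b cB cF s η) x)
        (fun z => (Q z ^ 2) ^ 2)) ≤ 81 / 16 * U ^ 2 := by
      refine sqrt_le_num (by positivity) (m4.trans (le_of_eq ?_))
      ring
    refine (mul_le_mul h2 h3 (Real.sqrt_nonneg _) (by positivity)).trans ?_
    have : 0 ≤ U ^ 3 := by positivity
    nlinarith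
  · have e1 : (fun z => (Q z ^ 2) ^ 2) = fun z => Q z ^ 4 := by
      funext z
      ring
    rw [e1] at m4
    refine m4.trans ?_
    have : 0 ≤ U ^ 4 := by positivity
    nlinarith

end

/-- the moments of `t Q + wf` -/
lemma u_moms (hl : 0 < lam) (hη : 0 ≤ η) (hη1 : η ≤ 1 / 2) (hn : 0 < n) (S : Finset (Fin n))
    (BL : Finset LB) (FL : Finset LF) {t wf U : ℝ} (ht : 0 ≤ t) (ht1 : t ≤ 1) (hwf0 : 0 ≤ wf)
    (hwf : wf ≤ U) (hU : exS n b cB cF s η lam c x
      (fun z => CCz n b cB cF s η lam c x (Kset S BL FL) S z ^ 2) ≤ U ^ 4) :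
    exS n b cB cF s η lam c x
      (fun z => (t * Qv n b cB cF s η lam c x S BL FL z + wf) ^ 2) ≤ 13 * U ^ 2 ∧
    exS n b cB cF s η lam c x (fun z => (t * Qv n b cB cF s η lam c x S BL FL z + wf) ^ 2 *
      Qv n b cB cF s η lam c x S BL FL z) ≤ 29 * U ^ 3 ∧
    exS n b cB cF s η lam c x (fun z => ((t * Qv n b cB cF s η lam c x S BL FL z + wf) *
      Qv n b cB cF s η lam c x S BL FL z) ^ 2) ≤ 64 * U ^ 4 := by
  have hU0 : 0 ≤ U := hwf0.trans hwf
  have hw : Wt (g1 (Co n LB LF)) (wS n b cB cF s η lam c x) := wtA b cB cF s hl hη c x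
  have bQ : BM (Qv n b cB cF s η lam c x S BL FL) := bm_Qv hl hη S BL FL
  have hQ0 : ∀ z, 0 ≤ Qv n b cB cF s η lam c x S BL FL z := Qv_nonneg S BL FL
  obtain ⟨m1, m2, m3, m4⟩ := Q_moms (b := b) (cB := cB) (cF := cF) (s := s) (c := c) (x := x)
    hl hη hη1 hn S BL FL hU0 hU
  set Q := Qv n b cB cF s η lam c x S BL FL with hQd
  set W := wS n b cB cF s η lam c x with hWd
  have bp : ∀ k : ℕ, BM fun z => Q z ^ k := fun k => by
    induction k with
    | zero => simpa using BM.const (κ := Co n LB LF) 1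
    | succ k ih => simpa only [pow_succ] using ih.mul bQ
  have bu : BM fun z => t * Q z + wf := (bcm t bQ).add (BM.const wf)
  have hwf2 : wf ^ 2 ≤ U ^ 2 := pow_le_pow_left₀ hwf0 hwf 2
  have hu2 : ∀ z, (t * Q z + wf) ^ 2 ≤ 2 * Q z ^ 2 + 2 * wf ^ 2 := by
    intro z
    have h1 : t * Q z ≤ Q z := by nlinarith [hQ0 z]
    have h2 : 0 ≤ t * Q z := mul_nonneg ht (hQ0 z)
    have h3 : (t * Q z) ^ 2 ≤ Q z ^ 2 := pow_le_pow_left₀ h2 h1 2
    nlinarith [sq_nonneg (t * Q z - wf)]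
  refine ⟨?_, ?_, ?_⟩
  · have h1 := ex_mono hw (bsq bu) ((bcm 2 (bp 2)).add (BM.const (2 * wf ^ 2))) hu2
    rw [ex_add hw (bcm 2 (bp 2)) (BM.const _), ex_const hw, ex_cmul] at h1
    refine h1.trans ?_
    have : 0 ≤ U ^ 2 := by positivity
    linarith
  · have h1 := ex_mono hw ((bsq bu).mul bQ) ((bcm 2 (bp 3)).add (bcm (2 * wf ^ 2) bQ)) fun z => by
      have h2 := mul_le_mul_of_nonneg_right (hu2 z) (hQ0 z)
      refine h2.trans (le_of_eq ?_)
      ring
    rw [ex_add hw (bcm 2 (bp 3)) (bcm _ bQ), ex_cmul, ex_cmul] at h1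
    refine h1.trans ?_
    have h2 : 2 * wf ^ 2 * ex (g1 (Co n LB LF)) W Q ≤ 2 * U ^ 2 * (9 / 4 * U) :=
      mul_le_mul (by linarith) m1 (ex_nonneg hw hQ0) (by positivity)
    have h3 : 0 ≤ U ^ 3 := by positivity
    have h4 : 2 * U ^ 2 * (9 / 4 * U) = 9 / 2 * U ^ 3 := by ring
    linarith
  · have h1 := ex_mono hw (bsq (bu.mul bQ)) ((bcm 2 (bp 4)).add (bcm (2 * wf ^ 2) (bp 2)))
      fun z => by
        have h2 := mul_le_mul_of_nonneg_right (hu2 z) (sq_nonneg (Q z))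
        calc _ = (t * Q z + wf) ^ 2 * Q z ^ 2 := by ring
          _ ≤ _ := h2
          _ = _ := by ring
    rw [ex_add hw (bcm 2 (bp 4)) (bcm _ (bp 2)), ex_cmul, ex_cmul] at h1
    refine h1.trans ?_
    have h2 : 2 * wf ^ 2 * ex (g1 (Co n LB LF)) W (fun z => Q z ^ 2) ≤
        2 * U ^ 2 * (81 / 16 * U ^ 2) :=
      mul_le_mul (by linarith) m2 (ex_nonneg hw fun z => sq_nonneg _) (by positivity)
    have h3 : 0 ≤ U ^ 4 := by positivity
    have h4 : 2 * U ^ 2 * (81 / 16 * U ^ 2) = 81 / 8 * U ^ 4 := by ring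
    linarith

lemma Pst_nonneg (hl : 0 < lam) (hη : 0 ≤ η) : 0 ≤ Pst n b cB cF s η lam c x :=
  ex_nonneg (wtA b cB cF s hl hη c x) fun z =>
    (gmA (n := n) b cB cF s hl hη c).av_nonneg 1 (fun w => by linarith [ins_le η w.1]) z

/-- **The number `Er1`.** -/
theorem er1_num (hl : 0 < lam) (hη : 0 ≤ η) (hη1 : η ≤ 1 / 2) (hx0 : 0 ≤ x) (hx1 : x ≤ 1)
    (hn : 0 < n) (hk : 0 ≤ 1 - (1 - x) * r0) (S S1 : Finset (Fin n)) (BL : Finset LB)
    (FL : Finset LF) {t wf U θ rk : ℝ} (ht : 0 ≤ t) (ht1 : t ≤ 1) (hwf0 : 0 ≤ wf)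
    (hwf : wf ≤ U) (hU0 : 0 < U) (hU1 : U ≤ 1)
    (hUu : exS n b cB cF s η lam c x
      (CCz n b cB cF s η lam c x (Kset Finset.univ BL FL) Finset.univ) ≤ U ^ 2)
    (hUS : exS n b cB cF s η lam c x
      (fun z => CCz n b cB cF s η lam c x (Kset S BL FL) S z ^ 2) ≤ U ^ 4)
    (hrk : exS n b cB cF s η lam c x (RKv n b cB cF s η lam c x S BL FL) ≤ rk)
    (hθ : 5 / √((S1 \ S).card) + 2 * |lam / ((1 - x) * (s ^ 2 * n))| +
      3 * ((|r0| + 1) * √(Pst n b cB cF s η lam c x)) / √U ≤ θ) :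
    Er1 n b cB cF s η lam c x r0 t wf S S1 BL FL ≤
      E1c b x (1 - (1 - x) * r0) η U wf θ rk := by
  have hw := wtA (n := n) b cB cF s hl hη c x
  have hn0 : (0 : ℝ) < n := by exact_mod_cast hn
  obtain ⟨m1, -, -, -⟩ := Q_moms (b := b) (cB := cB) (cF := cF) (s := s) (c := c) (x := x)
    hl hη hη1 hn S BL FL hU0.le hUS
  obtain ⟨q2, q3, q4⟩ := u_moms (b := b) (cB := cB) (cF := cF) (s := s) (c := c) (x := x)
    hl hη hη1 hn S BL FL ht ht1 hwf0 hwf hUS
  have hP0 := Pst_nonneg (n := n) (b := b) (cB := cB) (cF := cF) (s := s) (c := c) (x := x) hl hη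
  have hD0 : (0 : ℝ) ≤ ((S1 \ S).card : ℝ) := Nat.cast_nonneg _
  have hθ0 : 0 ≤ θ := le_trans (by positivity) hθ
  have hR2S := sqrt_le_num (by positivity) (R2_le (b := b) (cB := cB) (cF := cF) (s := s)
    (c := c) (x := x) hl hη BL FL hn S hUu)
  have hR2S1 := sqrt_le_num (by positivity) (R2_le (b := b) (cB := cB) (cF := cF) (s := s)
    (c := c) (x := x) hl hη BL FL hn S1 hUu)
  have hd : d0 n b cB cF s η lam c x r0 (Kset S BL FL) (Kset S1 BL FL) (S1 \ S).card / √n ≤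
      √U * θ := d0_core hη hη1 hx0 hn0 hP0 hD0 hU0 hR2S1 hR2S hθ
  have hd' : 0 ≤ d0 n b cB cF s η lam c x r0 (Kset S BL FL) (Kset S1 BL FL) (S1 \ S).card /
      √n := by
    refine div_nonneg ?_ (Real.sqrt_nonneg _)
    unfold d0
    exact add_nonneg (Real.sqrt_nonneg _) (mul_nonneg (by linarith) (Real.sqrt_nonneg _))
  have hdf : H646.d0f n b cB cF s η lam c x r0 (S1 \ S).card ≤
      θ + (1 - (1 - x) * r0) * η := by
    unfold H646.d0f
    rw [abs_of_nonneg hk]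
    exact add_le_add (df_core hη hη1 hx0 hP0 hD0 hU0 hU1 hθ) le_rfl
  have hdf' : 0 ≤ H646.d0f n b cB cF s η lam c x r0 (S1 \ S).card := by
    unfold H646.d0f
    exact add_nonneg (add_nonneg (Real.sqrt_nonneg _)
      (mul_nonneg (by linarith) (Real.sqrt_nonneg _))) (mul_nonneg (abs_nonneg _) hη)
  unfold Er1
  exact Er_num hη hη1 hx0 hk ht ht1 hwf0 hwf hθ0 hd' hd hdf' hdf
    (ex_nonneg hw fun z => sq_nonneg _) q2 hrk m1 q3 q2 q4

/-- the fourth moment of the magnetisation of the next site -/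
theorem n4_num (hl : 0 < lam) (hη : 0 ≤ η) (hη1 : η ≤ 1 / 2) (hx0 : 0 ≤ x) (hx1 : x ≤ 1)
    (hn : 0 < n) {S : Finset (Fin n)} {i0 : Fin n} (hi : i0 ∉ S)
    (BL : Finset LB) (FL : Finset LF)
    {t wf U : ℝ} (ht : ∑ l ∈ BL, cB l ^ 2 = t) (ht1 : t ≤ 1)
    (hwf : ∑ l ∈ FL, cF l ^ 2 = b ^ 2 * wf) (hwf0 : 0 ≤ wf) (hwU : wf ≤ U)
    (hxb : 8 * (x ^ 2 * b ^ 2) ≤ 1) (hU1 : U ≤ 1)
    (hUu : exS n b cB cF s η lam c x
      (CCz n b cB cF s η lam c x (Kset Finset.univ BL FL) Finset.univ) ≤ U ^ 2) :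
    exS n b cB cF s η lam c x
      (fun z => cxS n b cB cF s η lam c x (Kset (insert i0 S) BL FL)
        (avS b cB cF s η lam c (fun w => al η w.1 * sp w.2 i0)) z ^ 4) ≤
      (459 * b ^ 2 * U) ^ 2 := by
  have hw := wtA (n := n) b cB cF s hl hη c x
  have hn0 : (0 : ℝ) < n := by exact_mod_cast hn
  have hU0 : 0 ≤ U := hwf0.trans hwU
  have ht0 : 0 ≤ t := by rw [← ht]; exact Finset.sum_nonneg fun _ _ => sq_nonneg _
  have h4 := n4M (S := S) (i0 := i0) (x := x) b cB cF s η c hl hη hi BL FL hx0 hx1 (by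
    rw [ht, hwf]
    have h1 : x ^ 2 * b ^ 2 * (t + wf) ≤ x ^ 2 * b ^ 2 * 2 :=
      mul_le_mul_of_nonneg_left (by linarith) (by positivity)
    nlinarith)
  rw [ht, hwf] at h4
  refine (show _ ≤ _ from h4).trans ?_
  -- the pairs
  have b2 : ∀ j l : Fin n, BM (avS (LB := LB) (LF := LF) b cB cF s η lam c
      (fun w => sp w.2 j * sp w.2 l)) := fun j l =>
    bmA b cB cF s hl hη c ((bm_sp j).mul (bm_sp l))
  have b1 : ∀ j : Fin n, BM (avS (LB := LB) (LF := LF) b cB cF s η lam c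
      (fun w => sp w.2 j)) := fun j => bmA b cB cF s hl hη c (bm_sp j)
  have h2 : ex (g1 _) (Wx n b cB cF s η lam c x)
      (q2 n b cB cF s η lam c S (Kset (insert i0 S) BL FL) (Wx n b cB cF s η lam c x)) ≤
      (n * U) ^ 2 := by
    have e1 : ex (g1 _) (Wx n b cB cF s η lam c x)
        (q2 n b cB cF s η lam c S (Kset (insert i0 S) BL FL) (Wx n b cB cF s η lam c x)) =
        ∑ j ∈ S, ∑ l ∈ S, exS n b cB cF s η lam c x (fun z =>
          cxS n b cB cF s η lam c x (Kset (insert i0 S) BL FL)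
          (avS b cB cF s η lam c (fun w => sp w.2 j * sp w.2 l)) z ^ 2) := by
      unfold q2
      rw [ex_sum hw _ fun j _ => BM.sum _ fun l _ => bsq (hw.bm_cx _ (b2 j l))]
      refine Finset.sum_congr rfl fun j _ => ?_
      rw [ex_sum hw _ fun l _ => bsq (hw.bm_cx _ (b2 j l))]
    have h5 : ∀ j l : Fin n, 0 ≤ exS n b cB cF s η lam c x (fun z =>
          cxS n b cB cF s η lam c x (Kset (insert i0 S) BL FL)
          (avS b cB cF s η lam c (fun w => sp w.2 j * sp w.2 l)) z ^ 2) := fun j l =>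
      ex_nonneg hw fun z => sq_nonneg _
    rw [e1]
    calc _ ≤ ∑ j ∈ S, ∑ l : Fin n, exS n b cB cF s η lam c x (fun z =>
          cxS n b cB cF s η lam c x (Kset (insert i0 S) BL FL)
          (avS b cB cF s η lam c (fun w => sp w.2 j * sp w.2 l)) z ^ 2) :=
          Finset.sum_le_sum fun j _ => Finset.sum_le_sum_of_subset_of_nonneg
            (Finset.subset_univ S) fun l _ _ => h5 j l
      _ ≤ R2 n b cB cF s η lam c x (Kset (insert i0 S) BL FL) :=
          Finset.sum_le_sum_of_subset_of_nonneg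
            (Finset.subset_univ S) fun j _ _ => Finset.sum_nonneg fun l _ => h5 j l
      _ ≤ _ := R2_le hl hη BL FL hn _ hUu
  have h1 : ex (g1 _) (Wx n b cB cF s η lam c x)
      (q1 n b cB cF s η lam c S (Kset (insert i0 S) BL FL) (Wx n b cB cF s η lam c x)) ≤
      n * U := by
    have e1 : ex (g1 _) (Wx n b cB cF s η lam c x)
        (q1 n b cB cF s η lam c S (Kset (insert i0 S) BL FL) (Wx n b cB cF s η lam c x)) =
        ∑ j ∈ S, exS n b cB cF s η lam c x (fun z =>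
          cxS n b cB cF s η lam c x (Kset (insert i0 S) BL FL)
          (avS b cB cF s η lam c (fun w => sp w.2 j)) z ^ 2) := by
      unfold q1
      rw [ex_sum hw _ fun j _ => bsq (hw.bm_cx _ (b1 j))]
    have h6 := ex_q1 (b := b) (cB := cB) (cF := cF) (s := s) (c := c) (x := x) hl hη BL FL hn
      (h := fun _ : ℝ × Xs n => (1 : ℝ)) (Bm.const 1) (C := 1) (fun _ => by simp) zero_le_one
      hU0 hUu
    simp only [one_mul, one_pow] at h6
    rw [e1]
    refine le_trans ?_ h6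
    calc _ ≤ ∑ j ∈ S, exS n b cB cF s η lam c x (fun z =>
          cxS n b cB cF s η lam c x (Kset Finset.univ BL FL)
          (avS b cB cF s η lam c (fun w => sp w.2 j)) z ^ 2) :=
          Finset.sum_le_sum fun j _ => ex_univ hl hη _ BL FL (b1 j)
      _ ≤ _ := Finset.sum_le_sum_of_subset_of_nonneg (Finset.subset_univ S)
          fun j _ _ => ex_nonneg hw fun z => sq_nonneg _
  have hA : 0 ≤ b ^ 2 / n * t := by positivity
  have h7 : (b ^ 2 / n * t) ^ 2 * ex (g1 _) (Wx n b cB cF s η lam c x)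
            (q2 n b cB cF s η lam c S (Kset (insert i0 S) BL FL) (Wx n b cB cF s η lam c x)) ≤
      (b ^ 2 * U) ^ 2 := by
    refine (mul_le_mul_of_nonneg_left h2 (sq_nonneg _)).trans ?_
    rw [← mul_pow]
    refine pow_le_pow_left₀ (by positivity) ?_ 2
    have e : b ^ 2 / n * t * (n * U) = b ^ 2 * U * t := by field_simp
    rw [e]
    exact mul_le_of_le_one_right (by positivity) ht1
  have h8 : 2 * (b ^ 2 / n * t) * (b ^ 2 * wf) * ex (g1 _) (Wx n b cB cF s η lam c x)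
            (q1 n b cB cF s η lam c S (Kset (insert i0 S) BL FL) (Wx n b cB cF s η lam c x)) ≤
      2 * (b ^ 2 * U) ^ 2 := by
    refine (mul_le_mul_of_nonneg_left h1 (by positivity)).trans ?_
    have e : 2 * (b ^ 2 / n * t) * (b ^ 2 * wf) * (n * U) =
        2 * (b ^ 2 * U) * (b ^ 2) * (t * wf) := by field_simp
    rw [e]
    have h9 : t * wf ≤ 1 * U := mul_le_mul ht1 hwU hwf0 zero_le_one
    calc _ ≤ 2 * (b ^ 2 * U) * (b ^ 2) * (1 * U) := mul_le_mul_of_nonneg_left h9 (by positivity)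
      _ = _ := by ring
  have h9 : (b ^ 2 * wf) ^ 2 ≤ (b ^ 2 * U) ^ 2 :=
    pow_le_pow_left₀ (by positivity) (mul_le_mul_of_nonneg_left hwU (by positivity)) 2
  have h10 : (1 + η) ^ 4 ≤ 81 / 16 := by
    calc (1 + η) ^ 4 ≤ (3 / 2) ^ 4 := pow_le_pow_left₀ (by linarith) (by linarith) 4
      _ = 81 / 16 := by norm_num
  have h11 : (0 : ℝ) ≤ (b ^ 2 * U) ^ 2 := sq_nonneg _
  refine (mul_le_mul_of_nonneg_left (add_le_add (add_le_add h7 h8) h9) (by positivity)).trans ?_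
  have e12 : (b ^ 2 * U) ^ 2 + 2 * (b ^ 2 * U) ^ 2 + (b ^ 2 * U) ^ 2 = 4 * (b ^ 2 * U) ^ 2 := by
    ring
  have e13 : (459 * b ^ 2 * U) ^ 2 = 210681 * (b ^ 2 * U) ^ 2 := by ring
  rw [e12, e13]
  have h14 : 10368 * (1 + η) ^ 4 ≤ 52488 := by linarith
  have h15 := mul_le_mul_of_nonneg_right h14 (show 0 ≤ 4 * (b ^ 2 * U) ^ 2 by positivity)
  linarith

/-- **The number `E2n`.** -/
theorem e2n_num (hl : 0 < lam) (hη : 0 ≤ η) (hη1 : η ≤ 1 / 2) (hx0 : 0 ≤ x) (hx1 : x ≤ 1)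
    (hn : 0 < n) {S : Finset (Fin n)} {i0 : Fin n} (hi : i0 ∉ S)
    (BL : Finset LB) (FL : Finset LF)
    {t wf U P Lr I : ℝ} (ht : ∑ l ∈ BL, cB l ^ 2 = t) (ht1 : t ≤ 1)
    (hwf : ∑ l ∈ FL, cF l ^ 2 = b ^ 2 * wf) (hwf0 : 0 ≤ wf) (hwU : wf ≤ U)
    (hxb : 8 * (x ^ 2 * b ^ 2) ≤ 1) (hU1 : U ≤ 1)
    (hUu : exS n b cB cF s η lam c x
      (CCz n b cB cF s η lam c x (Kset Finset.univ BL FL) Finset.univ) ≤ U ^ 2)
    (hP : 0 ≤ P) (hL : 0 ≤ Lr)
    (hI : ∑ j ∈ S, (exS n b cB cF s η lam c x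
          (fun z => cxS n b cB cF s η lam c x (Kset (insert i0 S) BL FL)
            (avS b cB cF s η lam c (fun w => al η w.1 * sp w.2 j)) z ^ 2) -
        exS n b cB cF s η lam c x
          (fun z => cxS n b cB cF s η lam c x (Kset S BL FL)
            (avS b cB cF s η lam c (fun w => al η w.1 * sp w.2 j)) z ^ 2)) ≤ I) :
    E2n n b cB cF s η lam c x P Lr S BL FL i0 ≤
      P * I / S.card + 918 * b ^ 2 * Lr * U * √(I + 9 / 4 * U) / √n := by
  have hw := wtA (n := n) b cB cF s hl hη c x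
  have hn0 : (0 : ℝ) < n := by exact_mod_cast hn
  have hU0 : 0 ≤ U := hwf0.trans hwU
  have ht0 : 0 ≤ t := by rw [← ht]; exact Finset.sum_nonneg fun _ _ => sq_nonneg _
  have bas : ∀ j : Fin n, BM (avS (LB := LB) (LF := LF) b cB cF s η lam c
    (fun w => al η w.1 * sp w.2 j)) := fun j => bm_as hl hη j
  -- the second moment at the site
  have hN2 : exS n b cB cF s η lam c x
      (fun z => cxS n b cB cF s η lam c x (Kset (insert i0 S) BL FL)
        (avS b cB cF s η lam c (fun w => al η w.1 * sp w.2 i0)) z ^ 2) ≤ 9 / 4 * U := by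
    refine (ex_univ hl hη (insert i0 S) BL FL (bas i0)).trans ?_
    have h1 := ex_q1 (b := b) (cB := cB) (cF := cF) (s := s) (c := c) (x := x) hl hη BL FL hn
      (h := fun w : ℝ × Xs n => al η w.1) (bm_of_al (n := n) hη)
      (C := 3 / 2) (fun w => abs_al32 hη hη1 w.1) (by norm_num) hU0 hUu
    have h2 : ∀ j : Fin n, exS n b cB cF s η lam c x (fun z =>
        cxS n b cB cF s η lam c x (Kset Finset.univ BL FL)
        (avS b cB cF s η lam c (fun w => al η w.1 * sp w.2 j)) z ^ 2) =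
        exS n b cB cF s η lam c x (fun z =>
        cxS n b cB cF s η lam c x (Kset Finset.univ BL FL)
        (avS b cB cF s η lam c (fun w => al η w.1 * sp w.2 i0)) z ^ 2) := by
      intro j
      have hE := eq1_sp (n := n) (LB := LB) (LF := LF) b cB cF s η hl c 1 (al η)
      exact ex_site (invP_Z (LB := LB) (LF := LF) b cB cF s η hl c 1 x)
        ((hE.cxK (invP_Z b cB cF s η hl c 1 x) (invK_univ BL FL)).comp (fun y => y ^ 2)) j i0
    rw [Finset.sum_congr rfl fun j _ => h2 j, Finset.sum_const, Finset.card_univ,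
      Fintype.card_fin, nsmul_eq_mul] at h1
    have h3 : (n : ℝ) * exS n b cB cF s η lam c x (fun z =>
        cxS n b cB cF s η lam c x (Kset Finset.univ BL FL)
        (avS b cB cF s η lam c (fun w => al η w.1 * sp w.2 i0)) z ^ 2) ≤ n * (9 / 4 * U) := by
      refine h1.trans (le_of_eq ?_)
      ring
    exact le_of_mul_le_mul_left h3 hn0
  -- the fourth moment at the site
  have hN4 : exS n b cB cF s η lam c x
      (fun z => cxS n b cB cF s η lam c x (Kset (insert i0 S) BL FL)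
        (avS b cB cF s η lam c (fun w => al η w.1 * sp w.2 i0)) z ^ 4) ≤
      (459 * b ^ 2 * U) ^ 2 := n4_num hl hη hη1 hx0 hx1 hn hi BL FL ht ht1 hwf hwf0 hwU hxb
        hU1 hUu
  have hN2' : 0 ≤ exS n b cB cF s η lam c x
      (fun z => cxS n b cB cF s η lam c x (Kset (insert i0 S) BL FL)
        (avS b cB cF s η lam c (fun w => al η w.1 * sp w.2 i0)) z ^ 2) :=
    ex_nonneg hw fun z => sq_nonneg _
  unfold E2n
  refine add_le_add (div_le_div_of_nonneg_right (mul_le_mul_of_nonneg_left hI hP)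
    (Nat.cast_nonneg _)) ?_
  refine (mul_le_mul_of_nonneg_left (mul_le_mul (Real.sqrt_le_sqrt (add_le_add hI hN2))
    (sqrt_le_num (by positivity) hN4) (Real.sqrt_nonneg _) (Real.sqrt_nonneg _))
    (by positivity)).trans (le_of_eq ?_)
  ring

end main

end Vale.Agent.P146.H615
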