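import Vale.Agent.P146.H615.ErAP
import Vale.Agent.P146.H412.K8S
import Vale.Agent.P146.H320.TypS

/-!
# P146: the errors of the tested row equation on the names of `H418.Skel`

`Law` letters, two levels of shares `t`, `u`, `S = Sn n m`, `wf = u vp / b^2`:

* `er1_sk`: `Er1 ≤ E1c b x kp η U wf θ rk`;
* `e2n_sk`: `E2n P Lr ≤ P I / (n-m) + 918 b^2 Lr U √(I + 9/4 U) / √n`.
-/

open MeasureTheory ProbabilityTheory

namespace Vale.Agent.P146.H615

open Vale.Agent.P157.Lv hiding Dep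
open Vale.Agent.P146.H425 Vale.Agent.P146.H646
open Vale.Agent.P146.H325 hiding cb cf
open Vale.Agent.P146.H196 Vale.Agent.P146.H347 Vale.Agent.P146.H475 Vale.Agent.P146.H418
  Vale.Agent.P146.H412 Vale.Agent.P146.H320

set_option linter.unusedSectionVars false

lemma card_hidden {n m : ℕ} (h : m ≤ n) : (Finset.univ \ Sn n m).card = m := by
  have e : Finset.univ \ Sn n m = Finset.univ.filter fun i : Fin n => n - m ≤ (i : ℕ) := by
    ext i
    simp only [Sn, Finset.mem_sdiff, Finset.mem_filter, Finset.mem_univ, true_and]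
    omega
  have h1 := Finset.card_sdiff_add_card_eq_card (Finset.subset_univ (Sn n m))
  have h2 : Sn n m = Finset.univ.filter fun i : Fin n => (i : ℕ) < n - m := by
    ext i
    simp only [Sn, Finset.mem_filter, Finset.mem_univ, true_and]
    omega
  have h3 := Fin.card_filter_val_lt (n := n) (m := n - m)
  rw [Finset.card_univ, Fintype.card_fin] at h1
  rw [← h2] at h3
  omega

lemma card_vis {n m : ℕ} (h : m ≤ n) : ((Sn n m).card : ℝ) = n - m := by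
  have h2 : Sn n m = Finset.univ.filter fun i : Fin n => (i : ℕ) < n - m := by
    ext i
    simp only [Sn, Finset.mem_filter, Finset.mem_univ, true_and]
    omega
  have h3 := Fin.card_filter_val_lt (n := n) (m := n - m)
  rw [h2, h3, min_eq_right (Nat.sub_le n m), Nat.cast_sub h]

lemma cb_true {t : ℝ} (h : 0 ≤ t) : ∑ l ∈ ({true} : Finset Bool), H418.cb t l ^ 2 = t := by
  rw [Finset.sum_singleton]
  simp only [H418.cb, if_true]
  exact Real.sq_sqrt h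

lemma cf_true {v u b : ℝ} (hv : 0 ≤ v) (hu : 0 ≤ u) (hb : b ≠ 0) :
    ∑ l ∈ ({true} : Finset Bool), H418.cf v u l ^ 2 = b ^ 2 * (u * v / b ^ 2) := by
  rw [Finset.sum_singleton]
  simp only [H418.cf, H418.cb, if_true, mul_pow]
  rw [Real.sq_sqrt hv, Real.sq_sqrt hu]
  field_simp

section law

variable {L : Law} {t u : ℝ}

/-- the rank one defect in the two notations -/
lemma RKv_rk (S : Finset (Fin L.n)) :
    exS L.n L.b (H418.cb t) (H418.cf L.vp u) L.s L.η L.lam L.c L.x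
      (RKv L.n L.b (H418.cb t) (H418.cf L.vp u) L.s L.η L.lam L.c L.x S {true} {true}) =
      L.rk S t u := by
  have e : RKv L.n L.b (H418.cb t) (H418.cf L.vp u) L.s L.η L.lam L.c L.x S {true} {true} =
      fun z => ((L.n : ℝ) ^ 2)⁻¹ * RKg (muA (Xs L.n) L.lam L.η L.c)
        (Sm L.b (H418.cb t) (H418.cf L.vp u) L.s L.η) L.x (Kset S {true} {true})
        (fun (j : Fin L.n) w => sp w.2 j) S z := by
    funext z
    unfold RKv
    rw [div_eq_inv_mul]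
    rfl
  rw [e]
  show ex _ _ _ = _
  rw [ex_cmul]
  unfold Law.rk
  rw [div_eq_inv_mul]
  rfl

/-- the second moment of the overlap in the two notations -/
lemma ex_CC (hl : 0 < L.lam) (hη : 0 ≤ L.η) (S : Finset (Fin L.n)) :
    exS L.n L.b (H418.cb t) (H418.cf L.vp u) L.s L.η L.lam L.c L.x
      (CCz L.n L.b (H418.cb t) (H418.cf L.vp u) L.s L.η L.lam L.c L.x
        (Kset S {true} {true}) S) = L.ex' t u (CC L S t u) := by
  have e : CC L S t u = CCz L.n L.b (H418.cb t) (H418.cf L.vp u) L.s L.η L.lam L.c L.x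
      (Kset S {true} {true}) S := funext fun z => CC_eq hl hη S t u z
  rw [e]
  rfl

lemma ex_CC2 (hl : 0 < L.lam) (hη : 0 ≤ L.η) (S : Finset (Fin L.n)) :
    exS L.n L.b (H418.cb t) (H418.cf L.vp u) L.s L.η L.lam L.c L.x
      (fun z => CCz L.n L.b (H418.cb t) (H418.cf L.vp u) L.s L.η L.lam L.c L.x
        (Kset S {true} {true}) S z ^ 2) = L.ex' t u (fun z => CC L S t u z ^ 2) := by
  have e : (fun z => CC L S t u z ^ 2) = fun z => CCz L.n L.b (H418.cb t) (H418.cf L.vp u) L.s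
      L.η L.lam L.c L.x (Kset S {true} {true}) S z ^ 2 :=
    funext fun z => by rw [CC_eq hl hη S t u z]; rfl
  rw [e]
  rfl

/-- the probability that the amplitude is stuck -/
noncomputable def PstL (L : Law) (t u : ℝ) : ℝ :=
  Pst L.n L.b (H418.cb t) (H418.cf L.vp u) L.s L.η L.lam L.c L.x

/-- **`Er1` on the names of Skel** -/
theorem er1_sk (hA : Adm L) (hη1 : L.η ≤ 1 / 2) {r0 : ℝ} (hk : 0 ≤ 1 - (1 - L.x) * r0) {m : ℕ}
    (hm : m ≤ L.n) (ht : 0 ≤ t) (ht1 : t ≤ 1) (hu : 0 ≤ u) {U θ rk : ℝ}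
    (hwU : u * L.vp / L.b ^ 2 ≤ U) (hU0 : 0 < U) (hU1 : U ≤ 1)
    (hUu : L.ex' t u (CC L Finset.univ t u) ≤ U ^ 2)
    (hUS : L.ex' t u (fun z => CC L (Sn L.n m) t u z ^ 2) ≤ U ^ 4)
    (hrk : L.rk (Sn L.n m) t u ≤ rk)
    (hθ : 5 / √m + 2 * |L.lam / ((1 - L.x) * (L.s ^ 2 * L.n))| +
      3 * ((|r0| + 1) * √(PstL L t u)) / √U ≤ θ) :
    Er1 L.n L.b (H418.cb t) (H418.cf L.vp u) L.s L.η L.lam L.c L.x r0 t (u * L.vp / L.b ^ 2)
      (Sn L.n m) Finset.univ {true} {true} ≤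
      E1c L.b L.x (1 - (1 - L.x) * r0) L.η U (u * L.vp / L.b ^ 2) θ rk := by
  refine er1_num hA.lam0 hA.η0 hη1 hA.x0 hA.x1 hA.n0 hk _ _ _ _ ht ht1 ?_ hwU hU0 hU1 ?_ ?_ ?_ ?_
  · have := hA.vp0
    have := hA.b0
    positivity
  · rw [ex_CC hA.lam0 hA.η0]
    exact hUu
  · rw [ex_CC2 hA.lam0 hA.η0]
    exact hUS
  · rw [RKv_rk]
    exact hrk
  · rw [card_hidden hm]
    exact hθ

/-- **`E2n` on the names of Skel** -/
theorem e2n_sk (hA : Adm L) (hη1 : L.η ≤ 1 / 2) {m : ℕ} (hm : m ≤ L.n) (ht : 0 ≤ t)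
    (ht1 : t ≤ 1) (hu : 0 ≤ u) {U P Lr I : ℝ} (hwU : u * L.vp / L.b ^ 2 ≤ U) (hU1 : U ≤ 1)
    (hxb : 8 * (L.x ^ 2 * L.b ^ 2) ≤ 1) (hUu : L.ex' t u (CC L Finset.univ t u) ≤ U ^ 2)
    (hP : 0 ≤ P) (hL : 0 ≤ Lr) {i0 : Fin L.n} (hi : i0.1 + m = L.n)
    (hI : incL L (H418.cb t) (H418.cf L.vp u) (Sn L.n m) (Kset (Sn L.n m) {true} {true})
      (Kset (insert i0 (Sn L.n m)) {true} {true}) ≤ I) :
    E2n L.n L.b (H418.cb t) (H418.cf L.vp u) L.s L.η L.lam L.c L.x P Lr (Sn L.n m)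
      {true} {true} i0 ≤
      P * I / (L.n - m) + 918 * L.b ^ 2 * Lr * U * √(I + 9 / 4 * U) / √L.n := by
  have hi1 : i0 ∉ Sn L.n m := by
    simp only [Sn, Finset.mem_filter, Finset.mem_univ, true_and]
    omega
  have h := e2n_num (n := L.n) (b := L.b) (cB := H418.cb t) (cF := H418.cf L.vp u) (s := L.s)
    (η := L.η) (lam := L.lam) (c := L.c) (x := L.x) hA.lam0 hA.η0 hη1 hA.x0 hA.x1 hA.n0 hi1
    ({true} : Finset Bool) ({true} : Finset Bool) (U := U) (P := P) (Lr := Lr) (I := I)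
    (cb_true ht) ht1 (cf_true hA.vp0.le hu hA.b0.ne') (by
      have := hA.vp0
      have := hA.b0
      positivity) hwU hxb hU1 (by rw [ex_CC hA.lam0 hA.η0]; exact hUu) hP hL hI
  rwa [card_vis hm] at h

/-- **the whole error of the row equation, on the names of Skel** -/
theorem xe_sk (hA : Adm L) (hη1 : L.η ≤ 1 / 2) {r0 : ℝ} (hk : 0 ≤ 1 - (1 - L.x) * r0) {m : ℕ}
    (hm : m ≤ L.n) (ht : 0 ≤ t) (ht1 : t ≤ 1) (hu : 0 ≤ u) {U θ rk P Lr I : ℝ}
    (hwU : u * L.vp / L.b ^ 2 ≤ U) (hU0 : 0 < U) (hU1 : U ≤ 1)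
    (hxb : 8 * (L.x ^ 2 * L.b ^ 2) ≤ 1)
    (hUu : L.ex' t u (CC L Finset.univ t u) ≤ U ^ 2)
    (hUS : L.ex' t u (fun z => CC L (Sn L.n m) t u z ^ 2) ≤ U ^ 4)
    (hrk : L.rk (Sn L.n m) t u ≤ rk)
    (hθ : 5 / √m + 2 * |L.lam / ((1 - L.x) * (L.s ^ 2 * L.n))| +
      3 * ((|r0| + 1) * √(PstL L t u)) / √U ≤ θ)
    (hP : 0 ≤ P) (hL : 0 ≤ Lr) {i0 : Fin L.n} (hi : i0.1 + m = L.n)
    (hI : incL L (H418.cb t) (H418.cf L.vp u) (Sn L.n m) (Kset (Sn L.n m) {true} {true})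
      (Kset (insert i0 (Sn L.n m)) {true} {true}) ≤ I) :
    (P * Er1 L.n L.b (H418.cb t) (H418.cf L.vp u) L.s L.η L.lam L.c L.x r0 t
        (u * L.vp / L.b ^ 2) (Sn L.n m) Finset.univ {true} {true} +
      E2n L.n L.b (H418.cb t) (H418.cf L.vp u) L.s L.η L.lam L.c L.x P Lr (Sn L.n m)
        {true} {true} i0) / (L.b * (1 - (1 - L.x) * r0)) ^ 2 ≤
    (P * E1c L.b L.x (1 - (1 - L.x) * r0) L.η U (u * L.vp / L.b ^ 2) θ rk + P * I / (L.n - m) +
      918 * L.b ^ 2 * Lr * U * √(I + 9 / 4 * U) / √L.n) / (L.b * (1 - (1 - L.x) * r0)) ^ 2 := by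
  refine div_le_div_of_nonneg_right ?_ (sq_nonneg _)
  have h1 := mul_le_mul_of_nonneg_left
    (er1_sk hA hη1 hk hm ht ht1 hu hwU hU0 hU1 hUu hUS hrk hθ) hP
  have h2 := e2n_sk hA hη1 hm ht ht1 hu hwU hU1 hxb hUu hP hL hi hI
  linarith

end law

end Vale.Agent.P146.H615
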