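import Vale.Agent.P146.H615.NumX
import Vale.Agent.P146.H317.C3Sk
import Vale.Agent.P146.H122.UpB

/-!
# P146: the second regime of the upper bound of the relative entropy

`e3c_le`: the last square at a typical point, test function of size one, `l0 = del = Uq`;
`rowUp2`: `H122.RowUp2E` for `a0 ≤ 1 / 7`.
-/

open MeasureTheory ProbabilityTheory Filter Set

namespace Vale.Agent.P146.H615

open Vale.Agent.P157.Lv hiding Dep
open Vale.Agent.P146.H425 Vale.Agent.P146.H646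
open Vale.Agent.P146.H325 hiding cb cf
open Vale.Agent.P146.H196 Vale.Agent.P146.H347 Vale.Agent.P146.H475 Vale.Agent.P146.H418
  Vale.Agent.P146.H412 Vale.Agent.P146.H320 Vale.Agent.P146.H529 Vale.Agent.P146.H470
  Vale.Agent.P146.H516

set_option linter.unusedSectionVars false

variable {a0 b₁ q A b D : ℝ} {n : ℕ} {y V al s lam η T u : ℝ}

lemma NW.logU (h : NW a0 b₁ q A b n y V al s lam η) (hT0 : 0 < T) :
    Real.log (Uq q n y T) = q * Real.log n + 2 * Real.log y - Real.log T / 2 := by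
  have hn := h.env.n0
  have hy := h.env.y0
  unfold Uq
  simp (disch := positivity) only [Real.log_mul, Real.log_rpow, Real.log_pow, Real.log_div,
    Real.log_sqrt]
  push_cast
  ring

/-- the numbers of the last square at `l0 = del = U`, expanded -/
lemma NC3_U {U η I rk k4 pT : ℝ} (hU : 0 < U) :
    H317.NC3 U U U η I rk k4 pT pT pT = 4608 * U ^ 2 * (η ^ 2 * (U + pT) + I) + 56448 * U * pT +
      72 * U * rk + 8 * k4 / U + 4 * U ^ 3 * pT + 10 * pT / U := by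
  unfold H317.NC3
  field_simp
  ring

/-- the numbers of the last square -/
lemma NW.nc3_le (h : NW a0 b₁ q A b n y V al s lam η)
    (hT : (n : ℝ) ^ (-(71 * q)) * y ^ 2 ≤ T) (hT1 : T ≤ 1) :
    H317.NC3 (Uq q n y T) (Uq q n y T) (Uq q n y T) η ((n : ℝ) ^ (112 * q) / √T / n)
      ((n : ℝ) ^ (106 * q) / (n * y ^ 3 * √T)) ((n : ℝ) ^ (10 * q) * y ^ 2 / (n * T ^ 2))
      ((n : ℝ) ^ (-(10 : ℝ))) ((n : ℝ) ^ (-(10 : ℝ))) ((n : ℝ) ^ (-(10 : ℝ))) ≤
      (n : ℝ) ^ (-(200 * q)) * y ^ 3 := by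
  obtain ⟨f1, f2, f3, f4, f5, f6, f7, f8, f9, f10, f11, f12, f13, f14⟩ := h.facts
  obtain ⟨hT0, t1, t2⟩ := logT h hT hT1
  have hn := h.env.n0
  have hy := h.env.y0
  have hη := h.kw.η0
  have hU0 := Uq_pos (q := q) hn hy hT0
  have hU1 := h.U_le hT hT1
  have hU := h.logU (T := T) hT0
  have hL := h.env.L1
  set U := Uq q n y T with hUd
  have hp1 : (n : ℝ) ^ (-(10 : ℝ)) ≤ 1 := by
    refine le_of_log (by positivity) one_pos ?_
    simp (disch := positivity) only [Real.log_rpow, Real.log_one]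
    linarith
  have c1 := log_c 4608 (by norm_num)
  have c2 := log_c 2 (by norm_num)
  have c3 := log_c 56448 (by norm_num)
  have c4 := log_c 72 (by norm_num)
  have c5 := log_c 8 (by norm_num)
  have c6 := log_c 4 (by norm_num)
  have c7 := log_c 10 (by norm_num)
  have c8 := log_c 16 (by norm_num)
  rw [NC3_U hU0]
  have x1 : 4608 * U ^ 2 * (η ^ 2 * U) ≤ (n : ℝ) ^ (-(200 * q)) * y ^ 3 / 16 := by
    refine le_of_log (by positivity) (by positivity) ?_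
    simp (disch := positivity) only [Real.log_mul, Real.log_rpow, Real.log_pow, Real.log_div]
    rw [hU]
    push_cast
    linarith
  have x1' : 4608 * U ^ 2 * (η ^ 2 * (n : ℝ) ^ (-(10 : ℝ))) ≤
      (n : ℝ) ^ (-(200 * q)) * y ^ 3 / 16 := by
    refine le_of_log (by positivity) (by positivity) ?_
    simp (disch := positivity) only [Real.log_mul, Real.log_rpow, Real.log_pow, Real.log_div]
    rw [hU]
    push_cast
    linarith
  have x2 : 4608 * U ^ 2 * ((n : ℝ) ^ (112 * q) / √T / n) ≤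
      (n : ℝ) ^ (-(200 * q)) * y ^ 3 / 8 := by
    refine le_of_log (by positivity) (by positivity) ?_
    simp (disch := positivity) only [Real.log_mul, Real.log_rpow, Real.log_pow, Real.log_div,
      Real.log_sqrt]
    rw [hU]
    push_cast
    linarith
  have x3 : 56448 * U * (n : ℝ) ^ (-(10 : ℝ)) ≤ (n : ℝ) ^ (-(200 * q)) * y ^ 3 / 8 := by
    refine le_of_log (by positivity) (by positivity) ?_
    simp (disch := positivity) only [Real.log_mul, Real.log_rpow, Real.log_pow, Real.log_div]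
    rw [hU]
    push_cast
    linarith
  have x4 : 72 * U * ((n : ℝ) ^ (106 * q) / (n * y ^ 3 * √T)) ≤
      (n : ℝ) ^ (-(200 * q)) * y ^ 3 / 8 := by
    refine le_of_log (by positivity) (by positivity) ?_
    simp (disch := positivity) only [Real.log_mul, Real.log_rpow, Real.log_pow, Real.log_div,
      Real.log_sqrt]
    rw [hU]
    push_cast
    linarith
  have x5 : 8 * ((n : ℝ) ^ (10 * q) * y ^ 2 / (n * T ^ 2)) / U ≤
      (n : ℝ) ^ (-(200 * q)) * y ^ 3 / 8 := by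
    refine le_of_log (by positivity) (by positivity) ?_
    simp (disch := positivity) only [Real.log_mul, Real.log_rpow, Real.log_pow, Real.log_div]
    rw [hU]
    push_cast
    linarith
  have x6 : 4 * U ^ 3 * (n : ℝ) ^ (-(10 : ℝ)) ≤ (n : ℝ) ^ (-(200 * q)) * y ^ 3 / 8 := by
    refine le_of_log (by positivity) (by positivity) ?_
    simp (disch := positivity) only [Real.log_mul, Real.log_rpow, Real.log_pow, Real.log_div]
    rw [hU]
    push_cast
    linarith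
  have x7 : 10 * (n : ℝ) ^ (-(10 : ℝ)) / U ≤ (n : ℝ) ^ (-(200 * q)) * y ^ 3 / 8 := by
    refine le_of_log (by positivity) (by positivity) ?_
    simp (disch := positivity) only [Real.log_mul, Real.log_rpow, Real.log_pow, Real.log_div]
    rw [hU]
    push_cast
    linarith
  have x8 : 4608 * U ^ 2 * (η ^ 2 * (U + (n : ℝ) ^ (-(10 : ℝ))) + (n : ℝ) ^ (112 * q) / √T / n) =
      4608 * U ^ 2 * (η ^ 2 * U) + 4608 * U ^ 2 * (η ^ 2 * (n : ℝ) ^ (-(10 : ℝ))) +
        4608 * U ^ 2 * ((n : ℝ) ^ (112 * q) / √T / n) := by ring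
  have x9 : 0 ≤ (n : ℝ) ^ (-(200 * q)) * y ^ 3 / 8 := by positivity
  linarith

lemma log_ten (k : ℕ) {c : ℝ} (hc : 0 < c) (h : c ≤ 10 ^ k) : Real.log c ≤ 10 * k := by
  have h1 := Real.log_le_log hc h
  rw [Real.log_pow] at h1
  have h2 := log_c 10 (by norm_num)
  have h3 : (0 : ℝ) ≤ k := Nat.cast_nonneg k
  nlinarith

/-- the constants with `b` -/
lemma NW.b_le (h : NW a0 b₁ q A b n y V al s lam η) :
    2 * b ^ 4 + 8 * b ^ 8 ≤ (n : ℝ) ^ (q / 10) ∧ b ^ 2 ≤ (n : ℝ) ^ (q / 10) ∧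
      7000000 * (n : ℝ) ^ (q / 10) ≤ (n : ℝ) ^ (q / 5) := by
  obtain ⟨f1, f2, f3, f4, f5, f6, f7, f8, f9, f10, f11, f12, f13, f14⟩ := h.facts
  have hn := h.env.n0
  have hb := h.b0
  have c2 := log_c 2 (by norm_num)
  have c8 := log_c 8 (by norm_num)
  have c7 := log_ten 7 (c := 7000000) (by norm_num) (by norm_num)
  push_cast at c7
  have x1 : 2 * b ^ 4 ≤ (n : ℝ) ^ (q / 10) / 2 := by
    refine le_of_log (by positivity) (by positivity) ?_
    simp (disch := positivity) only [Real.log_mul, Real.log_rpow, Real.log_pow, Real.log_div]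
    push_cast
    linarith
  have x2 : 8 * b ^ 8 ≤ (n : ℝ) ^ (q / 10) / 2 := by
    refine le_of_log (by positivity) (by positivity) ?_
    simp (disch := positivity) only [Real.log_mul, Real.log_rpow, Real.log_pow, Real.log_div]
    push_cast
    linarith
  refine ⟨by linarith, ?_, ?_⟩
  · refine le_of_log (by positivity) (by positivity) ?_
    simp (disch := positivity) only [Real.log_mul, Real.log_rpow, Real.log_pow, Real.log_div]
    push_cast
    linarith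
  · refine le_of_log (by positivity) (by positivity) ?_
    simp (disch := positivity) only [Real.log_mul, Real.log_rpow]
    linarith

lemma NW.CB_le (h : NW a0 b₁ q A b n y V al s lam η) :
    H317.CBc b η ≤ (n : ℝ) ^ (q / 5) ∧ 6000000 * (1 + η) ^ 2 ≤ 7000000 := by
  obtain ⟨k1, k2, k3, k4, k5, k6, k7, k8⟩ := h.bd
  obtain ⟨x1, x2, x3⟩ := h.b_le
  have hη := h.kw.η0
  have h1 : 6000000 * (1 + η) ^ 2 ≤ 7000000 := by nlinarith
  refine ⟨?_, h1⟩
  unfold H317.CBc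
  refine le_trans ?_ x3
  exact mul_le_mul h1 x1 (by positivity) (by norm_num)

lemma e3_pieces {κ U θ wf W I rk k4 p : ℝ} (hb : 0 < b) (hη : 0 ≤ η)
    (hη2 : 6000000 * (1 + η) ^ 2 ≤ 7000000) (hk : 0 ≤ κ) (hk2 : κ ≤ 2 / b) (hU0 : 0 < U)
    (hU1 : U ≤ 1) (hθ : 0 ≤ θ) (hw0 : 0 ≤ wf) (hw : wf ≤ W) (hwU : wf ≤ U) :
    H317.E3c b κ η U θ wf U U I rk k4 p p ≤
      6 * b ^ 2 * (U * θ ^ 2) + 12 * b ^ 2 * (W * θ ^ 2) + 48 * (W * η ^ 2) +
        H317.CBc b η * H317.NC3 U U U η I rk k4 p p p +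
        (50000000 * b ^ 4 * W ^ 2 + 56000000 * b ^ 8 * W ^ 3) := by
  have hW0 : 0 ≤ W := hw0.trans hw
  have g1 : wf * (θ + κ * η) ^ 2 ≤ W * (2 * θ ^ 2 + 8 / b ^ 2 * η ^ 2) := by
    have k1 : (θ + κ * η) ^ 2 ≤ 2 * θ ^ 2 + 8 / b ^ 2 * η ^ 2 := by
      have k2 : κ * η ≤ 2 / b * η := mul_le_mul_of_nonneg_right hk2 hη
      have k3 : 0 ≤ κ * η := mul_nonneg hk hη
      have k4 : (κ * η) ^ 2 ≤ (2 / b * η) ^ 2 := pow_le_pow_left₀ k3 k2 2
      have k5 : (2 / b * η) ^ 2 = 4 / b ^ 2 * η ^ 2 := by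
        field_simp
        ring
      have k6 : 8 / b ^ 2 * η ^ 2 = 2 * (4 / b ^ 2 * η ^ 2) := by ring
      nlinarith [sq_nonneg (θ - κ * η)]
    exact mul_le_mul hw k1 (sq_nonneg _) hW0
  have g2 : 6 * (b ^ 2 * (U * θ ^ 2 + wf * (θ + κ * η) ^ 2)) ≤
      6 * b ^ 2 * (U * θ ^ 2) + 12 * b ^ 2 * (W * θ ^ 2) + 48 * (W * η ^ 2) := by
    have k1 := mul_le_mul_of_nonneg_left g1 (show 0 ≤ 6 * b ^ 2 by positivity)
    have k2 : 6 * b ^ 2 * (W * (2 * θ ^ 2 + 8 / b ^ 2 * η ^ 2)) =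
        12 * b ^ 2 * (W * θ ^ 2) + 48 * (W * η ^ 2) := by
      field_simp
      ring
    linarith
  have g3 : 2 * b ^ 4 * wf ^ 2 * (9 / 4 * U + U) ≤ 7 * b ^ 4 * W ^ 2 := by
    have k1 : wf ^ 2 ≤ W ^ 2 := pow_le_pow_left₀ hw0 hw 2
    have k2 : 9 / 4 * U + U ≤ 7 / 2 := by linarith
    calc 2 * b ^ 4 * wf ^ 2 * (9 / 4 * U + U) ≤ 2 * b ^ 4 * W ^ 2 * (7 / 2) := by
          gcongr
      _ = 7 * b ^ 4 * W ^ 2 := by ring
  have g4 : 8 * b ^ 8 * wf ^ 4 / U ≤ 8 * b ^ 8 * W ^ 3 := by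
    rw [div_le_iff₀ hU0]
    have k1 : wf ^ 3 ≤ W ^ 3 := pow_le_pow_left₀ hw0 hw 3
    have k2 : wf ^ 4 ≤ W ^ 3 * U := by
      calc wf ^ 4 = wf ^ 3 * wf := by ring
        _ ≤ W ^ 3 * U := mul_le_mul k1 hwU hw0 (by positivity)
    calc 8 * b ^ 8 * wf ^ 4 ≤ 8 * b ^ 8 * (W ^ 3 * U) := by gcongr
      _ = 8 * b ^ 8 * W ^ 3 * U := by ring
  have g6 : 6000000 * (1 + η) ^ 2 * (2 * b ^ 4 * wf ^ 2 * (9 / 4 * U + U) +
      8 * b ^ 8 * wf ^ 4 / U) ≤ 50000000 * b ^ 4 * W ^ 2 + 56000000 * b ^ 8 * W ^ 3 := by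
    have k1 : 2 * b ^ 4 * wf ^ 2 * (9 / 4 * U + U) + 8 * b ^ 8 * wf ^ 4 / U ≤
        7 * b ^ 4 * W ^ 2 + 8 * b ^ 8 * W ^ 3 := by linarith
    have k2 := mul_le_mul hη2 k1 (by positivity) (by norm_num)
    have k3 : 0 ≤ b ^ 4 * W ^ 2 := by positivity
    linarith
  unfold H317.E3c
  rw [mul_add (6000000 * (1 + η) ^ 2)]
  have k1 : 6000000 * (1 + η) ^ 2 * ((2 * b ^ 4 + 8 * b ^ 8) *
      H317.NC3 U U U η I rk k4 p p p) = H317.CBc b η * H317.NC3 U U U η I rk k4 p p p := by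
    unfold H317.CBc
    ring
  rw [k1]
  linarith

lemma NW.e3_sizes (h : NW a0 b₁ q A b n y V al s lam η)
    (hT : (n : ℝ) ^ (-(71 * q)) * y ^ 2 ≤ T) (hT1 : T ≤ 1) {W θ : ℝ}
    (hW : W = (n : ℝ) ^ (-(23 * q)) * y ^ 3) (hθ : θ = (n : ℝ) ^ (-(2900 * q)) * y ^ 2) :
    6 * b ^ 2 * (Uq q n y T * θ ^ 2) + 12 * b ^ 2 * (W * θ ^ 2) + 48 * (W * η ^ 2) +
      (n : ℝ) ^ (q / 5) * ((n : ℝ) ^ (-(200 * q)) * y ^ 3) +
      (50000000 * b ^ 4 * W ^ 2 + 56000000 * b ^ 8 * W ^ 3) ≤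
      (n : ℝ) ^ (-(100 * q)) * y ^ 3 := by
  obtain ⟨f1, f2, f3, f4, f5, f6, f7, f8, f9, f10, f11, f12, f13, f14⟩ := h.facts
  obtain ⟨hT0, t1, t2⟩ := logT h hT hT1
  have hn := h.env.n0
  have hy := h.env.y0
  have hb := h.b0
  have hη := h.kw.η0
  have hU0 := Uq_pos (q := q) hn hy hT0
  have hU := h.logU (T := T) hT0
  have hW0 : 0 < W := by rw [hW]; positivity
  have hθ0 : 0 < θ := by rw [hθ]; positivity
  have hWl : Real.log W = -(23 * q) * Real.log n + 3 * Real.log y := by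
    rw [hW]
    simp (disch := positivity) only [Real.log_mul, Real.log_rpow, Real.log_pow]
    push_cast
    ring
  have hθl : Real.log θ = -(2900 * q) * Real.log n + 2 * Real.log y := by
    rw [hθ]
    simp (disch := positivity) only [Real.log_mul, Real.log_rpow, Real.log_pow]
    push_cast
    ring
  have c6 := log_c 6 (by norm_num)
  have c12 := log_c 12 (by norm_num)
  have c48 := log_c 48 (by norm_num)
  have c7 := log_ten 8 (c := 50000000) (by norm_num) (by norm_num)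
  have c56 := log_ten 8 (c := 56000000) (by norm_num) (by norm_num)
  push_cast at c7 c56
  have e1 : 6 * b ^ 2 * (Uq q n y T * θ ^ 2) ≤ (n : ℝ) ^ (-(100 * q)) * y ^ 3 / 6 := by
    refine le_of_log (by positivity) (by positivity) ?_
    simp (disch := positivity) only [Real.log_mul, Real.log_rpow, Real.log_pow, Real.log_div]
    rw [hU, hθl]
    push_cast
    linarith
  have e2 : 12 * b ^ 2 * (W * θ ^ 2) ≤ (n : ℝ) ^ (-(100 * q)) * y ^ 3 / 6 := by
    refine le_of_log (by positivity) (by positivity) ?_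
    simp (disch := positivity) only [Real.log_mul, Real.log_rpow, Real.log_pow, Real.log_div]
    rw [hWl, hθl]
    push_cast
    linarith
  have e3 : 48 * (W * η ^ 2) ≤ (n : ℝ) ^ (-(100 * q)) * y ^ 3 / 6 := by
    refine le_of_log (by positivity) (by positivity) ?_
    simp (disch := positivity) only [Real.log_mul, Real.log_rpow, Real.log_pow, Real.log_div]
    rw [hWl]
    push_cast
    linarith
  have e4 : (n : ℝ) ^ (q / 5) * ((n : ℝ) ^ (-(200 * q)) * y ^ 3) ≤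
      (n : ℝ) ^ (-(100 * q)) * y ^ 3 / 6 := by
    refine le_of_log (by positivity) (by positivity) ?_
    simp (disch := positivity) only [Real.log_mul, Real.log_rpow, Real.log_pow, Real.log_div]
    push_cast
    linarith
  have e5 : 50000000 * b ^ 4 * W ^ 2 ≤ (n : ℝ) ^ (-(100 * q)) * y ^ 3 / 6 := by
    refine le_of_log (by positivity) (by positivity) ?_
    simp (disch := positivity) only [Real.log_mul, Real.log_rpow, Real.log_pow, Real.log_div]
    rw [hWl]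
    push_cast
    linarith
  have e6 : 56000000 * b ^ 8 * W ^ 3 ≤ (n : ℝ) ^ (-(100 * q)) * y ^ 3 / 6 := by
    refine le_of_log (by positivity) (by positivity) ?_
    simp (disch := positivity) only [Real.log_mul, Real.log_rpow, Real.log_pow, Real.log_div]
    rw [hWl]
    push_cast
    linarith
  linarith

/-- the last square at a typical point -/
lemma NW.e3c_le (h : NW a0 b₁ q A b n y V al s lam η)
    (hT : (n : ℝ) ^ (-(71 * q)) * y ^ 2 ≤ T) (hT1 : T ≤ 1) {wf : ℝ} (hw0 : 0 ≤ wf)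
    (hw : wf ≤ (n : ℝ) ^ (-(23 * q)) * y ^ 3) (hwU : wf ≤ Uq q n y T) :
    H317.E3c b ((1 + al) / b) η (Uq q n y T) ((n : ℝ) ^ (-(2900 * q)) * y ^ 2) wf
      (Uq q n y T) (Uq q n y T) ((n : ℝ) ^ (112 * q) / √T / n)
      ((n : ℝ) ^ (106 * q) / (n * y ^ 3 * √T)) ((n : ℝ) ^ (10 * q) * y ^ 2 / (n * T ^ 2))
      ((n : ℝ) ^ (-(10 : ℝ))) ((n : ℝ) ^ (-(10 : ℝ))) ≤ (n : ℝ) ^ (-(100 * q)) * y ^ 3 := by
  obtain ⟨z1, z2⟩ := h.CB_le
  have hT0 := (logT h hT hT1).1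
  have hn := h.env.n0
  have hy := h.env.y0
  have hb := h.b0
  have hη := h.kw.η0
  have hal := abs_le.1 h.al_small
  have hU1 := h.U_le hT hT1
  have hC0 : 0 ≤ H317.CBc b η := by
    unfold H317.CBc
    positivity
  refine (e3_pieces hb hη.le z2 (div_nonneg (by linarith) hb.le)
    (div_le_div_of_nonneg_right (by linarith) hb.le) (Uq_pos (q := q) hn hy hT0) (by linarith)
    (by positivity) hw0 hw hwU).trans ?_
  refine le_trans ?_ (h.e3_sizes hT hT1 rfl rfl)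
  have g5 := (mul_le_mul_of_nonneg_left (h.nc3_le hT hT1) hC0).trans
    (mul_le_mul_of_nonneg_right z1 (by positivity))
  linarith

/-- the window of `T` of the second regime in logarithmic form -/
lemma logT2 (h : NW a0 b₁ q A b n y V al s lam η) (hT : (n : ℝ) ^ (30 * q) * y ^ 2 / 2 ≤ T) :
    0 < T ∧ 30 * q * Real.log n + 2 * Real.log y - Real.log 2 ≤ Real.log T ∧
      (n : ℝ) ^ (-(71 * q)) * y ^ 2 ≤ T := by
  obtain ⟨f1, f2, f3, f4, f5, f6, f7, f8, f9, f10, f11, f12, f13, f14⟩ := h.facts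
  have hn := h.env.n0
  have hy := h.env.y0
  have hT0 : 0 < T := lt_of_lt_of_le (by positivity) hT
  have h1 := Real.log_le_log (by positivity) hT
  simp (disch := positivity) only [Real.log_mul, Real.log_rpow, Real.log_pow, Real.log_div] at h1
  push_cast at h1
  have c2 := log_c 2 (by norm_num)
  refine ⟨hT0, h1, ?_⟩
  refine le_of_log (by positivity) hT0 ?_
  simp (disch := positivity) only [Real.log_mul, Real.log_rpow, Real.log_pow]
  push_cast
  linarith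

/-- the mass against the window -/
lemma NW.mass2 (h : NW a0 b₁ q A b n y V al s lam η)
    (hT : (n : ℝ) ^ (30 * q) * y ^ 2 / 2 ≤ T) (hT1 : T ≤ 1) {a c3 : ℝ}
    (ha : a ≤ A * ((n : ℝ) ^ (-(10 * q)) * y ^ 2))
    (hc3 : c3 ≤ (n : ℝ) ^ q * Uq q n y T) :
    2 * a + c3 * Uq q n y T ≤ T / 2 := by
  obtain ⟨f1, f2, f3, f4, f5, f6, f7, f8, f9, f10, f11, f12, f13, f14⟩ := h.facts
  obtain ⟨hT0, t1, t2⟩ := logT2 h hT
  have hn := h.env.n0
  have hy := h.env.y0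
  have hA0 : 0 < A := by linarith [h.A1]
  have hU0 := Uq_pos (q := q) hn hy hT0
  have hU := h.logU (T := T) hT0
  have c2 := log_c 2 (by norm_num)
  have c4 := log_c 4 (by norm_num)
  have x1 : 2 * (A * ((n : ℝ) ^ (-(10 * q)) * y ^ 2)) ≤ T / 4 := by
    refine le_of_log (by positivity) (by positivity) ?_
    simp (disch := positivity) only [Real.log_mul, Real.log_rpow, Real.log_pow, Real.log_div]
    push_cast
    linarith
  have x2 : (n : ℝ) ^ q * Uq q n y T ^ 2 ≤ T / 4 := by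
    refine le_of_log (by positivity) (by positivity) ?_
    simp (disch := positivity) only [Real.log_mul, Real.log_rpow, Real.log_pow, Real.log_div]
    rw [hU]
    push_cast
    linarith
  have x3 := mul_le_mul_of_nonneg_right hc3 hU0.le
  have e : (n : ℝ) ^ q * Uq q n y T * Uq q n y T = (n : ℝ) ^ q * Uq q n y T ^ 2 := by ring
  rw [e] at x3
  linarith

/-- the main term -/
lemma NW.main2 (h : NW a0 b₁ q A b n y V al s lam η)
    (hT : (n : ℝ) ^ (30 * q) * y ^ 2 / 2 ≤ T) (hT1 : T ≤ 1) :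
    4 * (Uq q n y T * (2 / T * (V / b ^ 2 + (2 * ((n : ℝ) ^ (-(100 * q)) * y ^ 3) +
      (n : ℝ) ^ (-(1890 * q)) * y ^ 3) + (n : ℝ) ^ q * (2 * (n : ℝ) ^ (-(10 : ℝ)))))) ≤
      (n : ℝ) ^ (-(37 * q)) * y ^ 4 / T / 2 := by
  obtain ⟨f1, f2, f3, f4, f5, f6, f7, f8, f9, f10, f11, f12, f13, f14⟩ := h.facts
  obtain ⟨hT0, t1, t2⟩ := logT2 h hT
  have hn := h.env.n0
  have hy := h.env.y0
  have hV := h.env.V0
  have hb := h.b0
  have hU0 := Uq_pos (q := q) hn hy hT0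
  have hU := h.logU (T := T) hT0
  have c2 := log_c 2 (by norm_num)
  have c2' : 0 ≤ Real.log 2 := Real.log_nonneg (by norm_num)
  have c8 := log_c 8 (by norm_num)
  have x1 : V / b ^ 2 ≤ (n : ℝ) ^ (-(47 / 2 * q)) * y ^ 3 / 2 := by
    refine le_of_log (by positivity) (by positivity) ?_
    simp (disch := positivity) only [Real.log_mul, Real.log_rpow, Real.log_pow, Real.log_div]
    push_cast
    linarith
  have x2 : 2 * ((n : ℝ) ^ (-(100 * q)) * y ^ 3) ≤ (n : ℝ) ^ (-(47 / 2 * q)) * y ^ 3 / 8 := by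
    refine le_of_log (by positivity) (by positivity) ?_
    simp (disch := positivity) only [Real.log_mul, Real.log_rpow, Real.log_pow, Real.log_div]
    push_cast
    linarith
  have x3 : (n : ℝ) ^ (-(1890 * q)) * y ^ 3 ≤ (n : ℝ) ^ (-(47 / 2 * q)) * y ^ 3 / 8 := by
    refine le_of_log (by positivity) (by positivity) ?_
    simp (disch := positivity) only [Real.log_mul, Real.log_rpow, Real.log_pow, Real.log_div]
    push_cast
    linarith
  have x4 : (n : ℝ) ^ q * (2 * (n : ℝ) ^ (-(10 : ℝ))) ≤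
      (n : ℝ) ^ (-(47 / 2 * q)) * y ^ 3 / 8 := by
    refine le_of_log (by positivity) (by positivity) ?_
    simp (disch := positivity) only [Real.log_mul, Real.log_rpow, Real.log_pow, Real.log_div]
    push_cast
    linarith
  have x5 : 4 * (Uq q n y T * (2 / T * ((n : ℝ) ^ (-(47 / 2 * q)) * y ^ 3))) ≤
      (n : ℝ) ^ (-(37 * q)) * y ^ 4 / T / 2 := by
    refine le_of_log (by positivity) (by positivity) ?_
    simp (disch := positivity) only [Real.log_mul, Real.log_rpow, Real.log_pow, Real.log_div]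
    rw [hU]
    have c4 := log_c 4 (by norm_num)
    push_cast
    linarith
  refine le_trans ?_ x5
  have x6 : 0 ≤ (n : ℝ) ^ (-(47 / 2 * q)) * y ^ 3 := by positivity
  gcongr
  linarith

/-- the other terms -/
lemma NW.rest2 (h : NW a0 b₁ q A b n y V al s lam η) (h7 : a0 ≤ 1 / 7)
    (hT : (n : ℝ) ^ (30 * q) * y ^ 2 / 2 ≤ T) (hT1 : T ≤ 1) :
    4 * (2 * (n : ℝ) ^ (-(10 : ℝ))) + 4 * (9 * η ^ 2) * Uq q n y T ^ 2 +
      2 * ((n : ℝ) ^ (106 * q) / (n * y ^ 3 * √T)) ≤ (n : ℝ) ^ (-(37 * q)) * y ^ 4 / T / 2 := by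
  obtain ⟨f1, f2, f3, f4, f5, f6, f7, f8, f9, f10, f11, f12, f13, f14⟩ := h.facts
  obtain ⟨hT0, t1, t2⟩ := logT2 h hT
  have hn := h.env.n0
  have hy := h.env.y0
  have hη := h.kw.η0
  have hL := h.env.L1
  have hlT : Real.log T ≤ 0 := Real.log_nonpos hT0.le hT1
  have hU0 := Uq_pos (q := q) hn hy hT0
  have hU := h.logU (T := T) hT0
  have c2 := log_c 2 (by norm_num)
  have c4 := log_c 4 (by norm_num)
  have c6 := log_c 6 (by norm_num)
  have c9 := log_c 9 (by norm_num)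
  have m1 : a0 * Real.log n ≤ 1 / 7 * Real.log n :=
    mul_le_mul_of_nonneg_right h7 (by linarith)
  have hyl := h.env.yl
  have x1 : 4 * (2 * (n : ℝ) ^ (-(10 : ℝ))) ≤ (n : ℝ) ^ (-(37 * q)) * y ^ 4 / T / 6 := by
    refine le_of_log (by positivity) (by positivity) ?_
    simp (disch := positivity) only [Real.log_mul, Real.log_rpow, Real.log_pow, Real.log_div]
    push_cast
    linarith
  have x2 : 4 * (9 * η ^ 2) * Uq q n y T ^ 2 ≤ (n : ℝ) ^ (-(37 * q)) * y ^ 4 / T / 6 := by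
    refine le_of_log (by positivity) (by positivity) ?_
    simp (disch := positivity) only [Real.log_mul, Real.log_rpow, Real.log_pow, Real.log_div]
    rw [hU]
    push_cast
    linarith
  have x3 : 2 * ((n : ℝ) ^ (106 * q) / (n * y ^ 3 * √T)) ≤
      (n : ℝ) ^ (-(37 * q)) * y ^ 4 / T / 6 := by
    refine le_of_log (by positivity) (by positivity) ?_
    simp (disch := positivity) only [Real.log_mul, Real.log_rpow, Real.log_pow, Real.log_div,
      Real.log_sqrt]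
    push_cast
    linarith
  linarith

/-- the algebra of the second regime -/
lemma alg_err2 {U T w X Y p4 e CC rk w' X' Y' p' e' C' r' Z : ℝ} (hU : 0 ≤ U) (hT : 0 < T)
    (hw : w ≤ w') (hX : X ≤ X') (hY : Y ≤ Y') (hp : p4 ≤ p') (he : e ≤ e') (he0 : 0 ≤ e)
    (hC0 : 0 ≤ C') (hC : CC ≤ C') (hr : rk ≤ r')
    (h1 : 4 * (U * (2 / T * (w' + X' + Y'))) ≤ Z / 2)
    (h2 : 4 * p' + 4 * e' * C' + 2 * r' ≤ Z / 2) :
    4 * (U * (2 / T * (w + X + Y)) + p4) + 4 * e * CC + 2 * rk ≤ Z := by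
  have k1 : U * (2 / T * (w + X + Y)) ≤ U * (2 / T * (w' + X' + Y')) :=
    mul_le_mul_of_nonneg_left (mul_le_mul_of_nonneg_left (by linarith) (by positivity)) hU
  have k2 : e * CC ≤ e' * C' := (mul_le_mul_of_nonneg_left hC he0).trans
    (mul_le_mul_of_nonneg_right he hC0)
  nlinarith

/-- the data of a typical point of the second regime -/
lemma NW.m_facts (h : NW a0 b₁ q A b n y V al s lam η) {m : ℕ}
    (hm : m ∈ Finset.Icc (mm q n y) (2 * mm q n y)) :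
    1 ≤ m ∧ m < n ∧ ∃ i0 : Fin n, i0.1 + m = n := by
  obtain ⟨m1, m2, m3, m4⟩ := h.mm_facts
  have hn := h.env.n0
  have hmI := Finset.mem_Icc.1 hm
  have hm2 : (m : ℝ) ≤ n / 2 := by
    have : (m : ℝ) ≤ 2 * (mm q n y : ℝ) := by exact_mod_cast hmI.2
    linarith
  have hmn : m < n := by
    have : (m : ℝ) < n := by linarith
    exact_mod_cast this
  have hm0 : 1 ≤ m := m2.trans hmI.1
  exact ⟨hm0, hmn, ⟨n - m, by omega⟩, by
    show n - m + m = n
    omega⟩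

/-- **The last square at a typical point**, test function `1`. -/
theorem c3_pt (h : NW a0 b₁ q A b n y V al s lam η)
    (hT71 : (n : ℝ) ^ (-(71 * q)) * y ^ 2 ≤ T) (hT1 : T ≤ 1)
    (hu : u ∈ Icc (1 - 2 * dl q n) (1 - dl q n)) {m : ℕ}
    (hm : m ∈ Finset.Icc (mm q n y) (2 * mm q n y))
    (hp : PtN q 10 (lawOf n b y V al s lam η) (rq b y al) T u m)
    (hrb : rbL (lawOf n b y V al s lam η) (H418.cb (1 - T)) (H418.cf (V - s ^ 2) u)
      (Sn n (m - 1)) (Kset (Sn n (m - 1)) {true} {true}) / (n : ℝ) ^ 4 ≤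
        (n : ℝ) ^ (10 * q) * y ^ 2 / (n * T ^ 2)) {i0 : Fin n} (hi0 : i0.1 + m = n) :
    H75.C3U (lawOf n b y V al s lam η) (rq b y al) (fun _ => 1) m (1 - T) u i0 ≤
      (1 + al) ^ 2 * ((n : ℝ) ^ q * Uq q n y T *
        (lawOf n b y V al s lam η).qq (Sn n m) (1 - T) u) + (n : ℝ) ^ (-(100 * q)) * y ^ 3 := by
  obtain ⟨k1, k2, k3, k4, k5, k6, k7, k8⟩ := h.bd
  have hT0 := (logT h hT71 hT1).1
  obtain ⟨v1, v2, v3, v4, v5⟩ := h.u_mem hu
  obtain ⟨hm0, hmn, -⟩ := h.m_facts hm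
  obtain ⟨hA, a1, a2⟩ := h.adm
  have hn := h.env.n0
  have hy := h.env.y0
  have hb := h.b0
  have hη := h.kw.η0
  have hal1 := abs_le.1 h.al_small
  have hy1 : y < 1 := by linarith
  have hkp := rq_eq (b := b) (al := al) hy1
  have hk0 : 0 < (1 + al) / b := div_pos (by linarith) hb
  have hU0 : 0 < Uq q n y T := hp.U0
  have hU1 : Uq q n y T ≤ 1 / 1000 := hp.U1
  have hc : (lawOf n b y V al s lam η).c = s ^ 2 * n * (1 - (1 - y) * rq b y al) := by
    rw [hkp]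
    show cc n b s al = _
    unfold cc
    ring
  have hxb : 8 * (y ^ 2 * b ^ 2) ≤ 1 := by nlinarith [sq_nonneg (y * b)]
  have hC3 := H317.c3_sk (L := lawOf n b y V al s lam η) hA (show η ≤ 1 / 2 by linarith)
    (show s ≠ 0 from h.kw.s0.ne') hy1 (r0 := rq b y al) hc (by
      show 0 ≤ 1 - (1 - y) * rq b y al
      rw [hkp]
      exact hk0.le) (m := m) hm0 hmn.le (i0 := i0) hi0 (t := 1 - T) (by linarith) (by linarith)
    (u := u) (by linarith) (φ := fun _ => 1) measurable_const (P0 := 1)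
    (fun _ _ => zero_le_one) (fun _ _ => le_rfl)
    (U := Uq q n y T) (θ := (n : ℝ) ^ (-(2900 * q)) * y ^ 2) (l0 := Uq q n y T)
    (del := Uq q n y T) (I := (n : ℝ) ^ (112 * q) / √T)
    (rk := (n : ℝ) ^ (106 * q) / (n * y ^ 3 * √T))
    (k4 := (n : ℝ) ^ (10 * q) * y ^ 2 / (n * T ^ 2)) (p0 := (n : ℝ) ^ (-(10 : ℝ)))
    (pT := (n : ℝ) ^ (-(10 : ℝ))) hp.wU hU0 (by linarith) hxb
    (hp.ap.m1 _) (hp.ap.m2 _) hp.th hU0 le_rfl hU0 le_rfl (hp.inc i0 hi0)
    (hp.rk _ (Or.inr rfl)) (by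
      rw [div_le_iff₀ (by positivity)] at hrb
      refine hrb.trans (le_of_eq ?_)
      show _ = (n : ℝ) ^ 4 * _
      ring) (hp.ap.tQ _) (hp.ap.tC _) (hp.ap.tQ _)
  have hE3 := h.e3c_le hT71 hT1 hp.w0.le hp.wf hp.wU
  rw [← hkp] at hE3
  refine hC3.trans ?_
  rw [one_mul]
  refine add_le_add ?_ hE3
  simp only [one_mul]
  obtain ⟨z1, z2⟩ := h.CB_le
  have hq0 : 0 ≤ (lawOf n b y V al s lam η).qq (Sn n m) (1 - T) u := by
    refine ex_nonneg (wtL hA.lam0 hA.η0 (1 - T) u) fun z => sq_nonneg _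
  have hq5 : 1088 * (n : ℝ) ^ (q / 5) ≤ (n : ℝ) ^ q := by
    obtain ⟨f1, f2, f3, f4, f5, f6, f7, f8, f9, f10, f11, f12, f13, f14⟩ := h.facts
    have c := log_c 1088 (by norm_num)
    refine le_of_log (by positivity) (by positivity) ?_
    simp (disch := positivity) only [Real.log_mul, Real.log_rpow]
    linarith
  have hA2 : 1 / 2 ≤ (1 + al) ^ 2 := by nlinarith
  show H317.CBc b η * (528 * Uq q n y T + 16 * Uq q n y T) *
    (lawOf n b y V al s lam η).qq (Sn n m) (1 - T) u ≤ _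
  rw [← mul_assoc]
  refine mul_le_mul_of_nonneg_right ?_ hq0
  have y1 : H317.CBc b η * (528 * Uq q n y T + 16 * Uq q n y T) ≤
      (n : ℝ) ^ (q / 5) * (528 * Uq q n y T + 16 * Uq q n y T) :=
    mul_le_mul_of_nonneg_right z1 (by positivity)
  have y2 : 1088 * (n : ℝ) ^ (q / 5) * (Uq q n y T / 2) ≤ (n : ℝ) ^ q * (Uq q n y T / 2) :=
    mul_le_mul_of_nonneg_right hq5 (by positivity)
  have y3 : 1 / 2 * ((n : ℝ) ^ q * Uq q n y T) ≤ (1 + al) ^ 2 * ((n : ℝ) ^ q * Uq q n y T) :=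
    mul_le_mul_of_nonneg_right hA2 (by positivity)
  linarith

lemma alg_pq {N U e p p' : ℝ} (hN : 0 ≤ N) (hU0 : 0 ≤ U) (hU : U ≤ 1 / 1000) (he0 : 0 ≤ e)
    (he : e ≤ 2) (hp0 : 0 ≤ p) (hp : p ≤ p') : N * U * e * p ≤ N * (2 * p') ∧ e * p ≤ 2 * p' := by
  have y0 : e * p ≤ 2 * p' := mul_le_mul he hp hp0 (by norm_num)
  have y1 : 0 ≤ e * p := mul_nonneg he0 hp0
  have y2 : U * (e * p) ≤ 2 * p' := by nlinarith
  refine ⟨?_, y0⟩
  calc N * U * e * p = N * (U * (e * p)) := by ring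
    _ ≤ N * (2 * p') := mul_le_mul_of_nonneg_left y2 hN

lemma alg_eta {η : ℝ} (h0 : 0 ≤ η) (h1 : η ≤ 1 / 1000) :
    (1 + η) ^ 4 ≤ 2 ∧ (η * (2 + η)) ^ 2 ≤ 9 * η ^ 2 := by
  have h2 : (1 + η) ^ 2 ≤ 5 / 4 := by nlinarith
  have h3 : η * (2 + η) ≤ 3 * η := by nlinarith
  constructor
  · calc (1 + η) ^ 4 = ((1 + η) ^ 2) ^ 2 := by ring
      _ ≤ (5 / 4) ^ 2 := pow_le_pow_left₀ (sq_nonneg _) h2 2
      _ ≤ 2 := by norm_num
  · calc (η * (2 + η)) ^ 2 ≤ (3 * η) ^ 2 := pow_le_pow_left₀ (by positivity) h3 2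
      _ = 9 * η ^ 2 := by ring

lemma alg_w {u V s b : ℝ} (hu : u ≤ 1) (hv : 0 ≤ V - s ^ 2) :
    u * (V - s ^ 2) / b ^ 2 ≤ V / b ^ 2 := by
  refine div_le_div_of_nonneg_right ?_ (sq_nonneg b)
  nlinarith [sq_nonneg s]

lemma alg_X {E A2 X X1 : ℝ} (hE : 0 ≤ E) (hA : 1 / 2 ≤ A2) (hX : X ≤ X1) :
    E / A2 + X ≤ 2 * E + X1 := by
  have h : E / A2 ≤ 2 * E := by
    rw [div_le_iff₀ (by linarith)]
    nlinarith
  linarith

/-- the error of the second regime at a typical point -/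
theorem err2_pt (h : NW a0 b₁ q A b n y V al s lam η) (h7 : a0 ≤ 1 / 7)
    (hT : (n : ℝ) ^ (30 * q) * y ^ 2 / 2 ≤ T) (hT1 : T ≤ 1)
    (hu : u ∈ Icc (1 - 2 * dl q n) (1 - dl q n)) {m : ℕ}
    (hm : m ∈ Finset.Icc (mm q n y) (2 * mm q n y))
    (hp : PtN q 10 (lawOf n b y V al s lam η) (rq b y al) T u m) {i0 : Fin n}
    (hi0 : i0.1 + m = n) :
    H75.Err2 (lawOf n b y V al s lam η) (rq b y al) ((n : ℝ) ^ q * Uq q n y T)
      ((n : ℝ) ^ (-(100 * q)) * y ^ 3) (Uq q n y T) m T u i0 ≤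
        (n : ℝ) ^ (-(37 * q)) * y ^ 4 / T := by
  obtain ⟨k1, k2, k3, k4, k5, k6, k7, k8⟩ := h.bd
  obtain ⟨hT0, t1, hT71⟩ := logT2 h hT
  have hn := h.env.n0
  have hy := h.env.y0
  have hη := h.kw.η0
  have hal1 := abs_le.1 h.al_small
  have hbk := b_rq (al := al) h.b0 (show y < 1 by linarith)
  have hXE := xe_pt h hT71 hT1 hu hm hp (P := 1) (Lr := 0) zero_le_one le_rfl hi0
  obtain ⟨hη4, hη2⟩ := alg_eta hη.le k3
  have hPQ := alg_pq (N := (n : ℝ) ^ q) (U := Uq q n y T) (e := (1 + η) ^ 4)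
    (p := H75.pQ (lawOf n b y V al s lam η) (Uq q n y T) (Sn n m) (1 - T) u)
    (p' := (n : ℝ) ^ (-(10 : ℝ))) (by positivity) hp.U0.le hp.U1 (by positivity) hη4
    (H75.pQ_nonneg h.adm.1 _ _ _ _) (hp.ap.tQ _)
  have hX := alg_X (E := (n : ℝ) ^ (-(100 * q)) * y ^ 3)
    (A2 := (b * (1 - (1 - y) * rq b y al)) ^ 2) (by positivity) (by
      rw [hbk]
      nlinarith) (hXE.trans (le_of_eq (show _ = (n : ℝ) ^ (-(1890 * q)) * y ^ 3 by ring)))
  exact alg_err2 (U := Uq q n y T) (T := T) (e := (η * (2 + η)) ^ 2) hp.U0.le hT0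
    (w' := V / b ^ 2)
    (alg_w (h.u_mem hu).2.1 (by linarith [h.adm.2.1, h.env.V0])) hX hPQ.1 hPQ.2 hη2 (sq_nonneg _)
    (sq_nonneg _) (hp.ap.m1 _) (hp.rk _ (Or.inl rfl)) (h.main2 hT hT1) (h.rest2 h7 hT hT1)

lemma one_sub_inv_sq (h1 : -(1 / 2) ≤ al) : 1 - 1 / (1 + al) ^ 2 ≤ 2 * al := by
  have h0 : 0 < (1 + al) ^ 2 := by
    have : 0 < 1 + al := by linarith
    positivity
  have y1 : 1 - 2 * al ≤ 1 / (1 + al) ^ 2 := by
    rw [le_div_iff₀ h0]
    have y4 : (1 - 2 * al) * (1 + al) ^ 2 = 1 - al ^ 2 * (3 + 2 * al) := by ring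
    rw [y4]
    have y5 : 0 ≤ al ^ 2 * (3 + 2 * al) := mul_nonneg (sq_nonneg _) (by linarith)
    linarith
  linarith

/-- **The second moment of the overlap at a typical point of the second regime.** -/
theorem row2_pt (h : NW a0 b₁ q A b n y V al s lam η) (h7 : a0 ≤ 1 / 7)
    (hap : ∀ T, 0 < T → T ≤ 1 → ∀ u ∈ Icc (0 : ℝ) 1, ApN q 10 (lawOf n b y V al s lam η) T u)
    (hT : (n : ℝ) ^ (30 * q) * y ^ 2 / 2 ≤ T) (hT1 : T ≤ 1)
    (hu : u ∈ Icc (1 - 2 * dl q n) (1 - dl q n)) {m : ℕ}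
    (hm : m ∈ Finset.Icc (mm q n y) (2 * mm q n y))
    (hty : H75.TypU (lawOf n b y V al s lam η) (hh q n) (1 - 2 * dl q n) (1 - dl q n)
      (mm q n y) (2 * mm q n y) T u m) {a : ℝ} (hal : al ≤ a)
    (hau : a ≤ A * ((n : ℝ) ^ (-(10 * q)) * y ^ 2)) :
    (lawOf n b y V al s lam η).rr (Sn n m) (1 - T) u ≤ (n : ℝ) ^ (-(37 * q)) * y ^ 4 / T := by
  obtain ⟨k1, k2, k3, k4, k5, k6, k7, k8⟩ := h.bd
  obtain ⟨hT0, t1, hT71⟩ := logT2 h hT
  obtain ⟨v1, v2, v3, v4, v5⟩ := h.u_mem hu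
  obtain ⟨hm0, hmn, i0, hi0⟩ := h.m_facts hm
  obtain ⟨hA, a1, a2⟩ := h.adm
  obtain ⟨T'', hT'', hty⟩ := hty
  have hn := h.env.n0
  have hy := h.env.y0
  have hb := h.b0
  have hal1 := abs_le.1 h.al_small
  have hy1 : y < 1 := by linarith
  have hkp := rq_eq (b := b) (al := al) hy1
  have hbk := b_rq (al := al) hb hy1
  have hh0 : 0 < hh q n := Real.rpow_pos_of_pos hn _
  have hh1 : hh q n ≤ 1 := by
    refine Real.rpow_le_one_of_one_le_of_nonpos (by exact_mod_cast h.kw.n1.le) ?_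
    have := h.q0
    linarith
  have hT2 : T / 2 ≤ T'' := by
    refine le_trans ?_ hT''.1
    exact div_le_div_of_nonneg_left hT0.le (by linarith) (by linarith)
  have hT3 : T'' ≤ 1 := hT''.2.trans hT1
  have hp := ptn_typ h (by norm_num) hap hT71 hT1 hu hm hT2 hT3 hty
  have hrb := rb_pt h hap hT71 hT1 hu hT2 hT3 hty (S := Sn n (m - 1)) (Or.inr rfl)
  have hU0 : 0 < Uq q n y T := hp.U0
  have hc : (lawOf n b y V al s lam η).c = s ^ 2 * n * (1 - (1 - y) * rq b y al) := by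
    rw [hkp]
    show cc n b s al = _
    unfold cc
    ring
  have hmass := h.mass2 (c3 := (n : ℝ) ^ q * Uq q n y T) hT hT1 hau le_rfl
  have hC3 := c3_pt h hT71 hT1 hu hm hp hrb hi0
  have hA1 : 1 - 1 / (1 + al) ^ 2 ≤ 2 * a :=
    (one_sub_inv_sq (by linarith)).trans (by linarith)
  refine (H75.rr_up2 (L := lawOf n b y V al s lam η) hA (show η ≤ 1 / 2 by linarith)
    (show s ≠ 0 from h.kw.s0.ne') hy hy1 (r0 := rq b y al) hc (by
      show 0 < b * (1 - (1 - y) * rq b y al)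
      rw [hbk]
      linarith) (m := m) hmn hT0 hT1 (u := u) (by linarith) (i0 := i0) hi0 (a1 := 2 * a)
    (c3 := (n : ℝ) ^ q * Uq q n y T) (err3 := (n : ℝ) ^ (-(100 * q)) * y ^ 3)
    (U := Uq q n y T) hU0.le (by positivity) (by
      show 1 - 1 / (b * (1 - (1 - y) * rq b y al)) ^ 2 ≤ 2 * a
      rw [hbk]
      exact hA1) hmass (by
      show H75.C3U _ _ _ _ _ _ _ ≤ (b * (1 - (1 - y) * rq b y al)) ^ 2 * _ + _
      rw [hbk]
      exact hC3)).trans ?_
  exact err2_pt h h7 hT hT1 hu hm hp hi0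

/-- **The second regime of the upper bound.** -/
theorem rowUp2 {a0 b₁ q A b : ℝ} (hq : 0 < q) (hb : 0 < b) (hA : 1 ≤ A) (h7 : a0 ≤ 1 / 7)
    (hb₁ : 100 * q < b₁) : H122.RowUp2E a0 b₁ q A b := by
  filter_upwards [apn_ev (a0 := a0) (b₁ := b₁) 10 hq hb hA (by linarith) hb₁] with n h1
  intro y V al s lam η a hkw hwa T hT
  obtain ⟨h, hap⟩ := h1 y V al s lam η hkw
  obtain ⟨hAd, a1, a2⟩ := h.adm
  obtain ⟨f1, f2, f3, f4, f5, f6, f7, f8, f9, f10, f11, f12, f13, f14⟩ := h.facts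
  obtain ⟨m1, m2, m3, m4⟩ := h.mm_facts
  have hn := h.env.n0
  have hy := h.env.y0
  have hh0 : 0 < hh q n := Real.rpow_pos_of_pos hn _
  have hh1 : hh q n ≤ 1 :=
    Real.rpow_le_one_of_one_le_of_nonpos (by exact_mod_cast h.kw.n1.le) (by linarith)
  have hdl0 : 0 < dl q n := Real.rpow_pos_of_pos hn _
  have hdl1 : dl q n ≤ 1 / 4 := by
    have c4 := log_c 4 (by norm_num)
    unfold dl
    refine le_of_log (by positivity) (by positivity) ?_
    simp (disch := positivity) only [Real.log_rpow, Real.log_div, Real.log_one]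
    linarith
  have hT' : (n : ℝ) ^ (30 * q) * y ^ 2 ≤ T := hT.1
  have hT0 : 0 < T := lt_of_lt_of_le (by positivity) hT'
  obtain ⟨T', hT'', u, hu, m, hm, hty⟩ := H75.sel_typU (L := lawOf n b y V al s lam η) hAd
    (h := hh q n) (Ta := T) (Tb := 1 / 2) (u0 := 1 - 2 * dl q n) (u1 := 1 - dl q n)
    (m1 := mm q n y) (m2 := 2 * mm q n y) hh0.le hT0 (by norm_num) m2 (by omega) (by linarith)
    (by linarith) (by linarith) T ⟨le_rfl, hT.2⟩
  have hT'0 : 0 < T' := lt_of_lt_of_le (by positivity) hT''.1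
  have hTT : T / 2 ≤ T' := by
    refine le_trans ?_ hT''.1
    exact div_le_div_of_nonneg_left hT0.le (by linarith) (by linarith)
  refine ⟨T', hT'', u, hu, m, (Finset.mem_Icc.1 hm).2, ?_⟩
  have hr := row2_pt h h7 hap (T := T') (by linarith) (by linarith [hT''.2, hT.2]) hu hm hty
    hwa.le hwa.up
  have h0 : 0 ≤ (n : ℝ) ^ (-(7 * q)) * y ^ 6 / T' ^ 2 := by positivity
  linarith

end Vale.Agent.P146.H615
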