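import Vale.Agent.P146.H615.Point

/-!
# P146: the inequalities (U_T), (L_T) of `H317.UpLow` at the modulated SK system

`point_U`, `point_L`: from `point_eq` and a bound `|N2v - r E φ Q| ≤ E2` (`H205.e2` or any other
version; `r = n / |S|`). On the (U) side the third order term `C3v` stays on the right-hand side; on
the (L) side it is dropped (it is nonnegative).
-/

open MeasureTheory ProbabilityTheory

namespace Vale.Agent.P146.H615

open Vale.Agent.P146.H196 Vale.Agent.P146.H646 Vale.Agent.P146.H347 Vale.Agent.P146.H475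
  Vale.Agent.P157.Lv Vale.Agent.P146.H816 Vale.Agent.P146.H325 Vale.Agent.P146.H161

set_option linter.unusedSectionVars false

/-! ### algebra -/

lemma alg_U {A b x t wf r a η q0 q1 q2 u2 nN c3 er e2 : ℝ}
    (h1 : nN ≤ A ^ 2 * (t * q1 + wf * q0) - x * b * A ^ 3 * u2 + c3 + er)
    (h2 : r * q1 - e2 ≤ nN) (hu2 : t ^ 2 * q2 ≤ u2) (hr : 1 ≤ r) (hA : 0 < A)
    (hAt : 1 - η ≤ A * t ^ 2) (ha : 1 - 1 / A ^ 2 ≤ a) (hbx : 0 ≤ b * x) (hq1 : 0 ≤ q1)
    (hq2 : 0 ≤ q2) :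
    (1 - η) * (b * x) * q2 + (1 - t - a) * q1 - wf * q0 ≤ (c3 + er + e2) / A ^ 2 := by
  have hA2 : 0 < A ^ 2 := by positivity
  rw [le_div_iff₀ hA2]
  have h3 : (1 - η) * (b * x) * q2 ≤ (b * x) * A * u2 := by
    have h4 : (1 - η) * q2 ≤ A * u2 := by
      calc (1 - η) * q2 ≤ (A * t ^ 2) * q2 := mul_le_mul_of_nonneg_right hAt hq2
        _ = A * (t ^ 2 * q2) := by ring
        _ ≤ A * u2 := mul_le_mul_of_nonneg_left hu2 hA.le
    calc (1 - η) * (b * x) * q2 = (b * x) * ((1 - η) * q2) := by ring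
      _ ≤ (b * x) * (A * u2) := mul_le_mul_of_nonneg_left h4 hbx
      _ = _ := by ring
  have h5 : (1 - a) * A ^ 2 ≤ 1 := by
    have h6 := mul_le_mul_of_nonneg_right ha hA2.le
    have h7 : (1 - 1 / A ^ 2) * A ^ 2 = A ^ 2 - 1 := by field_simp
    rw [h7] at h6
    linarith
  have h8 := mul_le_mul_of_nonneg_right h3 hA2.le
  have h9 := mul_le_mul_of_nonneg_right h5 hq1
  have h10 := mul_le_mul_of_nonneg_right hr hq1
  nlinarith [h8, h9, h10, h1, h2]

lemma alg_L {A b x t wf r a e η q0 q1 q2 u2 nN c3 er e2 : ℝ}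
    (h1 : A ^ 2 * (t * q1 + wf * q0) - x * b * A ^ 3 * u2 + c3 - er ≤ nN)
    (h2 : nN ≤ r * q1 + e2) (hu2 : u2 = t ^ 2 * q2 + 2 * t * wf * q1 + wf ^ 2 * q0)
    (hA : 0 < A) (hA1 : A ≤ 1 + η) (ht0 : 0 ≤ t) (ht1 : t ≤ 1) (hwf : 0 ≤ wf)
    (he : r / A ^ 2 + 2 * (b * x * A * wf) ≤ 1 - a + e) (hw : b * x * A * wf ≤ η)
    (hbx : 0 ≤ b * x) (hq0 : 0 ≤ q0) (hq1 : 0 ≤ q1) (hq2 : 0 ≤ q2) (hc3 : 0 ≤ c3) :
    -((er + e2) / A ^ 2) ≤ (1 + η) * (b * x) * q2 + (1 - t - a + e) * q1 - (1 - η) * wf * q0 := by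
  have hA2 : 0 < A ^ 2 := by positivity
  rw [neg_le]
  have h3 : A ^ 2 * (t * q1 + wf * q0) - x * b * A ^ 3 * u2 - r * q1 ≤ er + e2 := by linarith
  have h4 : 0 ≤ b * x * A := mul_nonneg hbx hA.le
  have ht2 : t ^ 2 ≤ 1 := by nlinarith
  -- divide by `A^2`
  have h5 : (t * q1 + wf * q0) - b * x * A * u2 - r / A ^ 2 * q1 ≤ (er + e2) / A ^ 2 := by
    rw [le_div_iff₀ hA2]
    have e1 : ((t * q1 + wf * q0) - b * x * A * u2 - r / A ^ 2 * q1) * A ^ 2 =
        A ^ 2 * (t * q1 + wf * q0) - x * b * A ^ 3 * u2 - r * q1 := by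
      field_simp
    rw [e1]
    exact h3
  have h6 : b * x * A * u2 ≤ (1 + η) * (b * x) * q2 + 2 * (b * x * A * wf) * q1 +
      η * wf * q0 := by
    rw [hu2]
    have a1 : b * x * A * (t ^ 2 * q2) ≤ (1 + η) * (b * x) * q2 := by
      calc b * x * A * (t ^ 2 * q2) ≤ b * x * A * (1 * q2) :=
            mul_le_mul_of_nonneg_left (mul_le_mul_of_nonneg_right ht2 hq2) h4
        _ = (b * x) * (A * q2) := by ring
        _ ≤ (b * x) * ((1 + η) * q2) :=
            mul_le_mul_of_nonneg_left (mul_le_mul_of_nonneg_right hA1 hq2) hbx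
        _ = _ := by ring
    have a2 : b * x * A * (2 * t * wf * q1) ≤ 2 * (b * x * A * wf) * q1 := by
      have a3 : 0 ≤ b * x * A * wf * q1 := mul_nonneg (mul_nonneg h4 hwf) hq1
      nlinarith
    have a4 : b * x * A * (wf ^ 2 * q0) ≤ η * wf * q0 := by
      calc b * x * A * (wf ^ 2 * q0) = (b * x * A * wf) * (wf * q0) := by ring
        _ ≤ η * (wf * q0) := mul_le_mul_of_nonneg_right (by linarith) (mul_nonneg hwf hq0)
        _ = _ := by ring
    calc b * x * A * (t ^ 2 * q2 + 2 * t * wf * q1 + wf ^ 2 * q0)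
        = b * x * A * (t ^ 2 * q2) + b * x * A * (2 * t * wf * q1) +
          b * x * A * (wf ^ 2 * q0) := by ring
      _ ≤ _ := by linarith
  have h7 := mul_le_mul_of_nonneg_right he hq1
  nlinarith [h5, h6, h7]

section main

variable {n : ℕ} {LB LF : Type} [Fintype LB] [DecidableEq LB] [Fintype LF] [DecidableEq LF]
variable {b s η lam c x r0 : ℝ} {cB : LB → ℝ} {cF : LF → ℝ} {BL : Finset LB} {FL : Finset LF}

lemma bm_Qv (hl : 0 < lam) (hη : 0 ≤ η) (S : Finset (Fin n)) (BL : Finset LB) (FL : Finset LF) :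
    BM (Qv n b cB cF s η lam c x S BL FL) := by
  have hG := gmA (n := n) b cB cF s hl hη c
  have ha : Bd fun w : ℝ × Xs n => al η w.1 := bm_of_al (n := n) hη
  have hσ : ∀ j : Fin n, Bd fun w : ℝ × Xs n => sp w.2 j := fun j => H347.bm_sp j
  have h1 : ∀ j, BM (Mv n b cB cF s η lam c x S BL FL j) := fun j =>
    H615.bm_Mg hG x (Kset S BL FL) ha hσ j
  have e : Qv n b cB cF s η lam c x S BL FL =
      fun z => (n : ℝ)⁻¹ * m2 S (Mv n b cB cF s η lam c x S BL FL) z := by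
    funext z
    unfold Qv
    rw [div_eq_inv_mul]
  rw [e]
  exact bcm _ (BM.sum S fun j _ => bsq (h1 j))

lemma dep_Qv (S : Finset (Fin n)) (BL : Finset LB) (FL : Finset LF) :
    Dep (Kset S BL FL) (Qv n b cB cF s η lam c x S BL FL) := by
  have h1 : Dep (Kset S BL FL) (m2 S (Mv n b cB cF s η lam c x S BL FL)) :=
    Dep.sum S fun j _ => Dep.sq (dep_cx (Kset S BL FL))
  intro z z'
  unfold Qv
  rw [h1 z z']

lemma Qv_nonneg (S : Finset (Fin n)) (BL : Finset LB) (FL : Finset LF) (z : Co n LB LF → ℝ) :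
    0 ≤ Qv n b cB cF s η lam c x S BL FL z := div_nonneg (m2_nonneg z) (Nat.cast_nonneg n)

lemma C3v_nonneg (hl : 0 < lam) (hη : 0 ≤ η) (kp : ℝ) (S : Finset (Fin n)) (BL : Finset LB)
    (FL : Finset LF) (i0 : Fin n) {φ : (Co n LB LF → ℝ) → ℝ} (hφ0 : ∀ z, 0 ≤ φ z) :
    0 ≤ C3v n b cB cF s η lam c x kp S BL FL i0 φ := by
  have hw : Wt (g1 (Co n LB LF)) (wS n b cB cF s η lam c x) := wtA b cB cF s hl hη c x
  refine ex_nonneg hw fun z => mul_nonneg (hφ0 z) ?_
  unfold cxS H646.cx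
  exact div_nonneg (integral_nonneg fun y => mul_nonneg (hw.pos _).le (sq_nonneg _))
    (hw.wn_pos _ z).le

variable (hl : 0 < lam) (hη : 0 ≤ η) (hη1 : η ≤ 1 / 2) (hs : s ≠ 0) (hx0 : 0 ≤ x) (hx1 : x < 1)
  (hn : 0 < n) (hc : c = s ^ 2 * n * (1 - (1 - x) * r0)) (hk : 0 < b * (1 - (1 - x) * r0))
  (hb : 0 < b)
include hl hη hη1 hs hx0 hx1 hn hc hk hb

/-- the error of the tested row equation, with all its arguments -/
theorem point_two {S S1 : Finset (Fin n)} (hS : S ⊆ S1) {i0 : Fin n} (hi0 : i0 ∉ S)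
    (hne : (S1 \ S).Nonempty) {φ : (Co n LB LF → ℝ) → ℝ} (hφ : Dep (Kset S BL FL) φ)
    (hφb : BM φ) (hφ0 : ∀ z, 0 ≤ φ z) {t wf : ℝ} (ht : ∑ l ∈ BL, cB l ^ 2 = t)
    (hwf : ∑ l ∈ FL, cF l ^ 2 = b ^ 2 * wf) (hwf0 : 0 ≤ wf) {er : ℝ}
    (her : Er b t wf η x (1 - (1 - x) * r0)
        (d0 n b cB cF s η lam c x r0 (Kset S BL FL) (Kset S1 BL FL) (S1 \ S).card / √n)
        (H646.d0f n b cB cF s η lam c x r0 (S1 \ S).card)
        (exS n b cB cF s η lam c x
          (fun z => φ z * (t * Qv n b cB cF s η lam c x S BL FL z + wf) ^ 2))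
        (exS n b cB cF s η lam c x (fun z => φ z * RKv n b cB cF s η lam c x S BL FL z))
        (exS n b cB cF s η lam c x
          (fun z => φ z ^ 2 * Qv n b cB cF s η lam c x S BL FL z))
        (exS n b cB cF s η lam c x (fun z => φ z ^ 2))
        (exS n b cB cF s η lam c x (fun z => (φ z *
          (t * Qv n b cB cF s η lam c x S BL FL z + wf)) ^ 2 *
          Qv n b cB cF s η lam c x S BL FL z))
        (exS n b cB cF s η lam c x (fun z => (φ z *
          (t * Qv n b cB cF s η lam c x S BL FL z + wf)) ^ 2))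
        (exS n b cB cF s η lam c x (fun z => (φ z *
          (t * Qv n b cB cF s η lam c x S BL FL z + wf) *
          Qv n b cB cF s η lam c x S BL FL z) ^ 2)) ≤ er)
    {r e2 : ℝ} (h2 : |N2v n b cB cF s η lam c x S BL FL i0 φ -
      r * exS n b cB cF s η lam c x
        (fun z => φ z * Qv n b cB cF s η lam c x S BL FL z)| ≤ e2) :
    (∀ {a e' : ℝ}, 1 ≤ r → 1 - e' ≤ b * (1 - (1 - x) * r0) * t ^ 2 →
      1 - 1 / (b * (1 - (1 - x) * r0)) ^ 2 ≤ a →
      exS n b cB cF s η lam c x (fun z => φ z * ((1 - e') * (b * x) *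
        Qv n b cB cF s η lam c x S BL FL z ^ 2 + (1 - t - a) *
        Qv n b cB cF s η lam c x S BL FL z - wf)) ≤
      (C3v n b cB cF s η lam c x (1 - (1 - x) * r0) S BL FL i0 φ + er + e2) /
        (b * (1 - (1 - x) * r0)) ^ 2) ∧
    (∀ {a e e' : ℝ}, t ≤ 1 → b * (1 - (1 - x) * r0) ≤ 1 + e' →
      r / (b * (1 - (1 - x) * r0)) ^ 2 + 2 * (b * x * (b * (1 - (1 - x) * r0)) * wf) ≤
        1 - a + e → b * x * (b * (1 - (1 - x) * r0)) * wf ≤ e' →
      -((er + e2) / (b * (1 - (1 - x) * r0)) ^ 2) ≤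
      exS n b cB cF s η lam c x (fun z => φ z * ((1 + e') * (b * x) *
        Qv n b cB cF s η lam c x S BL FL z ^ 2 + (1 - t - a + e) *
        Qv n b cB cF s η lam c x S BL FL z - (1 - e') * wf))) := by
  have hk' : 0 ≤ 1 - (1 - x) * r0 := by
    by_contra h
    push Not at h
    have := mul_neg_of_pos_of_neg hb h
    linarith
  have hw : Wt (g1 (Co n LB LF)) (wS n b cB cF s η lam c x) := wtA b cB cF s hl hη c x
  have key := point_eq hl hη hη1 hs hx0 hx1 hn hc hk' hS hi0 hne hφ hφb hφ0 ht hwf hwf0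
  have key2 := key.trans her
  have hC3 := C3v_nonneg (b := b) (cB := cB) (cF := cF) (s := s) (c := c) (x := x) hl hη
    (1 - (1 - x) * r0) S BL FL i0 hφ0
  have bQ : BM (Qv n b cB cF s η lam c x S BL FL) := bm_Qv hl hη S BL FL
  have hQ0 : ∀ z, 0 ≤ Qv n b cB cF s η lam c x S BL FL z := Qv_nonneg S BL FL
  have ht0 : 0 ≤ t := by rw [← ht]; exact Finset.sum_nonneg fun _ _ => sq_nonneg _
  set A := b * (1 - (1 - x) * r0) with hA
  set Q := Qv n b cB cF s η lam c x S BL FL with hQ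
  set nN := N2v n b cB cF s η lam c x S BL FL i0 φ
  set c3 := C3v n b cB cF s η lam c x (1 - (1 - x) * r0) S BL FL i0 φ
  have hbx : 0 ≤ b * x := mul_nonneg hb.le hx0
  have i1 : BM fun z => φ z * Q z := hφb.mul bQ
  have i2 : BM fun z => φ z * Q z ^ 2 := hφb.mul (bsq bQ)
  have q1 : 0 ≤ exS n b cB cF s η lam c x (fun z => φ z * Q z) :=
    ex_nonneg hw fun z => mul_nonneg (hφ0 z) (hQ0 z)
  have q2 : 0 ≤ exS n b cB cF s η lam c x (fun z => φ z * Q z ^ 2) :=
    ex_nonneg hw fun z => mul_nonneg (hφ0 z) (sq_nonneg _)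
  have q0 : 0 ≤ exS n b cB cF s η lam c x φ := ex_nonneg hw hφ0
  have hu2 : exS n b cB cF s η lam c x (fun z => φ z * (t * Q z + wf) ^ 2) =
      t ^ 2 * exS n b cB cF s η lam c x (fun z => φ z * Q z ^ 2) +
      2 * t * wf * exS n b cB cF s η lam c x (fun z => φ z * Q z) +
      wf ^ 2 * exS n b cB cF s η lam c x φ := by
    have e : (fun z => φ z * (t * Q z + wf) ^ 2) = fun z =>
        (t ^ 2 * (φ z * Q z ^ 2) + (2 * t * wf) * (φ z * Q z)) + wf ^ 2 * φ z := by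
      funext z
      ring
    show ex _ _ _ = _
    rw [e, ex_add hw ((bcm _ i2).add (bcm _ i1)) (bcm _ hφb), ex_add hw (bcm _ i2) (bcm _ i1),
      ex_cmul, ex_cmul, ex_cmul]
  have hlin : ∀ α β γ : ℝ, exS n b cB cF s η lam c x
      (fun z => φ z * (α * Q z ^ 2 + β * Q z - γ)) =
      α * exS n b cB cF s η lam c x (fun z => φ z * Q z ^ 2) +
      β * exS n b cB cF s η lam c x (fun z => φ z * Q z) -
      γ * exS n b cB cF s η lam c x φ := by
    intro α β γ
    have e : (fun z => φ z * (α * Q z ^ 2 + β * Q z - γ)) = fun z =>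
        (α * (φ z * Q z ^ 2) + β * (φ z * Q z)) - γ * φ z := by
      funext z
      ring
    show ex _ _ _ = _
    rw [e, ex_sub hw ((bcm _ i2).add (bcm _ i1)) (bcm _ hφb), ex_add hw (bcm _ i2) (bcm _ i1),
      ex_cmul, ex_cmul, ex_cmul]
  have k1 := (abs_le.1 key2).1
  have k2 := (abs_le.1 key2).2
  have j1 := (abs_le.1 h2).1
  have j2 := (abs_le.1 h2).2
  constructor
  · intro a e' hr hAt ha
    rw [hlin]
    refine alg_U (x := x) (nN := nN) (u2 := exS n b cB cF s η lam c x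
      (fun z => φ z * (t * Q z + wf) ^ 2)) (r := r) (by linarith) (by linarith) ?_ hr hk hAt ha
      hbx q1 q2
    rw [hu2]
    have := mul_nonneg (mul_nonneg (mul_nonneg zero_le_two ht0) hwf0) q1
    have := mul_nonneg (sq_nonneg wf) q0
    linarith
  · intro a e e' ht1 hA1 he hw'
    rw [hlin]
    exact alg_L (x := x) (nN := nN) (r := r) (c3 := c3) (by linarith) (by linarith) hu2 hk hA1
      ht0 ht1 hwf0 he hw' hbx q0 q1 q2 hC3

end main

end Vale.Agent.P146.H615
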