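import Vale.Agent.P146.H615.Gg2
import Vale.Agent.P146.H161.RowInst
import Vale.Agent.P146.H646.W0Sk

/-!
# P146: the two-sided tested row equation at the modulated SK system

`point_eq`: for every test function `φ ≥ 0` of the frozen coordinates `Kset S BL FL`,
`E φ N^2 = A^2 (t E φ Q + wf E φ) - x b A^3 E φ (t Q + wf)^2 + c3 + error`,
`t = ∑_{BL} cB^2`, `b^2 wf = ∑_{FL} cF^2`, `Q = |M|^2 / n`, `A = b (1 - (1-x) r0)`.
`point_U`, `point_L`: the two inequalities tested with `φ` (shape of `H317.UpLow`).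
-/

open MeasureTheory ProbabilityTheory

namespace Vale.Agent.P146.H615

open Vale.Agent.P146.H196 Vale.Agent.P146.H646 Vale.Agent.P146.H347 Vale.Agent.P146.H475
  Vale.Agent.P157.Lv Vale.Agent.P146.H816 Vale.Agent.P146.H325 Vale.Agent.P146.H161

set_option linter.unusedSectionVars false

variable {n : ℕ} {LB LF : Type} [Fintype LB] [DecidableEq LB] [Fintype LF] [DecidableEq LF]

/-- the magnetisations given the frozen coordinates -/
noncomputable abbrev Mv (n : ℕ) (b : ℝ) (cB : LB → ℝ) (cF : LF → ℝ) (s η lam c x : ℝ)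
    (S : Finset (Fin n)) (BL : Finset LB) (FL : Finset LF) (j : Fin n) :
    (Co n LB LF → ℝ) → ℝ :=
  cxS n b cB cF s η lam c x (Kset S BL FL)
    (avS b cB cF s η lam c (fun w => al η w.1 * sp w.2 j))

/-- `Q = |M|^2 / n` -/
noncomputable def Qv (n : ℕ) (b : ℝ) (cB : LB → ℝ) (cF : LF → ℝ) (s η lam c x : ℝ)
    (S : Finset (Fin n)) (BL : Finset LB) (FL : Finset LF) (z : Co n LB LF → ℝ) : ℝ :=
  m2 S (Mv n b cB cF s η lam c x S BL FL) z / n

/-- the rank one defect, `|C - m m^T|_F^2 / n^2` -/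
noncomputable def RKv (n : ℕ) (b : ℝ) (cB : LB → ℝ) (cF : LF → ℝ) (s η lam c x : ℝ)
    (S : Finset (Fin n)) (BL : Finset LB) (FL : Finset LF) (z : Co n LB LF → ℝ) : ℝ :=
  RKg (muA (Xs n) lam η c) (Sm b cB cF s η) x (Kset S BL FL) (fun (j : Fin n) w => sp w.2 j) S z
    / (n : ℝ) ^ 2

/-- the square of the new magnetisation, tested with `φ` -/
noncomputable def N2v (n : ℕ) (b : ℝ) (cB : LB → ℝ) (cF : LF → ℝ) (s η lam c x : ℝ)
    (S : Finset (Fin n)) (BL : Finset LB) (FL : Finset LF) (i0 : Fin n)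
    (φ : (Co n LB LF → ℝ) → ℝ) : ℝ :=
  exS n b cB cF s η lam c x (fun z => φ z *
    cxS n b cB cF s η lam c x (Kset (insert i0 S) BL FL)
      (avS b cB cF s η lam c (fun w => al η w.1 * sp w.2 i0)) z ^ 2)

/-- the remaining square, tested with `φ` -/
noncomputable def C3v (n : ℕ) (b : ℝ) (cB : LB → ℝ) (cF : LF → ℝ) (s η lam c x kp : ℝ)
    (S : Finset (Fin n)) (BL : Finset LB) (FL : Finset LF) (i0 : Fin n)
    (φ : (Co n LB LF → ℝ) → ℝ) : ℝ :=
  exS n b cB cF s η lam c x (fun z => φ z *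
    cxS n b cB cF s η lam c x (Kset S BL FL) (fun y =>
      (cxS n b cB cF s η lam c x (Kset (insert i0 S) BL FL)
        (avS b cB cF s η lam c (fun w => al η w.1 * sp w.2 i0)) y -
        lc (Rw i0 S BL FL) (cfr i0 b cB cF kp (Mv n b cB cF s η lam c x S BL FL) z) y) ^ 2) z)

/-- the rank one error -/
noncomputable def DVu (t η u2 rk : ℝ) : ℝ := 3 / 2 * (√u2 * (t * √rk)) + 4 * η ^ 2 * u2

/-- the total error of the tested row equation -/
noncomputable def Er (b t wf η x kp d df u2 rk e1 e0 e2 e3 e4 : ℝ) : ℝ :=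
  2 * kp * (b ^ 2 * (t * (d * √e1) + wf * (df * √e0))) +
    x * kp ^ 2 * (b ^ 4 * (10 * η * (u2 + DVu t η u2 rk) + 2 * DVu t η u2 rk +
      2 * (t * (d * √e2)) + wf * (df * √e3) + t * (df * √e4)))

section main

variable {b s η lam c x r0 : ℝ} {cB : LB → ℝ} {cF : LF → ℝ} {BL : Finset LB} {FL : Finset LF}
variable (hl : 0 < lam) (hη : 0 ≤ η) (hη1 : η ≤ 1 / 2) (hs : s ≠ 0) (hx0 : 0 ≤ x) (hx1 : x < 1)
  (hn : 0 < n) (hc : c = s ^ 2 * n * (1 - (1 - x) * r0)) (hk : 0 ≤ 1 - (1 - x) * r0)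
include hl hη hη1 hs hx0 hx1 hn hc hk

/-- **The tested row equation.** -/
theorem point_eq {S S1 : Finset (Fin n)} (hS : S ⊆ S1) {i0 : Fin n} (hi0 : i0 ∉ S)
    (hne : (S1 \ S).Nonempty) {φ : (Co n LB LF → ℝ) → ℝ} (hφ : Dep (Kset S BL FL) φ)
    (hφb : BM φ) (hφ0 : ∀ z, 0 ≤ φ z) {t wf : ℝ} (ht : ∑ l ∈ BL, cB l ^ 2 = t)
    (hwf : ∑ l ∈ FL, cF l ^ 2 = b ^ 2 * wf) (hwf0 : 0 ≤ wf) :
    |N2v n b cB cF s η lam c x S BL FL i0 φ -
      ((b * (1 - (1 - x) * r0)) ^ 2 *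
        (t * exS n b cB cF s η lam c x (fun z => φ z * Qv n b cB cF s η lam c x S BL FL z) +
          wf * exS n b cB cF s η lam c x φ) -
        x * b * (b * (1 - (1 - x) * r0)) ^ 3 * exS n b cB cF s η lam c x
          (fun z => φ z * (t * Qv n b cB cF s η lam c x S BL FL z + wf) ^ 2) +
        C3v n b cB cF s η lam c x (1 - (1 - x) * r0) S BL FL i0 φ)| ≤
      Er b t wf η x (1 - (1 - x) * r0)
        (d0 n b cB cF s η lam c x r0 (Kset S BL FL) (Kset S1 BL FL) (S1 \ S).card / √n)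
        (H646.d0f n b cB cF s η lam c x r0 (S1 \ S).card)
        (exS n b cB cF s η lam c x
          (fun z => φ z * (t * Qv n b cB cF s η lam c x S BL FL z + wf) ^ 2))
        (exS n b cB cF s η lam c x (fun z => φ z * RKv n b cB cF s η lam c x S BL FL z))
        (exS n b cB cF s η lam c x
          (fun z => φ z ^ 2 * Qv n b cB cF s η lam c x S BL FL z))
        (exS n b cB cF s η lam c x (fun z => φ z ^ 2))
        (exS n b cB cF s η lam c x (fun z => (φ z *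
          (t * Qv n b cB cF s η lam c x S BL FL z + wf)) ^ 2 *
          Qv n b cB cF s η lam c x S BL FL z))
        (exS n b cB cF s η lam c x (fun z => (φ z *
          (t * Qv n b cB cF s η lam c x S BL FL z + wf)) ^ 2))
        (exS n b cB cF s η lam c x (fun z => (φ z *
          (t * Qv n b cB cF s η lam c x S BL FL z + wf) *
          Qv n b cB cF s η lam c x S BL FL z) ^ 2)) := by
  have hG := gmA (n := n) b cB cF s hl hη c
  have hw : Wt (g1 (Co n LB LF)) (wS n b cB cF s η lam c x) := wtA b cB cF s hl hη c x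
  have hA : Av (avS (n := n) b cB cF s η lam c) := H615.av_gm hG 1
  have hσ : ∀ j : Fin n, Bd fun w : ℝ × Xs n => sp w.2 j := fun j => H347.bm_sp j
  have hs1 : ∀ w : ℝ × Xs n, |sp w.2 i0| ≤ 1 := fun w => H646.abs_sp_le w.2 i0
  have ha : Bd fun w : ℝ × Xs n => al η w.1 := bm_of_al (n := n) hη
  have haη : ∀ w : ℝ × Xs n, |al η w.1 - 1| ≤ η := fun w => by
    have := al_mem hη w.1
    rw [abs_le]
    constructor <;> linarith [this.1, this.2]
  have ht0 : 0 ≤ t := by rw [← ht]; exact Finset.sum_nonneg fun _ _ => sq_nonneg _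
  have hn' : (0 : ℝ) < n := Nat.cast_pos.2 hn
  have hsn : 0 < √(n : ℝ) := Real.sqrt_pos.2 hn'
  have hsn2 : √(n : ℝ) * √(n : ℝ) = n := Real.mul_self_sqrt hn'.le
  set kp := 1 - (1 - x) * r0 with hkp
  set M := Mv n b cB cF s η lam c x S BL FL with hM
  set Q := Qv n b cB cF s η lam c x S BL FL with hQ
  set K : Finset (Co n LB LF) := Kset S BL FL with hK
  have hMb : ∀ j, BM (M j) := H615.bm_Mg hG x K ha hσ
  have hMd : ∀ j, Dep K (M j) := fun j => dep_cx K
  have bm2 : BM (m2 S M) := bm_m2 (S := S) hA hσ hMb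
  have hτ0 : 0 ≤ b ^ 2 / n * t := mul_nonneg (div_nonneg (sq_nonneg _) hn'.le) ht0
  have hv0 : 0 ≤ b ^ 2 * wf := mul_nonneg (sq_nonneg _) hwf0
  set dd := d0 n b cB cF s η lam c x r0 (Kset S BL FL) (Kset S1 BL FL) (S1 \ S).card with hdd
  set df := H646.d0f n b cB cF s η lam c x r0 (S1 \ S).card with hdf
  -- the easm2 bound
  have key := easm2 (S := S) (M := M) (s := fun (j : Fin n) (w : ℝ × Xs n) => sp w.2 j)
    (s0 := fun w => sp w.2 i0) (a := fun w => al η w.1) (x := x) (τ := b ^ 2 / n * t)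
    (v := b ^ 2 * wf) (η := η) (kp := kp)
    (d0 := dd) (d0f := df)
    hw hA hσ hMb hMd ha haη hη hτ0 hv0 (hσ i0) hs1
    (fun j g hg hgb => H615.ex_Mg hG x K ha hσ j g hg hgb) hx0 hx1.le hk
    (fun g hg hgb => i2_sk hl hη hs hx0 hx1 hc b cB cF BL FL hS hi0 hne hg hgb)
    (fun g hg hgb => i2f_sk hl hη hs hx0 hx1 hc b cB cF BL FL hS hi0 hne hg hgb)
    hφ hφb hφ0 (nN := N2v n b cB cF s η lam c x S BL FL i0 φ)
    (c3 := C3v n b cB cF s η lam c x kp S BL FL i0 φ) rfl rfl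
    (hstar_kset b cB cF s BL FL hl hη c x hi0 M hMb hMd kp hφ hφb
      (by rw [ht]) hwf.symm rfl rfl rfl rfl rfl)
  have dv : (b ^ 2 / n * t) ^ 2 * ex (g1 (Co n LB LF)) (wS n b cB cF s η lam c x)
      (fun z => φ z * Vt (avS b cB cF s η lam c) S M (fun (j : Fin n) w => sp w.2 j) z) ≤
      3 / 2 * (√(ex (g1 (Co n LB LF)) (wS n b cB cF s η lam c x)
        (fun z => φ z * Yf S M (b ^ 2 / n * t) (b ^ 2 * wf) z ^ 2)) *
        (b ^ 2 / n * t * √(ex (g1 (Co n LB LF)) (wS n b cB cF s η lam c x) (fun z => φ z *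
          RKg (muA (Xs n) lam η c) (Sm b cB cF s η) x K (fun (j : Fin n) w => sp w.2 j) S z)))) +
      4 * η ^ 2 * ex (g1 (Co n LB LF)) (wS n b cB cF s η lam c x)
        (fun z => φ z * Yf S M (b ^ 2 / n * t) (b ^ 2 * wf) z ^ 2) :=
    DV_le hG (τ := b ^ 2 / n * t) (v := b ^ 2 * wf) hη hη1 x K ha hσ haη S hτ0 hv0 hφ hφb hφ0
  -- the algebra of `Y`
  have eY : ∀ z, Yf S M (b ^ 2 / n * t) (b ^ 2 * wf) z = b ^ 2 * (t * Q z + wf) := by
    intro z
    show b ^ 2 / n * t * m2 S M z + b ^ 2 * wf = b ^ 2 * (t * (m2 S M z / n) + wf)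
    field_simp
  have em : ∀ z, m2 S M z = n * Q z := by
    intro z
    show m2 S M z = (n : ℝ) * (m2 S M z / n)
    field_simp
  have f1 : ex (g1 (Co n LB LF)) (wS n b cB cF s η lam c x)
      (fun z => φ z * Yf S M (b ^ 2 / n * t) (b ^ 2 * wf) z) =
      b ^ 2 * (t * exS n b cB cF s η lam c x (fun z => φ z * Q z) +
        wf * exS n b cB cF s η lam c x φ) := by
    have bQ : BM Q := by
      have e : Q = fun z => (n : ℝ)⁻¹ * m2 S M z := by
        funext z; rw [em]; field_simp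
      rw [e]
      exact bcm _ bm2
    have e : (fun z => φ z * Yf S M (b ^ 2 / n * t) (b ^ 2 * wf) z) =
        fun z => b ^ 2 * (t * (φ z * Q z) + wf * φ z) := by
      funext z
      rw [eY]
      ring
    rw [e, ex_cmul, ex_add hw (bcm t (hφb.mul bQ)) (bcm wf hφb), ex_cmul, ex_cmul]
  have f2 : ex (g1 (Co n LB LF)) (wS n b cB cF s η lam c x)
      (fun z => φ z * Yf S M (b ^ 2 / n * t) (b ^ 2 * wf) z ^ 2) =
      b ^ 4 * exS n b cB cF s η lam c x (fun z => φ z * (t * Q z + wf) ^ 2) := by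
    have e : (fun z => φ z * Yf S M (b ^ 2 / n * t) (b ^ 2 * wf) z ^ 2) =
        fun z => b ^ 4 * (φ z * (t * Q z + wf) ^ 2) := by
      funext z
      rw [eY]
      ring
    rw [e, ex_cmul]
  have f3 : ex (g1 (Co n LB LF)) (wS n b cB cF s η lam c x)
      (fun z => φ z ^ 2 * m2 S M z) = n * exS n b cB cF s η lam c x (fun z => φ z ^ 2 * Q z) := by
    have e : (fun z => φ z ^ 2 * m2 S M z) = fun z => (n : ℝ) * (φ z ^ 2 * Q z) := by
      funext z
      rw [em]
      ring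
    rw [e, ex_cmul]
  have f4 : ex (g1 (Co n LB LF)) (wS n b cB cF s η lam c x)
      (fun z => (φ z * Yf S M (b ^ 2 / n * t) (b ^ 2 * wf) z) ^ 2 * m2 S M z) =
      b ^ 4 * (n * exS n b cB cF s η lam c x (fun z => (φ z * (t * Q z + wf)) ^ 2 * Q z)) := by
    have e : (fun z => (φ z * Yf S M (b ^ 2 / n * t) (b ^ 2 * wf) z) ^ 2 * m2 S M z) =
        fun z => b ^ 4 * ((n : ℝ) * ((φ z * (t * Q z + wf)) ^ 2 * Q z)) := by
      funext z
      rw [em, eY]
      ring
    rw [e, ex_cmul, ex_cmul]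
  have f5 : ex (g1 (Co n LB LF)) (wS n b cB cF s η lam c x)
      (fun z => (φ z * Yf S M (b ^ 2 / n * t) (b ^ 2 * wf) z) ^ 2) =
      b ^ 4 * exS n b cB cF s η lam c x (fun z => (φ z * (t * Q z + wf)) ^ 2) := by
    have e : (fun z => (φ z * Yf S M (b ^ 2 / n * t) (b ^ 2 * wf) z) ^ 2) =
        fun z => b ^ 4 * (φ z * (t * Q z + wf)) ^ 2 := by
      funext z
      rw [eY]
      ring
    rw [e, ex_cmul]
  have f6 : ex (g1 (Co n LB LF)) (wS n b cB cF s η lam c x)
      (fun z => (φ z * Yf S M (b ^ 2 / n * t) (b ^ 2 * wf) z * m2 S M z) ^ 2) =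
      b ^ 4 * ((n : ℝ) ^ 2 * exS n b cB cF s η lam c x
        (fun z => (φ z * (t * Q z + wf) * Q z) ^ 2)) := by
    have e : (fun z => (φ z * Yf S M (b ^ 2 / n * t) (b ^ 2 * wf) z * m2 S M z) ^ 2) =
        fun z => b ^ 4 * ((n : ℝ) ^ 2 * (φ z * (t * Q z + wf) * Q z) ^ 2) := by
      funext z
      rw [em, eY]
      ring
    rw [e, ex_cmul, ex_cmul]
  have f7 : ex (g1 (Co n LB LF)) (wS n b cB cF s η lam c x) (fun z => φ z *
      RKg (muA (Xs n) lam η c) (Sm b cB cF s η) x K (fun (j : Fin n) w => sp w.2 j) S z) =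
      (n : ℝ) ^ 2 * exS n b cB cF s η lam c x
        (fun z => φ z * RKv n b cB cF s η lam c x S BL FL z) := by
    have e : (fun z => φ z * RKg (muA (Xs n) lam η c) (Sm b cB cF s η) x K
        (fun (j : Fin n) w => sp w.2 j) S z) =
        fun z => (n : ℝ) ^ 2 * (φ z * RKv n b cB cF s η lam c x S BL FL z) := by
      funext z
      show _ = (n : ℝ) ^ 2 * (φ z * (RKg (muA (Xs n) lam η c) (Sm b cB cF s η) x K
        (fun (j : Fin n) w => sp w.2 j) S z / (n : ℝ) ^ 2))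
      field_simp
    rw [e, ex_cmul]
  have hb4 : √(b ^ 4) = b ^ 2 := by
    rw [show b ^ 4 = (b ^ 2) ^ 2 by ring]
    exact Real.sqrt_sq (sq_nonneg b)
  have hb40 : (0 : ℝ) ≤ b ^ 4 := by positivity
  set u2 := exS n b cB cF s η lam c x (fun z => φ z * (t * Q z + wf) ^ 2) with hu2
  set rk := exS n b cB cF s η lam c x (fun z => φ z * RKv n b cB cF s η lam c x S BL FL z)
    with hrk
  set e1 := exS n b cB cF s η lam c x (fun z => φ z ^ 2 * Q z) with he1
  set e0 := exS n b cB cF s η lam c x (fun z => φ z ^ 2) with he0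
  set e2 := exS n b cB cF s η lam c x (fun z => (φ z * (t * Q z + wf)) ^ 2 * Q z) with he2
  set e3 := exS n b cB cF s η lam c x (fun z => (φ z * (t * Q z + wf)) ^ 2) with he3
  set e4 := exS n b cB cF s η lam c x (fun z => (φ z * (t * Q z + wf) * Q z) ^ 2) with he4
  set DVr := (b ^ 2 / n * t) ^ 2 * ex (g1 (Co n LB LF)) (wS n b cB cF s η lam c x)
    (fun z => φ z * Vt (avS b cB cF s η lam c) S M (fun (j : Fin n) w => sp w.2 j) z) with hDVr
  have hdv : DVr ≤ b ^ 4 * DVu t η u2 rk := by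
    refine dv.trans (le_of_eq ?_)
    rw [f2, f7, Real.sqrt_mul hb40, hb4, Real.sqrt_mul (sq_nonneg (n : ℝ)),
      Real.sqrt_sq hn'.le]
    unfold DVu
    field_simp
  rw [f1, f2, f3, f4, f5, f6, Real.sqrt_mul hn'.le, Real.sqrt_mul hb40, Real.sqrt_mul hn'.le,
    Real.sqrt_mul hb40, Real.sqrt_mul hb40, Real.sqrt_mul (sq_nonneg (n : ℝ)),
    Real.sqrt_sq hn'.le, hb4] at key
  have hnb : (n : ℝ) ≠ 0 := hn'.ne'
  have hsb : √(n : ℝ) ≠ 0 := hsn.ne'
  have g1' : ∀ d e : ℝ, b ^ 2 / n * t * (d * (√n * e)) = b ^ 2 * (t * (d / √n * e)) := by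
    intro d e
    have h1 : b ^ 2 / n * t * (d * (√n * e)) = b ^ 2 * (t * (d * (√n / n) * e)) := by
      field_simp
    have h2 : √(n : ℝ) / n = 1 / √n := by
      rw [div_eq_div_iff hnb hsb, one_mul, hsn2]
    rw [h1, h2]
    ring
  have h5 : 10 * η * (b ^ 4 * u2 + DVr) ≤ 10 * η * (b ^ 4 * u2 + b ^ 4 * DVu t η u2 rk) :=
    mul_le_mul_of_nonneg_left (by linarith) (by linarith)
  have h3 : b ^ 2 / n * t * (dd * (b ^ 2 * (√n * √e2))) = b ^ 4 * (t * (dd / √n * √e2)) := by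
    have := g1' dd (√e2)
    calc _ = b ^ 2 * (b ^ 2 / n * t * (dd * (√n * √e2))) := by ring
      _ = _ := by rw [this]; ring
  have h4 : b ^ 2 / n * t * (df * (b ^ 2 * (n * √e4))) = b ^ 4 * (t * (df * √e4)) := by
    field_simp
  have h6 : b ^ 2 * wf * (df * (b ^ 2 * √e3)) = b ^ 4 * (wf * (df * √e3)) := by ring
  rw [h3, h4, h6, g1'] at key
  refine le_trans (le_of_eq ?_) (key.trans ?_)
  · congr 1
    ring
  · unfold Er
    refine add_le_add (le_of_eq (by ring)) ?_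
    refine mul_le_mul_of_nonneg_left ?_ (mul_nonneg hx0 (sq_nonneg _))
    generalize DVu t η u2 rk = D at hdv h5 ⊢
    generalize dd / √(n : ℝ) = dn
    generalize t * (dn * √e2) = x1
    generalize wf * (df * √e3) = x2
    generalize t * (df * √e4) = x3
    linarith

end main

end Vale.Agent.P146.H615
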