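import Vale.Agent.P146.H615.PointUL
import Vale.Agent.P146.H197.E2r
import Vale.Agent.P146.H197.PhiR
import Vale.Agent.P146.H317.UpLow
import Vale.Agent.P146.H317.C3Abs

/-!
# P146: second moment of `Q` from the tested row equation

* `er_le`: the error of `point_eq` for `0 ≤ φ ≤ P` is at most `P` times the error numbers `Er1`.
* `e2_of`: the left side, `H197.e2r` in the notation of `Point`.
* `point_low`, `point_up`: `E Q^2 ≥ rho^2 - err`, `E Q^2 ≤ rho^2 + err` (test function of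
  `H317.Rho`); `point_up` takes the bound of the third order term as a hypothesis.
* `regime2`: `E Q^2 ≤ wf^2/(T-a)^2 + ..` (test function `min Q U`).
-/

open MeasureTheory ProbabilityTheory

namespace Vale.Agent.P146.H615

open Vale.Agent.P146.H196 Vale.Agent.P146.H646 Vale.Agent.P146.H347 Vale.Agent.P146.H475
  Vale.Agent.P157.Lv Vale.Agent.P146.H816 Vale.Agent.P146.H325 Vale.Agent.P146.H161
  Vale.Agent.P146.H205 Vale.Agent.P146.H197 Vale.Agent.P146.H317

set_option linter.unusedSectionVars false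

/-! ### scaling of the error -/

lemma sqrt_scale {P e e' : ℝ} (hP : 0 ≤ P) (h : e' ≤ P ^ 2 * e) : √e' ≤ P * √e := by
  calc √e' ≤ √(P ^ 2 * e) := Real.sqrt_le_sqrt h
    _ = P * √e := by rw [Real.sqrt_mul (sq_nonneg P), Real.sqrt_sq hP]

lemma DVu_scale {t η u2 rk P u2' rk' : ℝ} (hP : 0 ≤ P) (ht : 0 ≤ t) (h2 : u2' ≤ P * u2)
    (hr : rk' ≤ P * rk) : DVu t η u2' rk' ≤ P * DVu t η u2 rk := by
  unfold DVu
  have h1 : √u2' ≤ √P * √u2 := by
    rw [← Real.sqrt_mul hP]
    exact Real.sqrt_le_sqrt h2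
  have h3 : √rk' ≤ √P * √rk := by
    rw [← Real.sqrt_mul hP]
    exact Real.sqrt_le_sqrt hr
  have h4 : √u2' * (t * √rk') ≤ P * (√u2 * (t * √rk)) := by
    calc √u2' * (t * √rk') ≤ (√P * √u2) * (t * (√P * √rk)) :=
          mul_le_mul h1 (mul_le_mul_of_nonneg_left h3 ht) (by positivity) (by positivity)
      _ = (√P * √P) * (√u2 * (t * √rk)) := by ring
      _ = _ := by rw [Real.mul_self_sqrt hP]
  have h5 : 4 * η ^ 2 * u2' ≤ 4 * η ^ 2 * (P * u2) := mul_le_mul_of_nonneg_left h2 (by positivity)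
  linarith

lemma Er_scale {b t wf η x kp d df u2 rk e1 e0 e2 e3 e4 P u2' rk' e1' e0' e2' e3' e4' : ℝ}
    (hP : 0 ≤ P) (ht : 0 ≤ t) (hwf : 0 ≤ wf) (hη : 0 ≤ η) (hx : 0 ≤ x) (hk : 0 ≤ kp)
    (hd : 0 ≤ d) (hdf : 0 ≤ df) (h2 : u2' ≤ P * u2) (hr : rk' ≤ P * rk)
    (h1 : e1' ≤ P ^ 2 * e1) (h0 : e0' ≤ P ^ 2 * e0) (h2' : e2' ≤ P ^ 2 * e2)
    (h3 : e3' ≤ P ^ 2 * e3) (h4 : e4' ≤ P ^ 2 * e4) :
    Er b t wf η x kp d df u2' rk' e1' e0' e2' e3' e4' ≤
      P * Er b t wf η x kp d df u2 rk e1 e0 e2 e3 e4 := by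
  have k1 : t * (d * √e1') ≤ P * (t * (d * √e1)) := by
    have := mul_le_mul_of_nonneg_left (mul_le_mul_of_nonneg_left (sqrt_scale hP h1) hd) ht
    linarith
  have k0 : wf * (df * √e0') ≤ P * (wf * (df * √e0)) := by
    have := mul_le_mul_of_nonneg_left (mul_le_mul_of_nonneg_left (sqrt_scale hP h0) hdf) hwf
    linarith
  have k2 : t * (d * √e2') ≤ P * (t * (d * √e2)) := by
    have := mul_le_mul_of_nonneg_left (mul_le_mul_of_nonneg_left (sqrt_scale hP h2') hd) ht
    linarith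
  have k3 : wf * (df * √e3') ≤ P * (wf * (df * √e3)) := by
    have := mul_le_mul_of_nonneg_left (mul_le_mul_of_nonneg_left (sqrt_scale hP h3) hdf) hwf
    linarith
  have k4 : t * (df * √e4') ≤ P * (t * (df * √e4)) := by
    have := mul_le_mul_of_nonneg_left (mul_le_mul_of_nonneg_left (sqrt_scale hP h4) hdf) ht
    linarith
  have kD := DVu_scale (η := η) hP ht h2 hr
  have kD' : 10 * η * (u2' + DVu t η u2' rk') ≤ P * (10 * η * (u2 + DVu t η u2 rk)) := by
    have := mul_le_mul_of_nonneg_left (add_le_add h2 kD) (by positivity : 0 ≤ 10 * η)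
    linarith
  unfold Er
  have a1 : 2 * kp * (b ^ 2 * (t * (d * √e1') + wf * (df * √e0'))) ≤
      P * (2 * kp * (b ^ 2 * (t * (d * √e1) + wf * (df * √e0)))) := by
    have := mul_le_mul_of_nonneg_left (add_le_add k1 k0) (by positivity : 0 ≤ 2 * kp * b ^ 2)
    linarith
  have a2 : x * kp ^ 2 * (b ^ 4 * (10 * η * (u2' + DVu t η u2' rk') + 2 * DVu t η u2' rk' +
      2 * (t * (d * √e2')) + wf * (df * √e3') + t * (df * √e4'))) ≤
      P * (x * kp ^ 2 * (b ^ 4 * (10 * η * (u2 + DVu t η u2 rk) + 2 * DVu t η u2 rk +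
      2 * (t * (d * √e2)) + wf * (df * √e3) + t * (df * √e4)))) := by
    have := mul_le_mul_of_nonneg_left
      (add_le_add (add_le_add (add_le_add (add_le_add kD'
        (mul_le_mul_of_nonneg_left kD zero_le_two))
        (mul_le_mul_of_nonneg_left k2 zero_le_two)) k3) k4)
      (by positivity : 0 ≤ x * kp ^ 2 * b ^ 4)
    linarith
  linarith

section main

variable {n : ℕ} {LB LF : Type} [Fintype LB] [DecidableEq LB] [Fintype LF] [DecidableEq LF]

/-- the error numbers (the error of `point_eq` at `φ = 1`) -/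
noncomputable def Er1 (n : ℕ) (b : ℝ) (cB : LB → ℝ) (cF : LF → ℝ) (s η lam c x r0 t wf : ℝ)
    (S S1 : Finset (Fin n)) (BL : Finset LB) (FL : Finset LF) : ℝ :=
  Er b t wf η x (1 - (1 - x) * r0)
    (d0 n b cB cF s η lam c x r0 (Kset S BL FL) (Kset S1 BL FL) (S1 \ S).card / √n)
    (H646.d0f n b cB cF s η lam c x r0 (S1 \ S).card)
    (exS n b cB cF s η lam c x (fun z => (t * Qv n b cB cF s η lam c x S BL FL z + wf) ^ 2))
    (exS n b cB cF s η lam c x (RKv n b cB cF s η lam c x S BL FL))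
    (exS n b cB cF s η lam c x (Qv n b cB cF s η lam c x S BL FL)) 1
    (exS n b cB cF s η lam c x (fun z => (t * Qv n b cB cF s η lam c x S BL FL z + wf) ^ 2 *
      Qv n b cB cF s η lam c x S BL FL z))
    (exS n b cB cF s η lam c x (fun z => (t * Qv n b cB cF s η lam c x S BL FL z + wf) ^ 2))
    (exS n b cB cF s η lam c x (fun z => ((t * Qv n b cB cF s η lam c x S BL FL z + wf) *
      Qv n b cB cF s η lam c x S BL FL z) ^ 2))

/-- the error of the left side, with the numbers `P`, `Lr` of the test function -/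
noncomputable def E2n (n : ℕ) (b : ℝ) (cB : LB → ℝ) (cF : LF → ℝ) (s η lam c x P Lr : ℝ)
    (S : Finset (Fin n)) (BL : Finset LB) (FL : Finset LF) (i0 : Fin n) : ℝ :=
  P * (∑ j ∈ S, (exS n b cB cF s η lam c x
          (fun z => cxS n b cB cF s η lam c x (Kset (insert i0 S) BL FL)
            (avS b cB cF s η lam c (fun w => al η w.1 * sp w.2 j)) z ^ 2) -
        exS n b cB cF s η lam c x
          (fun z => cxS n b cB cF s η lam c x (Kset S BL FL)
            (avS b cB cF s η lam c (fun w => al η w.1 * sp w.2 j)) z ^ 2))) / S.card +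
      2 * Lr / √n *
      (√((∑ j ∈ S, (exS n b cB cF s η lam c x
          (fun z => cxS n b cB cF s η lam c x (Kset (insert i0 S) BL FL)
            (avS b cB cF s η lam c (fun w => al η w.1 * sp w.2 j)) z ^ 2) -
        exS n b cB cF s η lam c x
          (fun z => cxS n b cB cF s η lam c x (Kset S BL FL)
            (avS b cB cF s η lam c (fun w => al η w.1 * sp w.2 j)) z ^ 2))) +
          exS n b cB cF s η lam c x
            (fun z => cxS n b cB cF s η lam c x (Kset (insert i0 S) BL FL)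
              (avS b cB cF s η lam c (fun w => al η w.1 * sp w.2 i0)) z ^ 2)) *
        √(exS n b cB cF s η lam c x
            (fun z => cxS n b cB cF s η lam c x (Kset (insert i0 S) BL FL)
              (avS b cB cF s η lam c (fun w => al η w.1 * sp w.2 i0)) z ^ 4)))

variable {b s η lam c x r0 : ℝ} {cB : LB → ℝ} {cF : LF → ℝ} {BL : Finset LB} {FL : Finset LF}

lemma bm_RKv (hl : 0 < lam) (hη : 0 ≤ η) (S : Finset (Fin n)) (BL : Finset LB)
    (FL : Finset LF) : BM (RKv n b cB cF s η lam c x S BL FL) := by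
  have hG := gmA (n := n) b cB cF s hl hη c
  have hσ : ∀ j : Fin n, Bd fun w : ℝ × Xs n => sp w.2 j := fun j => H347.bm_sp j
  have h1 := H615.bm_RKg hG x (Kset S BL FL) hσ S
  have e : RKv n b cB cF s η lam c x S BL FL = fun z => ((n : ℝ) ^ 2)⁻¹ *
      RKg (muA (Xs n) lam η c) (Sm b cB cF s η) x (Kset S BL FL)
        (fun (j : Fin n) w => sp w.2 j) S z := by
    funext z
    unfold RKv
    rw [div_eq_inv_mul]
  rw [e]
  exact bcm _ h1

lemma RKv_nonneg (S : Finset (Fin n)) (BL : Finset LB) (FL : Finset LF)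
    (z : Co n LB LF → ℝ) : 0 ≤ RKv n b cB cF s η lam c x S BL FL z :=
  div_nonneg (RKg_nonneg z S) (sq_nonneg _)

/-- the error for a bounded test function -/
theorem er_le (hl : 0 < lam) (hη : 0 ≤ η) (hx0 : 0 ≤ x) (hx1 : x ≤ 1)
    (hk : 0 ≤ 1 - (1 - x) * r0) (S S1 : Finset (Fin n)) {t wf : ℝ} (ht : 0 ≤ t) (hwf : 0 ≤ wf)
    {φ : (Co n LB LF → ℝ) → ℝ} (hφb : BM φ) (hφ0 : ∀ z, 0 ≤ φ z) {P : ℝ} (hP : 0 ≤ P)
    (hφP : ∀ z, φ z ≤ P) :
    Er b t wf η x (1 - (1 - x) * r0)
        (d0 n b cB cF s η lam c x r0 (Kset S BL FL) (Kset S1 BL FL) (S1 \ S).card / √n)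
        (H646.d0f n b cB cF s η lam c x r0 (S1 \ S).card)
        (exS n b cB cF s η lam c x
          (fun z => φ z * (t * Qv n b cB cF s η lam c x S BL FL z + wf) ^ 2))
        (exS n b cB cF s η lam c x (fun z => φ z * RKv n b cB cF s η lam c x S BL FL z))
        (exS n b cB cF s η lam c x
          (fun z => φ z ^ 2 * Qv n b cB cF s η lam c x S BL FL z))
        (exS n b cB cF s η lam c x (fun z => φ z ^ 2))
        (exS n b cB cF s η lam c x (fun z => (φ z *
          (t * Qv n b cB cF s η lam c x S BL FL z + wf)) ^ 2 *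
          Qv n b cB cF s η lam c x S BL FL z))
        (exS n b cB cF s η lam c x (fun z => (φ z *
          (t * Qv n b cB cF s η lam c x S BL FL z + wf)) ^ 2))
        (exS n b cB cF s η lam c x (fun z => (φ z *
          (t * Qv n b cB cF s η lam c x S BL FL z + wf) *
          Qv n b cB cF s η lam c x S BL FL z) ^ 2)) ≤
      P * Er1 n b cB cF s η lam c x r0 t wf S S1 BL FL := by
  have hw : Wt (g1 (Co n LB LF)) (wS n b cB cF s η lam c x) := wtA b cB cF s hl hη c x
  have bQ : BM (Qv n b cB cF s η lam c x S BL FL) := bm_Qv hl hη S BL FL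
  have bR : BM (RKv n b cB cF s η lam c x S BL FL) := bm_RKv hl hη S BL FL
  have hQ0 : ∀ z, 0 ≤ Qv n b cB cF s η lam c x S BL FL z := Qv_nonneg S BL FL
  have hR0 : ∀ z, 0 ≤ RKv n b cB cF s η lam c x S BL FL z := RKv_nonneg S BL FL
  have hd : 0 ≤ d0 n b cB cF s η lam c x r0 (Kset S BL FL) (Kset S1 BL FL) (S1 \ S).card /
      √n := by
    refine div_nonneg ?_ (Real.sqrt_nonneg _)
    unfold d0
    exact add_nonneg (Real.sqrt_nonneg _) (mul_nonneg (by linarith) (Real.sqrt_nonneg _))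
  have hdf : 0 ≤ H646.d0f n b cB cF s η lam c x r0 (S1 \ S).card := by
    unfold H646.d0f
    exact add_nonneg (add_nonneg (Real.sqrt_nonneg _)
      (mul_nonneg (by linarith) (Real.sqrt_nonneg _))) (mul_nonneg (abs_nonneg _) hη)
  set Q := Qv n b cB cF s η lam c x S BL FL with hQ
  set R := RKv n b cB cF s η lam c x S BL FL with hR
  have bu : BM fun z => t * Q z + wf := (bcm t bQ).add (BM.const wf)
  have hφ2 : ∀ z, φ z ^ 2 ≤ P ^ 2 := fun z => pow_le_pow_left₀ (hφ0 z) (hφP z) 2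
  have w1 : ∀ {f : (Co n LB LF → ℝ) → ℝ}, BM f → (∀ z, 0 ≤ f z) →
      ex (g1 (Co n LB LF)) (wS n b cB cF s η lam c x) (fun z => φ z * f z) ≤
        P * ex (g1 (Co n LB LF)) (wS n b cB cF s η lam c x) f := by
    intro f hf hf0
    rw [← ex_cmul]
    exact ex_mono hw (hφb.mul hf) (bcm P hf) fun z =>
      mul_le_mul_of_nonneg_right (hφP z) (hf0 z)
  have w2 : ∀ {f : (Co n LB LF → ℝ) → ℝ}, BM f → (∀ z, 0 ≤ f z) →
      ex (g1 (Co n LB LF)) (wS n b cB cF s η lam c x) (fun z => φ z ^ 2 * f z) ≤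
        P ^ 2 * ex (g1 (Co n LB LF)) (wS n b cB cF s η lam c x) f := by
    intro f hf hf0
    rw [← ex_cmul]
    exact ex_mono hw ((bsq hφb).mul hf) (bcm _ hf) fun z =>
      mul_le_mul_of_nonneg_right (hφ2 z) (hf0 z)
  unfold Er1
  refine Er_scale hP ht hwf hη hx0 hk hd hdf (w1 (bsq bu) fun z => sq_nonneg _) (w1 bR hR0)
    (w2 bQ hQ0) ?_ ?_ ?_ ?_
  · have h1 := w2 (BM.const 1) fun _ => zero_le_one
    rw [ex_const hw] at h1
    simpa only [mul_one] using h1
  · have h1 := w2 ((bsq bu).mul bQ) fun z => mul_nonneg (sq_nonneg _) (hQ0 z)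
    refine le_trans (le_of_eq ?_) h1
    show ex _ _ _ = ex _ _ _
    congr 1
    funext z
    ring
  · have h1 := w2 (bsq bu) fun z => sq_nonneg _
    refine le_trans (le_of_eq ?_) h1
    show ex _ _ _ = ex _ _ _
    congr 1
    funext z
    ring
  · have h1 := w2 (bsq (bu.mul bQ)) fun z => sq_nonneg _
    refine le_trans (le_of_eq ?_) h1
    show ex _ _ _ = ex _ _ _
    congr 1
    funext z
    ring

/-- the left side of the tested equation, for `φ = G(√Q)` -/
theorem e2_of (hl : 0 < lam) (hη : 0 ≤ η) (hn : 0 < n) {S : Finset (Fin n)} (hS : S.Nonempty)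
    {i0 : Fin n} (hi : i0 ∉ S) (BL : Finset LB) (FL : Finset LF) {G : ℝ → ℝ}
    (hG : Measurable G) {P Lr : ℝ} (hP : ∀ r, 0 ≤ r → |G r| ≤ P) (hL0 : 0 ≤ Lr)
    (hL : ∀ r r', 0 ≤ r → 0 ≤ r' → |G r - G r'| ≤ Lr * |r - r'|) :
    |N2v n b cB cF s η lam c x S BL FL i0
        (fun z => G (√(Qv n b cB cF s η lam c x S BL FL z))) -
      n / S.card * exS n b cB cF s η lam c x (fun z =>
        G (√(Qv n b cB cF s η lam c x S BL FL z)) * Qv n b cB cF s η lam c x S BL FL z)| ≤
      E2n n b cB cF s η lam c x P Lr S BL FL i0 :=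
  e2r b cB cF s η hl hη c x hn hS hi BL FL hG hP hL0 hL

end main

end Vale.Agent.P146.H615
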