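import Vale.Agent.P146.H615.Easm

/-!
# P146: the tested row equation, algebraic part, with first order rank one error

Same as `easm`, but the rank one defect `DV` enters linearly (no `√ (EY2 DV)` term): the linear term
`<s_0> <s_0 (M.s - |M|^2)>` is evaluated with the linear Ghirlanda-Guerra inputs for the bonds and
for the field.
-/

open MeasureTheory

namespace Vale.Agent.P146.H615

open Vale.Agent.P146.H646

set_option linter.unusedSectionVars false

variable {κ : Type*} [Fintype κ] [DecidableEq κ] {μ : κ → Measure ℝ}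
  [∀ e, IsProbabilityMeasure (μ e)] {w Ψ Φ Q : (κ → ℝ) → ℝ} {K : Finset κ}
  {Ω : Type*} [MeasurableSpace Ω] {I : Type*}
  {av : (Ω → ℝ) → (κ → ℝ) → ℝ} {S : Finset I} {M : I → (κ → ℝ) → ℝ} {s : I → Ω → ℝ}
  {s0 a : Ω → ℝ} {x τ v η : ℝ}

section main
variable (hw : Wt μ w) (hA : Av av) (hs : ∀ j, Bd (s j)) (hM : ∀ j, BM (M j))
  (hMd : ∀ j, Dep K (M j))
include hw hA hs hM hMd

/-- the linear term of the off-diagonal part. -/
lemma stepU (ha : Bd a) (haη : ∀ ω, |a ω - 1| ≤ η) (hη : 0 ≤ η) (hτ : 0 ≤ τ) (hv : 0 ≤ v)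
    (hs0 : Bd s0) (hs1 : ∀ ω, |s0 ω| ≤ 1)
    (hMc : ∀ j, ∀ g : (κ → ℝ) → ℝ, Dep K g → BM g →
      ex μ w (fun z => g z * av (fun ω => a ω * s j ω) z) = ex μ w (fun z => g z * M j z))
    (hx0 : 0 ≤ x) (hx1 : x ≤ 1) {kp d0 d0f : ℝ}
    (hI2 : ∀ g : (κ → ℝ) → ℝ, Dep K g → BM g →
      |ex μ w (fun z => g z * ∑ j ∈ S, M j z * Th av x a s0 s j z) -
        kp * ex μ w (fun z => g z * m2 S M z)| ≤ d0 * √(ex μ w (fun z => g z ^ 2 * m2 S M z)))
    (hI2f : ∀ g : (κ → ℝ) → ℝ, Dep K g → BM g →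
      |ex μ w (fun z => g z * Tf av x a s0 z) - kp * ex μ w g| ≤
        d0f * √(ex μ w (fun z => g z ^ 2)))
    {φ : (κ → ℝ) → ℝ} (hφ : Dep K φ) (hφb : BM φ) (hφ0 : ∀ z, 0 ≤ φ z) :
    |(1 - x) * ex μ w (fun z => (φ z * Yf S M τ v z) * (τ *
        (av (fun ω => a ω * s0 ω) z * av (fun ω => s0 ω * (ms S M s z ω - m2 S M z)) z)))| ≤
      τ * (d0 * √(ex μ w (fun z => (φ z * Yf S M τ v z) ^ 2 * m2 S M z))) +
        τ * (d0f * √(ex μ w (fun z => (φ z * Yf S M τ v z * m2 S M z) ^ 2))) +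
        η * ex μ w (fun z => φ z * Yf S M τ v z ^ 2) := by
  have bY := bm_Y (S := S) hA hs hM τ v
  have ba := bm_avms (S := S) hA hs hM ha
  have bm := bm_m2 (S := S) hA hs hM
  have dφY := Dep.mul hφ (dep_Y (S := S) hw hA hM hMd τ v)
  have dφYm := Dep.mul dφY (dep_m2 (S := S) hw hA hM hMd)
  have i1 : BM fun z => φ z * Yf S M τ v z := hφb.mul bY
  have i2 : BM fun z => φ z * Yf S M τ v z * m2 S M z := i1.mul bm
  have hY := Y_nonneg (S := S) (M := M) hτ hv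
  have bTh : BM fun z => ∑ j ∈ S, M j z * Th av x a s0 s j z :=
    BM.sum S fun j _ => (hM j).mul (bm_Th (M := M) hA hs hM ha hs0 x j)
  have bTf : BM (Tf av x a s0) := bm_Tf hA ha hs0 x
  have baa : BM (av a) := hA.bm ha
  have A1 : (fun z => (1 - x) * ((φ z * Yf S M τ v z) * (τ * (av (fun ω => a ω * s0 ω) z *
      av (fun ω => s0 ω * (ms S M s z ω - m2 S M z)) z)))) = fun z =>
      (τ * ((φ z * Yf S M τ v z) * av (fun ω => a ω * ms S M s z ω) z) -
        τ * ((φ z * Yf S M τ v z) * ∑ j ∈ S, M j z * Th av x a s0 s j z)) -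
      (τ * ((φ z * Yf S M τ v z * m2 S M z) * av a z) -
        τ * ((φ z * Yf S M τ v z * m2 S M z) * Tf av x a s0 z)) := by
    funext z
    have hb := bd_ms (S := S) (M := M) hs z
    have f1 : ∑ j ∈ S, M j z * Th av x a s0 s j z =
        av (fun ω => a ω * ms S M s z ω) z - (1 - x) * (av (fun ω => a ω * s0 ω) z *
          ∑ j ∈ S, M j z * av (fun ω => s0 ω * s j ω) z) := by
      rw [av_ms hA hs ha, Finset.mul_sum, Finset.mul_sum, ← Finset.sum_sub_distrib]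
      exact Finset.sum_congr rfl fun j _ => by unfold Th; ring
    have f2 : av (fun ω => s0 ω * (ms S M s z ω - m2 S M z)) z =
        ∑ j ∈ S, M j z * av (fun ω => s0 ω * s j ω) z - m2 S M z * av s0 z := by
      have e : (fun ω => s0 ω * (ms S M s z ω - m2 S M z)) =
          fun ω => s0 ω * ms S M s z ω - m2 S M z * s0 ω := by funext ω; ring
      rw [e, hA.sub (hs0.mul hb) (hs0.cmul _), hA.smul, av_ms hA hs hs0]
    rw [f1, f2]
    unfold Tf
    ring
  have A2 : (1 - x) * ex μ w (fun z => (φ z * Yf S M τ v z) * (τ *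
      (av (fun ω => a ω * s0 ω) z * av (fun ω => s0 ω * (ms S M s z ω - m2 S M z)) z))) =
      (τ * ex μ w (fun z => (φ z * Yf S M τ v z) * m2 S M z) -
        τ * ex μ w (fun z => (φ z * Yf S M τ v z) * ∑ j ∈ S, M j z * Th av x a s0 s j z)) -
      (τ * ex μ w (fun z => (φ z * Yf S M τ v z * m2 S M z) * av a z) -
        τ * ex μ w (fun z => (φ z * Yf S M τ v z * m2 S M z) * Tf av x a s0 z)) := by
    rw [← ex_cmul, A1, ex_sub hw ((bcm τ (i1.mul ba)).sub (bcm τ (i1.mul bTh)))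
      ((bcm τ (i2.mul baa)).sub (bcm τ (i2.mul bTf))),
      ex_sub hw (bcm τ (i1.mul ba)) (bcm τ (i1.mul bTh)),
      ex_sub hw (bcm τ (i2.mul baa)) (bcm τ (i2.mul bTf)), ex_cmul, ex_cmul, ex_cmul, ex_cmul,
      ex_aM (S := S) hw hA hs hM hMd ha hMc dφY i1]
  have A3 := hI2 _ dφY i1
  have A4 := hI2f _ dφYm i2
  have A5 : |ex μ w (fun z => (φ z * Yf S M τ v z * m2 S M z) * av a z) -
      ex μ w (fun z => φ z * Yf S M τ v z * m2 S M z)| ≤
        η * ex μ w (fun z => φ z * Yf S M τ v z * m2 S M z) := by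
    rw [← ex_sub hw (i2.mul baa) i2, ← ex_cmul]
    refine abs_ex_le hw ((i2.mul baa).sub i2) (bcm η i2) fun z => ?_
    have h1 := abs_a1 hA ha haη z
    have h0 : 0 ≤ φ z * Yf S M τ v z * m2 S M z :=
      mul_nonneg (mul_nonneg (hφ0 z) (hY z)) (m2_nonneg z)
    have e : φ z * Yf S M τ v z * m2 S M z * av a z - φ z * Yf S M τ v z * m2 S M z =
        (φ z * Yf S M τ v z * m2 S M z) * (av a z - 1) := by ring
    rw [e, abs_mul, abs_of_nonneg h0, mul_comm]
    exact mul_le_mul_of_nonneg_right h1 h0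
  have A6 : τ * ex μ w (fun z => φ z * Yf S M τ v z * m2 S M z) ≤
      ex μ w (fun z => φ z * Yf S M τ v z ^ 2) := by
    rw [← ex_cmul]
    refine ex_mono hw (bcm τ i2) (hφb.mul (bsq bY)) fun z => ?_
    have h1 : τ * m2 S M z ≤ Yf S M τ v z := by unfold Yf; linarith
    have h2 := mul_le_mul_of_nonneg_left h1 (mul_nonneg (hφ0 z) (hY z))
    calc τ * (φ z * Yf S M τ v z * m2 S M z) = φ z * Yf S M τ v z * (τ * m2 S M z) := by ring
      _ ≤ φ z * Yf S M τ v z * Yf S M τ v z := h2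
      _ = _ := by ring
  have A7 : τ * |ex μ w (fun z => (φ z * Yf S M τ v z * m2 S M z) * av a z) -
      ex μ w (fun z => φ z * Yf S M τ v z * m2 S M z)| ≤
        η * ex μ w (fun z => φ z * Yf S M τ v z ^ 2) := by
    have h1 := mul_le_mul_of_nonneg_left A5 hτ
    have h2 := mul_le_mul_of_nonneg_left A6 hη
    linarith
  have A8 := mul_le_mul_of_nonneg_left A3 hτ
  have A9 := mul_le_mul_of_nonneg_left A4 hτ
  rw [A2]
  set E1 := ex μ w (fun z => (φ z * Yf S M τ v z) * m2 S M z)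
  set E2 := ex μ w (fun z => (φ z * Yf S M τ v z) * ∑ j ∈ S, M j z * Th av x a s0 s j z)
  set E3 := ex μ w (fun z => (φ z * Yf S M τ v z * m2 S M z) * av a z)
  set E4 := ex μ w (fun z => (φ z * Yf S M τ v z * m2 S M z) * Tf av x a s0 z)
  have e : (τ * E1 - τ * E2) - (τ * E3 - τ * E4) =
      -(τ * (E2 - kp * E1)) + τ * (E4 - kp * E1) - τ * (E3 - E1) := by ring
  rw [e]
  refine (abs_sub _ _).trans (add_le_add ((abs_add_le _ _).trans (add_le_add ?_ ?_)) ?_)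
  · rw [abs_neg, abs_mul, abs_of_nonneg hτ]; exact A8
  · rw [abs_mul, abs_of_nonneg hτ]; exact A9
  · rw [abs_mul, abs_of_nonneg hτ]; exact A7

/-- the off-diagonal term, first order form. -/
lemma stepR2 (ha : Bd a) (haη : ∀ ω, |a ω - 1| ≤ η) (hη : 0 ≤ η) (hτ : 0 ≤ τ) (hv : 0 ≤ v)
    (hs0 : Bd s0) (hs1 : ∀ ω, |s0 ω| ≤ 1)
    (hMc : ∀ j, ∀ g : (κ → ℝ) → ℝ, Dep K g → BM g →
      ex μ w (fun z => g z * av (fun ω => a ω * s j ω) z) = ex μ w (fun z => g z * M j z))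
    (hx0 : 0 ≤ x) (hx1 : x ≤ 1) {kp d0 d0f : ℝ}
    (hI2 : ∀ g : (κ → ℝ) → ℝ, Dep K g → BM g →
      |ex μ w (fun z => g z * ∑ j ∈ S, M j z * Th av x a s0 s j z) -
        kp * ex μ w (fun z => g z * m2 S M z)| ≤ d0 * √(ex μ w (fun z => g z ^ 2 * m2 S M z)))
    (hI2f : ∀ g : (κ → ℝ) → ℝ, Dep K g → BM g →
      |ex μ w (fun z => g z * Tf av x a s0 z) - kp * ex μ w g| ≤
        d0f * √(ex μ w (fun z => g z ^ 2)))
    {φ : (κ → ℝ) → ℝ} (hφ : Dep K φ) (hφb : BM φ) (hφ0 : ∀ z, 0 ≤ φ z) :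
    |(1 - x) * ex μ w (fun z => φ z * Rt av S M s0 s τ v z ^ 2) -
        (1 - kp) * ex μ w (fun z => φ z * Yf S M τ v z ^ 2)| ≤
      (η * ex μ w (fun z => φ z * (Yf S M τ v z * √(Pt av S M s τ v z))) +
        η * ex μ w (fun z => φ z * (Yf S M τ v z * (τ * √(Vt av S M s z)))) +
        τ ^ 2 * ex μ w (fun z => φ z * Vt av S M s z)) +
      (2 * (τ * (d0 * √(ex μ w (fun z => (φ z * Yf S M τ v z) ^ 2 * m2 S M z)))) +
        v * (d0f * √(ex μ w (fun z => (φ z * Yf S M τ v z) ^ 2))) +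
        τ * (d0f * √(ex μ w (fun z => (φ z * Yf S M τ v z * m2 S M z) ^ 2))) +
        2 * (η * ex μ w (fun z => φ z * Yf S M τ v z ^ 2))) := by
  have bY := bm_Y (S := S) hA hs hM τ v
  have bP := bm_Pt (S := S) hA hs hM τ v
  have bV := bm_Vt (S := S) hA hs hM
  have b1 := bm_avms1 (S := S) hA hs hM
  have ba := bm_avms (S := S) hA hs hM ha
  have bm := bm_m2 (S := S) hA hs hM
  have bR := bm_Rt (S := S) hA hs hM hs0 τ v
  have bas0 : BM (av fun ω => a ω * s0 ω) := hA.bm (ha.mul hs0)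
  have bs0 : BM (av s0) := hA.bm hs0
  have bu : BM fun z => av (fun ω => s0 ω * (ms S M s z ω - m2 S M z)) z := by
    have e : (fun z => av (fun ω => s0 ω * (ms S M s z ω - m2 S M z)) z) =
        fun z => av (fun ω => s0 ω * ms S M s z ω) z - m2 S M z * av s0 z := by
      funext z
      have hb := bd_ms (S := S) (M := M) hs z
      have e : (fun ω => s0 ω * (ms S M s z ω - m2 S M z)) =
          fun ω => s0 ω * ms S M s z ω - m2 S M z * s0 ω := by funext ω; ring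
      rw [e, hA.sub (hs0.mul hb) (hs0.cmul _), hA.smul]
    rw [e]
    exact (bm_avms (S := S) hA hs hM hs0).sub (bm.mul bs0)
  have dφY := Dep.mul hφ (dep_Y (S := S) hw hA hM hMd τ v)
  have i1 : BM fun z => φ z * Yf S M τ v z := hφb.mul bY
  have hY := Y_nonneg (S := S) (M := M) hτ hv
  have hx' : |1 - x| ≤ 1 := by rw [_root_.abs_le]; constructor <;> linarith
  -- the main part
  have A1 : (fun z => (1 - x) * ((φ z * Yf S M τ v z) * (Rt av S M s0 s τ v z *
      av (fun ω => a ω * s0 ω) z))) = fun z =>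
      (τ * ((φ z * Yf S M τ v z) * av (fun ω => a ω * ms S M s z ω) z) -
        τ * ((φ z * Yf S M τ v z) * ∑ j ∈ S, M j z * Th av x a s0 s j z)) +
      (v * ((φ z * Yf S M τ v z) * av a z) - v * ((φ z * Yf S M τ v z) * Tf av x a s0 z)) := by
    funext z
    have f1 : ∑ j ∈ S, M j z * Th av x a s0 s j z =
        av (fun ω => a ω * ms S M s z ω) z - (1 - x) * (av (fun ω => a ω * s0 ω) z *
          ∑ j ∈ S, M j z * av (fun ω => s0 ω * s j ω) z) := by
      rw [av_ms hA hs ha, Finset.mul_sum, Finset.mul_sum, ← Finset.sum_sub_distrib]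
      exact Finset.sum_congr rfl fun j _ => by unfold Th; ring
    rw [f1, Rt_eq' hA hs hs0]
    unfold Tf
    ring
  have bTh : BM fun z => ∑ j ∈ S, M j z * Th av x a s0 s j z :=
    BM.sum S fun j _ => (hM j).mul (bm_Th (M := M) hA hs hM ha hs0 x j)
  have bTf : BM (Tf av x a s0) := bm_Tf hA ha hs0 x
  have baa : BM (av a) := hA.bm ha
  have A2 : (1 - x) * ex μ w (fun z => (φ z * Yf S M τ v z) * (Rt av S M s0 s τ v z *
      av (fun ω => a ω * s0 ω) z)) =
      (τ * ex μ w (fun z => (φ z * Yf S M τ v z) * m2 S M z) -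
        τ * ex μ w (fun z => (φ z * Yf S M τ v z) * ∑ j ∈ S, M j z * Th av x a s0 s j z)) +
      (v * ex μ w (fun z => (φ z * Yf S M τ v z) * av a z) -
        v * ex μ w (fun z => (φ z * Yf S M τ v z) * Tf av x a s0 z)) := by
    rw [← ex_cmul, A1, ex_add hw ((bcm τ (i1.mul ba)).sub (bcm τ (i1.mul bTh)))
      ((bcm v (i1.mul baa)).sub (bcm v (i1.mul bTf))),
      ex_sub hw (bcm τ (i1.mul ba)) (bcm τ (i1.mul bTh)),
      ex_sub hw (bcm v (i1.mul baa)) (bcm v (i1.mul bTf)), ex_cmul, ex_cmul, ex_cmul, ex_cmul,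
      ex_aM (S := S) hw hA hs hM hMd ha hMc dφY i1]
  have A3 := hI2 _ dφY i1
  have A4 := hI2f _ dφY i1
  have A5 : |ex μ w (fun z => (φ z * Yf S M τ v z) * av a z) -
      ex μ w (fun z => φ z * Yf S M τ v z)| ≤ η * ex μ w (fun z => φ z * Yf S M τ v z) := by
    rw [← ex_sub hw (i1.mul baa) i1, ← ex_cmul]
    refine abs_ex_le hw ((i1.mul baa).sub i1) (bcm η i1) fun z => ?_
    have h1 := abs_a1 hA ha haη z
    have e : φ z * Yf S M τ v z * av a z - φ z * Yf S M τ v z =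
        (φ z * Yf S M τ v z) * (av a z - 1) := by ring
    rw [e, abs_mul, abs_of_nonneg (mul_nonneg (hφ0 z) (hY z)), mul_comm]
    exact mul_le_mul_of_nonneg_right h1 (mul_nonneg (hφ0 z) (hY z))
  have A6 : ex μ w (fun z => φ z * Yf S M τ v z ^ 2) =
      τ * ex μ w (fun z => (φ z * Yf S M τ v z) * m2 S M z) +
        v * ex μ w (fun z => φ z * Yf S M τ v z) := by
    rw [← ex_cmul, ← ex_cmul, ← ex_add hw (bcm τ (i1.mul bm)) (bcm v i1)]
    congr 1
    funext z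
    have : Yf S M τ v z = τ * m2 S M z + v := rfl
    calc φ z * Yf S M τ v z ^ 2 = (φ z * Yf S M τ v z) * Yf S M τ v z := by ring
      _ = (φ z * Yf S M τ v z) * (τ * m2 S M z + v) := by rw [this]
      _ = _ := by ring
  have A6' : v * ex μ w (fun z => φ z * Yf S M τ v z) ≤
      ex μ w (fun z => φ z * Yf S M τ v z ^ 2) := by
    rw [A6]
    have : 0 ≤ ex μ w (fun z => (φ z * Yf S M τ v z) * m2 S M z) := ex_nonneg hw fun z =>
      mul_nonneg (mul_nonneg (hφ0 z) (hY z)) (m2_nonneg z)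
    have := mul_nonneg hτ this
    linarith
  have A7 : |(1 - x) * ex μ w (fun z => (φ z * Yf S M τ v z) * (Rt av S M s0 s τ v z *
      av (fun ω => a ω * s0 ω) z)) - (1 - kp) * ex μ w (fun z => φ z * Yf S M τ v z ^ 2)| ≤
      τ * (d0 * √(ex μ w (fun z => (φ z * Yf S M τ v z) ^ 2 * m2 S M z))) +
        v * (d0f * √(ex μ w (fun z => (φ z * Yf S M τ v z) ^ 2))) +
        η * ex μ w (fun z => φ z * Yf S M τ v z ^ 2) := by
    have hlast : v * |ex μ w (fun z => (φ z * Yf S M τ v z) * av a z) -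
      ex μ w (fun z => φ z * Yf S M τ v z)| ≤ η * ex μ w (fun z => φ z * Yf S M τ v z ^ 2) := by
      have h1 := mul_le_mul_of_nonneg_left A5 hv
      have h2 := mul_le_mul_of_nonneg_left A6' hη
      linarith
    have e : (1 - x) * ex μ w (fun z => (φ z * Yf S M τ v z) * (Rt av S M s0 s τ v z *
        av (fun ω => a ω * s0 ω) z)) - (1 - kp) * ex μ w (fun z => φ z * Yf S M τ v z ^ 2) =
        -(τ * (ex μ w (fun z => (φ z * Yf S M τ v z) * ∑ j ∈ S, M j z * Th av x a s0 s j z) -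
          kp * ex μ w (fun z => (φ z * Yf S M τ v z) * m2 S M z))) -
        v * (ex μ w (fun z => (φ z * Yf S M τ v z) * Tf av x a s0 z) -
          kp * ex μ w (fun z => φ z * Yf S M τ v z)) +
        v * (ex μ w (fun z => (φ z * Yf S M τ v z) * av a z) -
          ex μ w (fun z => φ z * Yf S M τ v z)) := by
      rw [A2, A6]; ring
    rw [e]
    refine (abs_add_le _ _).trans (add_le_add ((abs_sub _ _).trans (add_le_add ?_ ?_)) ?_)
    · rw [abs_neg, abs_mul, abs_of_nonneg hτ]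
      exact mul_le_mul_of_nonneg_left A3 hτ
    · rw [abs_mul, abs_of_nonneg hv]
      exact mul_le_mul_of_nonneg_left A4 hv
    · rw [abs_mul, abs_of_nonneg hv]
      exact hlast
  have U1 := stepU (S := S) hw hA hs hM hMd ha haη hη hτ hv hs0 hs1 hMc hx0 hx1 hI2 hI2f hφ
    hφb hφ0
  -- the replacement
  have bW : BM fun z => (φ z * Yf S M τ v z) * (τ * (av (fun ω => a ω * s0 ω) z *
      av (fun ω => s0 ω * (ms S M s z ω - m2 S M z)) z)) :=
    i1.mul (bcm τ (bas0.mul bu))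
  have B1 : |ex μ w (fun z => φ z * Rt av S M s0 s τ v z ^ 2) -
      (ex μ w (fun z => (φ z * Yf S M τ v z) * (Rt av S M s0 s τ v z *
        av (fun ω => a ω * s0 ω) z)) +
       ex μ w (fun z => (φ z * Yf S M τ v z) * (τ * (av (fun ω => a ω * s0 ω) z *
        av (fun ω => s0 ω * (ms S M s z ω - m2 S M z)) z))))| ≤
      η * ex μ w (fun z => φ z * (Yf S M τ v z * √(Pt av S M s τ v z))) +
        η * ex μ w (fun z => φ z * (Yf S M τ v z * (τ * √(Vt av S M s z)))) +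
        τ ^ 2 * ex μ w (fun z => φ z * Vt av S M s z) := by
    have e0 : η * ex μ w (fun z => φ z * (Yf S M τ v z * √(Pt av S M s τ v z))) +
        η * ex μ w (fun z => φ z * (Yf S M τ v z * (τ * √(Vt av S M s z)))) +
        τ ^ 2 * ex μ w (fun z => φ z * Vt av S M s z) =
        ex μ w (fun z => (η * (φ z * (Yf S M τ v z * √(Pt av S M s τ v z))) +
        η * (φ z * (Yf S M τ v z * (τ * √(Vt av S M s z))))) +
        τ ^ 2 * (φ z * Vt av S M s z)) := by
      rw [ex_add hw ((bcm η (hφb.mul (bY.mul (bm_sqrt bP)))).add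
        (bcm η (hφb.mul (bY.mul (bcm τ (bm_sqrt bV)))))) (bcm _ (hφb.mul bV)),
        ex_add hw (bcm η (hφb.mul (bY.mul (bm_sqrt bP))))
        (bcm η (hφb.mul (bY.mul (bcm τ (bm_sqrt bV))))), ex_cmul, ex_cmul, ex_cmul]
    rw [e0, ← ex_add hw (i1.mul (bR.mul bas0)) bW, ← ex_sub hw (hφb.mul (bsq bR))
      ((i1.mul (bR.mul bas0)).add bW)]
    refine abs_ex_le hw ((hφb.mul (bsq bR)).sub ((i1.mul (bR.mul bas0)).add bW))
      (((bcm η (hφb.mul (bY.mul (bm_sqrt bP)))).add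
        (bcm η (hφb.mul (bY.mul (bcm τ (bm_sqrt bV)))))).add (bcm _ (hφb.mul bV))) fun z => ?_
    have r1 := Rt_eq (S := S) (M := M) hA hs hs0 τ v z
    have r2 := abs_Rt_le (S := S) (M := M) hA hs hs0 hs1 τ v z
    have r3 := abs_av0_le (S := S) (M := M) hA hs hs0 hs1 z
    have r4 := abs_s0 hA hs0 hs1 ha haη hη z
    have hV0 := Vt_nonneg (S := S) (M := M) hA hs z
    set Rz := Rt av S M s0 s τ v z
    set Yz := Yf S M τ v z with hYz
    set uz := av (fun ω => s0 ω * (ms S M s z ω - m2 S M z)) z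
    set a0 := av (fun ω => a ω * s0 ω) z
    set Vz := Vt av S M s z
    have r5 : uz ^ 2 ≤ Vz := by
      rw [← sq_abs, ← Real.sq_sqrt hV0]
      exact pow_le_pow_left₀ (abs_nonneg _) r3 2
    have e : φ z * Rz ^ 2 - (φ z * Yz * (Rz * a0) + φ z * Yz * (τ * (a0 * uz))) =
        φ z * (Yz * Rz * (av s0 z - a0) + Yz * (τ * ((av s0 z - a0) * uz)) +
          τ ^ 2 * uz ^ 2) := by
      have : Rz ^ 2 = Rz * (Yz * av s0 z) + (Yz * av s0 z + τ * uz) * (τ * uz) := by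
        rw [← r1]; rw [sq]; nth_rw 2 [r1]; ring
      rw [this]; ring
    have e' : η * (φ z * (Yz * √(Pt av S M s τ v z))) + η * (φ z * (Yz * (τ * √Vz))) +
        τ ^ 2 * (φ z * Vz) = φ z * (Yz * (√(Pt av S M s τ v z) * η) +
          Yz * (τ * (η * √Vz)) + τ ^ 2 * Vz) := by ring
    rw [e, e', abs_mul, abs_of_nonneg (hφ0 z)]
    refine mul_le_mul_of_nonneg_left ?_ (hφ0 z)
    refine (abs_add_le _ _).trans (add_le_add ((abs_add_le _ _).trans (add_le_add ?_ ?_)) ?_)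
    · rw [abs_mul, abs_mul, abs_of_nonneg (hY z), mul_assoc]
      exact mul_le_mul_of_nonneg_left
        (mul_le_mul r2 r4 (abs_nonneg _) (Real.sqrt_nonneg _)) (hY z)
    · rw [abs_mul, abs_of_nonneg (hY z), abs_mul, abs_of_nonneg hτ, abs_mul]
      exact mul_le_mul_of_nonneg_left (mul_le_mul_of_nonneg_left
        (mul_le_mul r4 r3 (abs_nonneg _) hη) hτ) (hY z)
    · rw [abs_of_nonneg (mul_nonneg (sq_nonneg _) (sq_nonneg _))]
      exact mul_le_mul_of_nonneg_left r5 (sq_nonneg _)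
  set E1 := ex μ w (fun z => φ z * Rt av S M s0 s τ v z ^ 2)
  set E2 := ex μ w (fun z => (φ z * Yf S M τ v z) * (Rt av S M s0 s τ v z *
        av (fun ω => a ω * s0 ω) z))
  set E2' := ex μ w (fun z => (φ z * Yf S M τ v z) * (τ * (av (fun ω => a ω * s0 ω) z *
        av (fun ω => s0 ω * (ms S M s z ω - m2 S M z)) z)))
  set E3 := ex μ w (fun z => φ z * Yf S M τ v z ^ 2)
  set B := η * ex μ w (fun z => φ z * (Yf S M τ v z * √(Pt av S M s τ v z))) +
        η * ex μ w (fun z => φ z * (Yf S M τ v z * (τ * √(Vt av S M s z)))) +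
        τ ^ 2 * ex μ w (fun z => φ z * Vt av S M s z)
  have hlast : |(1 - x) * (E1 - (E2 + E2'))| ≤ B := by
    rw [abs_mul]
    calc |1 - x| * |E1 - (E2 + E2')| ≤ 1 * |E1 - (E2 + E2')| :=
          mul_le_mul_of_nonneg_right hx' (abs_nonneg _)
      _ ≤ _ := by rw [one_mul]; exact B1
  have t1 : |(1 - x) * E1 - (1 - kp) * E3| ≤ |(1 - x) * (E1 - (E2 + E2'))| +
      |(1 - x) * E2 - (1 - kp) * E3| + |(1 - x) * E2'| := by
    have e : (1 - x) * E1 - (1 - kp) * E3 = (1 - x) * (E1 - (E2 + E2')) +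
        ((1 - x) * E2 - (1 - kp) * E3) + (1 - x) * E2' := by ring
    rw [e]
    exact (abs_add_le _ _).trans (add_le_add (abs_add_le _ _) le_rfl)
  linarith

/-- **The tested row equation, algebraic part, first order rank one error.** -/
theorem easm2 (ha : Bd a) (haη : ∀ ω, |a ω - 1| ≤ η) (hη : 0 ≤ η) (hτ : 0 ≤ τ) (hv : 0 ≤ v)
    (hs0 : Bd s0) (hs1 : ∀ ω, |s0 ω| ≤ 1)
    (hMc : ∀ j, ∀ g : (κ → ℝ) → ℝ, Dep K g → BM g →
      ex μ w (fun z => g z * av (fun ω => a ω * s j ω) z) = ex μ w (fun z => g z * M j z))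
    (hx0 : 0 ≤ x) (hx1 : x ≤ 1) {kp d0 d0f : ℝ} (hk : 0 ≤ kp)
    (hI2 : ∀ g : (κ → ℝ) → ℝ, Dep K g → BM g →
      |ex μ w (fun z => g z * ∑ j ∈ S, M j z * Th av x a s0 s j z) -
        kp * ex μ w (fun z => g z * m2 S M z)| ≤ d0 * √(ex μ w (fun z => g z ^ 2 * m2 S M z)))
    (hI2f : ∀ g : (κ → ℝ) → ℝ, Dep K g → BM g →
      |ex μ w (fun z => g z * Tf av x a s0 z) - kp * ex μ w g| ≤
        d0f * √(ex μ w (fun z => g z ^ 2)))
    {φ : (κ → ℝ) → ℝ} (hφ : Dep K φ) (hφb : BM φ) (hφ0 : ∀ z, 0 ≤ φ z) {nN c3 EY2 DV : ℝ}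
    (hEY2 : EY2 = ex μ w (fun z => φ z * Yf S M τ v z ^ 2))
    (hDV : DV = τ ^ 2 * ex μ w (fun z => φ z * Vt av S M s z))
    (hstar : nN = 2 * kp * (τ * ex μ w (fun z => φ z * ∑ j ∈ S, M j z * Th av x a s0 s j z) +
        v * ex μ w (fun z => φ z * Tf av x a s0 z)) -
      kp ^ 2 * ex μ w (fun z => φ z * Yf S M τ v z) -
      x * kp ^ 2 * (ex μ w (fun z => φ z * Pt av S M s τ v z) -
        (1 - x) * ex μ w (fun z => φ z * Rt av S M s0 s τ v z ^ 2)) + c3) :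
    |nN - (kp ^ 2 * ex μ w (fun z => φ z * Yf S M τ v z) - x * kp ^ 3 * EY2 + c3)| ≤
      2 * kp * (τ * (d0 * √(ex μ w (fun z => φ z ^ 2 * m2 S M z))) +
        v * (d0f * √(ex μ w (fun z => φ z ^ 2)))) +
      x * kp ^ 2 * (10 * η * (EY2 + DV) + 2 * DV +
        2 * (τ * (d0 * √(ex μ w (fun z => (φ z * Yf S M τ v z) ^ 2 * m2 S M z)))) +
        v * (d0f * √(ex μ w (fun z => (φ z * Yf S M τ v z) ^ 2))) +
        τ * (d0f * √(ex μ w (fun z => (φ z * Yf S M τ v z * m2 S M z) ^ 2)))) := by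
  have bY := bm_Y (S := S) hA hs hM τ v
  have bP := bm_Pt (S := S) hA hs hM τ v
  have bV := bm_Vt (S := S) hA hs hM
  have bm := bm_m2 (S := S) hA hs hM
  have hY := Y_nonneg (S := S) (M := M) hτ hv
  have i1 : BM fun z => φ z * Yf S M τ v z := hφb.mul bY
  have P1 := stepP (S := S) hw hA hs hM hMd ha haη hη hτ hv hMc hφ hφb hφ0
  have R1 := stepR2 (S := S) hw hA hs hM hMd ha haη hη hτ hv hs0 hs1 hMc hx0 hx1 hI2 hI2f hφ
    hφb hφ0
  have G1 := hI2 φ hφ hφb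
  have G2 := hI2f φ hφ hφb
  rw [← hEY2, ← hDV] at P1
  rw [← hEY2, ← hDV] at R1
  have hEY20 : 0 ≤ EY2 := by
    rw [hEY2]; exact ex_nonneg hw fun z => mul_nonneg (hφ0 z) (sq_nonneg _)
  have hDV0 : 0 ≤ DV := by
    rw [hDV]
    exact mul_nonneg (sq_nonneg _) (ex_nonneg hw fun z => mul_nonneg (hφ0 z)
      (Vt_nonneg (S := S) (M := M) hA hs z))
  have e4 : ex μ w (fun z => φ z * (Yf S M τ v z * (√(Pt av S M s τ v z) + Yf S M τ v z))) =
      ex μ w (fun z => φ z * (Yf S M τ v z * √(Pt av S M s τ v z))) + EY2 := by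
    rw [hEY2, ← ex_add hw (hφb.mul (bY.mul (bm_sqrt bP))) (hφb.mul (bsq bY))]
    congr 1; funext z; ring
  -- P
  have p1 : ex μ w (fun z => φ z * Pt av S M s τ v z) ≤ 2 * EY2 + 2 * DV := by
    rw [hEY2, hDV, ← ex_cmul, ← ex_cmul, ← ex_cmul, ← ex_add hw
      (bcm 2 (hφb.mul (bsq bY))) (bcm 2 (bcm _ (hφb.mul bV)))]
    refine ex_mono hw (hφb.mul bP) ((bcm 2 (hφb.mul (bsq bY))).add
      (bcm 2 (bcm _ (hφb.mul bV)))) fun z => ?_
    have := mul_le_mul_of_nonneg_left (Pt_le (S := S) (M := M) hA hs τ v z) (hφ0 z)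
    linarith
  have p2 : ex μ w (fun z => φ z * (Yf S M τ v z * √(Pt av S M s τ v z))) ≤
      (EY2 + ex μ w (fun z => φ z * Pt av S M s τ v z)) / 2 := by
    have e : (EY2 + ex μ w (fun z => φ z * Pt av S M s τ v z)) / 2 =
        ex μ w (fun z => (1 / 2) * (φ z * Yf S M τ v z ^ 2 + φ z * Pt av S M s τ v z)) := by
      rw [ex_cmul, ex_add hw (hφb.mul (bsq bY)) (hφb.mul bP), ← hEY2]
      ring
    rw [e]
    refine ex_mono hw (hφb.mul (bY.mul (bm_sqrt bP)))
      (bcm _ ((hφb.mul (bsq bY)).add (hφb.mul bP))) fun z => ?_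
    have h0 := Pt_nonneg (S := S) (M := M) hA hs τ v z
    have h1 := Real.sq_sqrt h0
    have h2 : Yf S M τ v z * √(Pt av S M s τ v z) ≤ (1 / 2) * (Yf S M τ v z ^ 2 +
        Pt av S M s τ v z) := by
      nlinarith [sq_nonneg (Yf S M τ v z - √(Pt av S M s τ v z))]
    have h3 := mul_le_mul_of_nonneg_left h2 (hφ0 z)
    linarith
  have p3 : ex μ w (fun z => φ z * (Yf S M τ v z * (τ * √(Vt av S M s z)))) ≤
      (EY2 + DV) / 2 := by
    have e : (EY2 + DV) / 2 = ex μ w (fun z => (1 / 2) * (φ z * Yf S M τ v z ^ 2 +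
        τ ^ 2 * (φ z * Vt av S M s z))) := by
      rw [ex_cmul, ex_add hw (hφb.mul (bsq bY)) (bcm _ (hφb.mul bV)), ex_cmul, ← hEY2, ← hDV]
      ring
    rw [e]
    refine ex_mono hw (hφb.mul (bY.mul (bcm τ (bm_sqrt bV))))
      (bcm _ ((hφb.mul (bsq bY)).add (bcm _ (hφb.mul bV)))) fun z => ?_
    have h0 := Vt_nonneg (S := S) (M := M) hA hs z
    have h1 := Real.sq_sqrt h0
    have h2 : Yf S M τ v z * (τ * √(Vt av S M s z)) ≤ (1 / 2) * (Yf S M τ v z ^ 2 +
        τ ^ 2 * Vt av S M s z) := by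
      nlinarith [sq_nonneg (Yf S M τ v z - τ * √(Vt av S M s z))]
    have h3 := mul_le_mul_of_nonneg_left h2 (hφ0 z)
    linarith
  rw [e4] at P1
  set EP := ex μ w (fun z => φ z * Pt av S M s τ v z) with hEP
  set EYP := ex μ w (fun z => φ z * (Yf S M τ v z * √(Pt av S M s τ v z))) with hEYP
  set EYV := ex μ w (fun z => φ z * (Yf S M τ v z * (τ * √(Vt av S M s z)))) with hEYV
  set ER := ex μ w (fun z => φ z * Rt av S M s0 s τ v z ^ 2)
  set D1 := τ * (d0 * √(ex μ w (fun z => (φ z * Yf S M τ v z) ^ 2 * m2 S M z)))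
  set D2 := v * (d0f * √(ex μ w (fun z => (φ z * Yf S M τ v z) ^ 2)))
  set D3 := τ * (d0f * √(ex μ w (fun z => (φ z * Yf S M τ v z * m2 S M z) ^ 2)))
  -- combination
  have X1 : |(EP - (1 - x) * ER) - kp * EY2| ≤ 10 * η * (EY2 + DV) + 2 * DV +
      2 * D1 + D2 + D3 := by
    have q0 : EYP ≤ (EY2 + (2 * EY2 + 2 * DV)) / 2 := p2.trans (by linarith)
    have q1 := mul_le_mul_of_nonneg_left q0 hη
    have q2 := mul_le_mul_of_nonneg_left p3 hη
    have q3 : 0 ≤ η * EY2 := mul_nonneg hη hEY20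
    have q4 : 0 ≤ η * DV := mul_nonneg hη hDV0
    have e : (EP - (1 - x) * ER) - kp * EY2 =
        (EP - EY2 - DV) + DV - ((1 - x) * ER - (1 - kp) * EY2) := by ring
    rw [e]
    generalize EP - EY2 - DV = A at P1 ⊢
    generalize (1 - x) * ER - (1 - kp) * EY2 = B at R1 ⊢
    have t1 := abs_sub (A + DV) B
    have t2 := abs_add_le A DV
    rw [abs_of_nonneg hDV0] at t2
    have t3 : 2 * η * (EYP + EY2) = 2 * (η * EYP) + 2 * (η * EY2) := by ring
    have t4 : 10 * η * (EY2 + DV) = 10 * (η * EY2) + 10 * (η * DV) := by ring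
    have t5 : η * ((EY2 + (2 * EY2 + 2 * DV)) / 2) = 3 / 2 * (η * EY2) + η * DV := by ring
    have t6 : η * ((EY2 + DV) / 2) = 1 / 2 * (η * EY2) + 1 / 2 * (η * DV) := by ring
    rw [t3] at P1
    rw [t5] at q1
    rw [t6] at q2
    rw [t4]
    linarith
  have hxk : 0 ≤ x * kp ^ 2 := mul_nonneg hx0 (sq_nonneg _)
  have X2 := mul_le_mul_of_nonneg_left X1 hxk
  have hfin : nN - (kp ^ 2 * ex μ w (fun z => φ z * Yf S M τ v z) - x * kp ^ 3 * EY2 + c3) =
      2 * kp * (τ * (ex μ w (fun z => φ z * ∑ j ∈ S, M j z * Th av x a s0 s j z) -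
        kp * ex μ w (fun z => φ z * m2 S M z)) +
        v * (ex μ w (fun z => φ z * Tf av x a s0 z) - kp * ex μ w φ)) -
      x * kp ^ 2 * ((EP - (1 - x) * ER) - kp * EY2) := by
    have e6 : ex μ w (fun z => φ z * Yf S M τ v z) =
        τ * ex μ w (fun z => φ z * m2 S M z) + v * ex μ w φ := by
      rw [← ex_cmul, ← ex_cmul, ← ex_add hw (bcm τ (hφb.mul bm)) (bcm v hφb)]
      have e7 : (fun z => φ z * Yf S M τ v z) = fun z => τ * (φ z * m2 S M z) + v * φ z := by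
        funext z
        have : Yf S M τ v z = τ * m2 S M z + v := rfl
        rw [this]; ring
      rw [← e7]
    rw [hstar, e6]
    ring
  rw [hfin]
  refine (abs_sub _ _).trans (add_le_add ?_ ?_)
  · rw [abs_mul, abs_of_nonneg (by positivity : (0 : ℝ) ≤ 2 * kp)]
    refine mul_le_mul_of_nonneg_left ((abs_add_le _ _).trans (add_le_add ?_ ?_)) (by positivity)
    · rw [abs_mul, abs_of_nonneg hτ]
      exact mul_le_mul_of_nonneg_left G1 hτ
    · rw [abs_mul, abs_of_nonneg hv]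
      exact mul_le_mul_of_nonneg_left G2 hv
  · rw [abs_mul, abs_of_nonneg hxk]
    exact X2

end main

end Vale.Agent.P146.H615
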