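import Vale.Agent.P146.H615.Easm2
import Vale.Agent.P146.H646.W0

/-!
# P146: the hypotheses `hMc`, `hI2`, `hI2f` of `easm2`, and the rank one defect, for exchangeable sites

Generic over a Gibbs system `GM m E M0`, exchangeable sites (`H646.Sites`) and revealed sets
(`H646.Rev`).
-/

open MeasureTheory ProbabilityTheory

namespace Vale.Agent.P146.H615

open Vale.Agent.P146.H196 Vale.Agent.P146.H646

set_option linter.unusedSectionVars false

variable {κ s : Type} [Fintype κ] [DecidableEq κ] [Fintype s] [DecidableEq s]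
variable {Ω : Type} [MeasurableSpace Ω] {m : Measure Ω} {x M0 : ℝ} {E : κ → Ω → ℝ}
variable {σ : s → Ω → ℝ} {a : Ω → ℝ} {act : Equiv.Perm s → Equiv.Perm κ}
  {K : Finset s → Finset κ}

lemma bd_iff {h : Ω → ℝ} : Bd h ↔ Bm h := Iff.rfl

/-- the Gibbs average of a GM system is a thermal average. -/
theorem av_gm (hG : GM m E M0) (k : ℝ) : Av (avm m k E) where
  one z := hG.av_const k 1 z
  add hh hg z := hG.av_add k hh hg z
  smul c h z := av_mul m k E c h z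
  mono hh hg hle z := hG.av_mono k hh hg hle z
  bm hh := H347.bm hG k hh

/-- the magnetisations given the frozen coordinates. -/
noncomputable def Mg (m : Measure Ω) (E : κ → Ω → ℝ) (x : ℝ) (K : Finset κ) (a : Ω → ℝ)
    (σ : s → Ω → ℝ) (j : s) : (κ → ℝ) → ℝ :=
  cx (H347.g1 κ) K (Zxm m 1 E x) (avm m 1 E fun ω => a ω * σ j ω)

/-- the two point functions given the frozen coordinates. -/
noncomputable def Cg (m : Measure Ω) (E : κ → Ω → ℝ) (x : ℝ) (K : Finset κ)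
    (σ : s → Ω → ℝ) (j l : s) : (κ → ℝ) → ℝ :=
  cx (H347.g1 κ) K (Zxm m 1 E x) (avm m 1 E fun ω => σ j ω * σ l ω)

/-- the rank one defect given the frozen coordinates. -/
noncomputable def RKg (m : Measure Ω) (E : κ → Ω → ℝ) (x : ℝ) (K : Finset κ)
    (σ : s → Ω → ℝ) (S : Finset s) (z : κ → ℝ) : ℝ :=
  ∑ j ∈ S, ∑ l ∈ S, (Cg m E x K σ j l z -
    cx (H347.g1 κ) K (Zxm m 1 E x) (avm m 1 E (σ j)) z *
      cx (H347.g1 κ) K (Zxm m 1 E x) (avm m 1 E (σ l)) z) ^ 2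

section gm

variable (hG : GM m E M0)
include hG

lemma bm_Mg (x : ℝ) (K : Finset κ) (ha : Bd a) (hs : ∀ j, Bd (σ j)) (j : s) :
    BM (Mg m E x K a σ j) := (H347.wt hG 1 x).bm_cx K ((av_gm hG 1).bm (ha.mul (hs j)))

omit hG in
lemma dep_Mg (m : Measure Ω) (E : κ → Ω → ℝ) (x : ℝ) (K : Finset κ) (a : Ω → ℝ)
    (σ : s → Ω → ℝ) (j : s) : Dep K (Mg m E x K a σ j) := dep_cx K

lemma ex_Mg (x : ℝ) (K : Finset κ) (ha : Bd a) (hs : ∀ j, Bd (σ j)) (j : s)
    (g : (κ → ℝ) → ℝ) (hg : Dep K g) (hgb : BM g) :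
    ex (H347.g1 κ) (Zxm m 1 E x) (fun z => g z * avm m 1 E (fun ω => a ω * σ j ω) z) =
      ex (H347.g1 κ) (Zxm m 1 E x) (fun z => g z * Mg m E x K a σ j z) :=
  (ex_cx (H347.wt hG 1 x) hg hgb ((av_gm hG 1).bm (ha.mul (hs j)))).symm

/-! ### the rank one defect -/

/-- the difference between the magnetisations with and without the amplitude. -/
lemma dir_le {η : ℝ} (x : ℝ) (K : Finset κ) (ha : Bd a) (hs : ∀ j, Bd (σ j))
    (haη : ∀ ω, |a ω - 1| ≤ η) (S : Finset s) (c : s → ℝ) (z : κ → ℝ) :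
    (∑ j ∈ S, c j * (cx (H347.g1 κ) K (Zxm m 1 E x) (avm m 1 E (σ j)) z -
        Mg m E x K a σ j z)) ^ 2 ≤
      η ^ 2 * ∑ j ∈ S, c j * ∑ l ∈ S, c l * Cg m E x K σ j l z := by
  have hw := H347.wt hG 1 x
  have hA := av_gm hG 1
  set L : Ω → ℝ := fun ω => ∑ j ∈ S, c j * σ j ω with hL
  have hLb : Bd L := Bd.sum S fun j _ => (hs j).cmul _
  have h1a : Bd fun ω => 1 - a ω := (Bd.const 1).sub ha
  have b1 : Bd fun ω => (1 - a ω) * L ω := h1a.mul hLb
  have e1 : ∑ j ∈ S, c j * (cx (H347.g1 κ) K (Zxm m 1 E x) (avm m 1 E (σ j)) z -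
      Mg m E x K a σ j z) =
      cx (H347.g1 κ) K (Zxm m 1 E x) (avm m 1 E fun ω => (1 - a ω) * L ω) z := by
    have e2 : (avm m 1 E fun ω => (1 - a ω) * L ω) = fun z => ∑ j ∈ S, c j *
        (avm m 1 E (σ j) z - avm m 1 E (fun ω => a ω * σ j ω) z) := by
      funext z
      have e3 : (fun ω => (1 - a ω) * L ω) = fun ω => ∑ j ∈ S, c j * (σ j ω - a ω * σ j ω) := by
        funext ω
        rw [hL]
        simp only
        rw [Finset.mul_sum]
        exact Finset.sum_congr rfl fun j _ => by ring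
      rw [e3, hA.sum S fun j _ => ((hs j).sub (ha.mul (hs j))).cmul _]
      refine Finset.sum_congr rfl fun j _ => ?_
      rw [hA.smul, hA.sub (hs j) (ha.mul (hs j))]
    rw [e2, cx_sum hw S fun j _ => (BM.const _).mul ((hA.bm (hs j)).sub
      (hA.bm (ha.mul (hs j))))]
    refine Finset.sum_congr rfl fun j _ => ?_
    rw [cx_const_mul hw, cx_sub hw (hA.bm (hs j)) (hA.bm (ha.mul (hs j)))]
    rfl
  have e4 : ∑ j ∈ S, c j * ∑ l ∈ S, c l * Cg m E x K σ j l z =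
      cx (H347.g1 κ) K (Zxm m 1 E x) (avm m 1 E fun ω => L ω ^ 2) z := by
    have e5 : (avm m 1 E fun ω => L ω ^ 2) = fun z => ∑ j ∈ S, c j * ∑ l ∈ S, c l *
        avm m 1 E (fun ω => σ j ω * σ l ω) z := by
      funext z
      have e6 : (fun ω => L ω ^ 2) = fun ω => ∑ j ∈ S, c j * ∑ l ∈ S, c l * (σ j ω * σ l ω) := by
        funext ω
        rw [hL]
        simp only
        rw [sq, Finset.sum_mul]
        refine Finset.sum_congr rfl fun j _ => ?_
        rw [Finset.mul_sum, Finset.mul_sum]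
        exact Finset.sum_congr rfl fun l _ => by ring
      rw [e6, hA.sum S fun j _ => (Bd.sum S fun l _ => ((hs j).mul (hs l)).cmul _).cmul _]
      refine Finset.sum_congr rfl fun j _ => ?_
      rw [hA.smul, hA.sum S fun l _ => ((hs j).mul (hs l)).cmul _]
      congr 1
      exact Finset.sum_congr rfl fun l _ => hA.smul _ _ _
    rw [e5, cx_sum hw S fun j _ => (BM.const _).mul (BM.sum S fun l _ =>
      (BM.const _).mul (hA.bm ((hs j).mul (hs l))))]
    refine Finset.sum_congr rfl fun j _ => ?_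
    rw [cx_const_mul hw, cx_sum hw S fun l _ => (BM.const _).mul (hA.bm ((hs j).mul (hs l)))]
    congr 1
    refine Finset.sum_congr rfl fun l _ => ?_
    rw [cx_const_mul hw]
    rfl
  rw [e1, e4]
  refine (cx_sq_le hw (hA.bm b1) z).trans ?_
  rw [← cx_const_mul hw]
  refine cx_mono hw (bsq (hA.bm b1)) ((BM.const _).mul (hA.bm hLb.sq)) (fun y => ?_) z
  refine (hA.sq_le b1 y).trans ?_
  rw [← hA.smul]
  refine hA.mono b1.sq (hLb.sq.cmul _) (fun ω => ?_) y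
  rw [mul_pow]
  refine mul_le_mul_of_nonneg_right ?_ (sq_nonneg _)
  rw [← sq_abs, abs_sub_comm]
  exact pow_le_pow_left₀ (abs_nonneg _) (haη ω) 2

/-- the conditional mean of the rank one defect in the direction of `M`, pointwise in the frozen
coordinates. -/
lemma quad_le {η : ℝ} (hη : 0 ≤ η) (hη1 : η ≤ 1 / 2) (x : ℝ) (K : Finset κ) (ha : Bd a)
    (hs : ∀ j, Bd (σ j)) (haη : ∀ ω, |a ω - 1| ≤ η) (S : Finset s) (z : κ → ℝ) :
    ∑ j ∈ S, Mg m E x K a σ j z * ∑ l ∈ S, Mg m E x K a σ l z * Cg m E x K σ j l z -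
        2 * m2 S (Mg m E x K a σ) z * ∑ j ∈ S, Mg m E x K a σ j z *
          cx (H347.g1 κ) K (Zxm m 1 E x) (avm m 1 E (σ j)) z +
        m2 S (Mg m E x K a σ) z ^ 2 ≤
      3 / 2 * (m2 S (Mg m E x K a σ) z * √(RKg m E x K σ S z)) +
        4 * η ^ 2 * m2 S (Mg m E x K a σ) z ^ 2 := by
  set M := Mg m E x K a σ with hM
  set C := Cg m E x K σ with hC
  set μ' : s → ℝ := fun j => cx (H347.g1 κ) K (Zxm m 1 E x) (avm m 1 E (σ j)) z with hμ'
  set q := m2 S M z with hq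
  have hq0 : 0 ≤ q := m2_nonneg z
  set P := ∑ j ∈ S, M j z * μ' j with hP
  set T := ∑ j ∈ S, M j z * ∑ l ∈ S, M l z * C j l z with hT
  have h1 := dir_le hG x K ha hs haη S (fun j => M j z) z
  have e1 : ∑ j ∈ S, M j z * (cx (H347.g1 κ) K (Zxm m 1 E x) (avm m 1 E (σ j)) z -
      Mg m E x K a σ j z) = P - q := by
    rw [hP, hq]
    unfold m2
    rw [← Finset.sum_sub_distrib]
    exact Finset.sum_congr rfl fun j _ => by simp only [hμ', hM]; ring
  rw [e1] at h1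
  -- the covariance part
  have e2 : T - P ^ 2 = ∑ p ∈ S ×ˢ S, (M p.1 z * M p.2 z) * (C p.1 p.2 z - μ' p.1 * μ' p.2) := by
    rw [Finset.sum_product, hT, hP, sq, Finset.sum_mul, ← Finset.sum_sub_distrib]
    refine Finset.sum_congr rfl fun j _ => ?_
    rw [Finset.mul_sum, Finset.mul_sum, ← Finset.sum_sub_distrib]
    exact Finset.sum_congr rfl fun l _ => by ring
  have e3 : ∑ p ∈ S ×ˢ S, (M p.1 z * M p.2 z) ^ 2 = q ^ 2 := by
    rw [Finset.sum_product, hq]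
    unfold m2
    rw [sq, Finset.sum_mul]
    refine Finset.sum_congr rfl fun j _ => ?_
    rw [Finset.mul_sum]
    exact Finset.sum_congr rfl fun l _ => by ring
  have e4 : ∑ p ∈ S ×ˢ S, (C p.1 p.2 z - μ' p.1 * μ' p.2) ^ 2 = RKg m E x K σ S z := by
    rw [Finset.sum_product]; rfl
  have h2 : |T - P ^ 2| ≤ q * √(RKg m E x K σ S z) := by
    have h3 := Finset.sum_mul_sq_le_sq_mul_sq (S ×ˢ S) (fun p => M p.1 z * M p.2 z)
      (fun p => C p.1 p.2 z - μ' p.1 * μ' p.2)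
    rw [e3, e4, ← e2] at h3
    have h4 := Real.abs_le_sqrt h3
    rwa [Real.sqrt_mul (sq_nonneg q), Real.sqrt_sq hq0] at h4
  set R := q * √(RKg m E x K σ S z) with hR
  have hR0 : 0 ≤ R := mul_nonneg hq0 (Real.sqrt_nonneg _)
  have h5 : T ≤ P ^ 2 + R := by have := (abs_le.1 h2).2; linarith
  have hη2 : η ^ 2 ≤ 1 / 4 := by nlinarith
  -- `(P - q)^2 ≤ η^2 T ≤ η^2 (R + 2 (P - q)^2 + 2 q^2)`
  have h6 : (P - q) ^ 2 ≤ η ^ 2 * (R + 2 * (P - q) ^ 2 + 2 * q ^ 2) := by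
    refine h1.trans (mul_le_mul_of_nonneg_left ?_ (sq_nonneg _))
    nlinarith [sq_nonneg (P - 2 * q)]
  have h7 : (P - q) ^ 2 ≤ 2 * η ^ 2 * R + 4 * η ^ 2 * q ^ 2 := by
    have h8 : η ^ 2 * (2 * (P - q) ^ 2) ≤ 1 / 2 * (P - q) ^ 2 := by
      nlinarith [sq_nonneg (P - q)]
    nlinarith
  have h9 : 2 * η ^ 2 * R ≤ 1 / 2 * R := mul_le_mul_of_nonneg_right (by linarith) hR0
  calc T - 2 * q * P + q ^ 2 = (T - P ^ 2) + (P - q) ^ 2 := by ring
    _ ≤ R + (2 * η ^ 2 * R + 4 * η ^ 2 * q ^ 2) := add_le_add ((abs_le.1 h2).2) h7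
    _ ≤ _ := by linarith

lemma bm_C (x : ℝ) (K : Finset κ) (hs : ∀ j, Bd (σ j)) (j l : s) :
    BM (Cg m E x K σ j l) := (H347.wt hG 1 x).bm_cx K ((av_gm hG 1).bm ((hs j).mul (hs l)))

lemma bm_RKg (x : ℝ) (K : Finset κ) (hs : ∀ j, Bd (σ j)) (S : Finset s) :
    BM (RKg m E x K σ S) :=
  BM.sum S fun j _ => BM.sum S fun l _ => bsq ((bm_C hG x K hs j l).sub
    (((H347.wt hG 1 x).bm_cx K ((av_gm hG 1).bm (hs j))).mul
      ((H347.wt hG 1 x).bm_cx K ((av_gm hG 1).bm (hs l)))))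

omit hG in
lemma RKg_nonneg {K' : Finset κ} (z : κ → ℝ) (S : Finset s) : 0 ≤ RKg m E x K' σ S z :=
  Finset.sum_nonneg fun _ _ => Finset.sum_nonneg fun _ _ => sq_nonneg _

/-- **the rank one defect of `easm2`**. -/
theorem DV_le {η τ v : ℝ} (hη : 0 ≤ η) (hη1 : η ≤ 1 / 2) (x : ℝ) (K : Finset κ) (ha : Bd a)
    (hs : ∀ j, Bd (σ j)) (haη : ∀ ω, |a ω - 1| ≤ η) (S : Finset s) (hτ : 0 ≤ τ) (hv : 0 ≤ v)
    {φ : (κ → ℝ) → ℝ} (hφ : Dep K φ) (hφb : BM φ) (hφ0 : ∀ z, 0 ≤ φ z) :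
    τ ^ 2 * ex (H347.g1 κ) (Zxm m 1 E x)
        (fun z => φ z * Vt (avm m 1 E) S (Mg m E x K a σ) σ z) ≤
      3 / 2 * (√(ex (H347.g1 κ) (Zxm m 1 E x)
          (fun z => φ z * Yf S (Mg m E x K a σ) τ v z ^ 2)) *
        (τ * √(ex (H347.g1 κ) (Zxm m 1 E x) (fun z => φ z * RKg m E x K σ S z)))) +
      4 * η ^ 2 * ex (H347.g1 κ) (Zxm m 1 E x)
          (fun z => φ z * Yf S (Mg m E x K a σ) τ v z ^ 2) := by
  have hw := H347.wt hG 1 x
  have hA := av_gm hG 1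
  have hM : ∀ j, BM (Mg m E x K a σ j) := bm_Mg hG x K ha hs
  have hMd : ∀ j, Dep K (Mg m E x K a σ j) := dep_Mg m E x K a σ
  set w := Zxm m 1 E x with hwd
  set M := Mg m E x K a σ with hMdef
  have bm2 : BM (m2 S M) := bm_m2 (S := S) hA hs hM
  have dm2 : Dep K (m2 S M) := dep_m2 (S := S) hw hA hM hMd
  have bY := bm_Y (S := S) hA hs hM τ v
  have bR := bm_RKg hG x K hs S
  have bRs : BM fun z => √(RKg m E x K σ S z) := bm_sqrt bR
  -- conditional mean of `Vt`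
  have e1 : ex (H347.g1 κ) w (fun z => φ z * Vt (avm m 1 E) S M σ z) =
      ex (H347.g1 κ) w (fun z => φ z * (∑ j ∈ S, M j z * ∑ l ∈ S, M l z * Cg m E x K σ j l z -
        2 * m2 S M z * ∑ j ∈ S, M j z * cx (H347.g1 κ) K w (avm m 1 E (σ j)) z +
        m2 S M z ^ 2)) := by
    have q1 : ∀ j l, BM fun z => (φ z * (M j z * M l z)) * avm m 1 E (fun ω => σ j ω * σ l ω) z :=
      fun j l => (hφb.mul ((hM j).mul (hM l))).mul (hA.bm ((hs j).mul (hs l)))
    have q1' : ∀ j l, BM fun z => (φ z * (M j z * M l z)) * Cg m E x K σ j l z :=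
      fun j l => (hφb.mul ((hM j).mul (hM l))).mul (bm_C hG x K hs j l)
    have q2 : ∀ j, BM fun z => (φ z * (m2 S M z * M j z)) * avm m 1 E (σ j) z :=
      fun j => (hφb.mul (bm2.mul (hM j))).mul (hA.bm (hs j))
    have q2' : ∀ j, BM fun z => (φ z * (m2 S M z * M j z)) *
        cx (H347.g1 κ) K w (avm m 1 E (σ j)) z :=
      fun j => (hφb.mul (bm2.mul (hM j))).mul (hw.bm_cx K (hA.bm (hs j)))
    have q3 : BM fun z => φ z * m2 S M z ^ 2 := hφb.mul (bsq bm2)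
    have f1 : (fun z => φ z * Vt (avm m 1 E) S M σ z) = fun z =>
        (∑ j ∈ S, ∑ l ∈ S, (φ z * (M j z * M l z)) * avm m 1 E (fun ω => σ j ω * σ l ω) z -
          2 * ∑ j ∈ S, (φ z * (m2 S M z * M j z)) * avm m 1 E (σ j) z) +
          φ z * m2 S M z ^ 2 := by
      funext z
      rw [Vt_eq hA hs, av_ms2 hA hs, av_ms1 hA hs]
      have g1 : ∑ j ∈ S, ∑ l ∈ S, (φ z * (M j z * M l z)) *
          avm m 1 E (fun ω => σ j ω * σ l ω) z = φ z * ∑ j ∈ S, M j z * ∑ l ∈ S, M l z *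
          avm m 1 E (fun ω => σ j ω * σ l ω) z := by
        rw [Finset.mul_sum]
        refine Finset.sum_congr rfl fun j _ => ?_
        rw [Finset.mul_sum, Finset.mul_sum]
        exact Finset.sum_congr rfl fun l _ => by ring
      have g2 : ∑ j ∈ S, (φ z * (m2 S M z * M j z)) * avm m 1 E (σ j) z =
          φ z * (m2 S M z * ∑ j ∈ S, M j z * avm m 1 E (σ j) z) := by
        rw [Finset.mul_sum, Finset.mul_sum]
        exact Finset.sum_congr rfl fun j _ => by ring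
      rw [g1, g2]
      ring
    have f2 : (fun z => φ z * (∑ j ∈ S, M j z * ∑ l ∈ S, M l z * Cg m E x K σ j l z -
        2 * m2 S M z * ∑ j ∈ S, M j z * cx (H347.g1 κ) K w (avm m 1 E (σ j)) z +
        m2 S M z ^ 2)) = fun z =>
        (∑ j ∈ S, ∑ l ∈ S, (φ z * (M j z * M l z)) * Cg m E x K σ j l z -
          2 * ∑ j ∈ S, (φ z * (m2 S M z * M j z)) * cx (H347.g1 κ) K w (avm m 1 E (σ j)) z) +
          φ z * m2 S M z ^ 2 := by
      funext z
      have g1 : ∑ j ∈ S, ∑ l ∈ S, (φ z * (M j z * M l z)) * Cg m E x K σ j l z =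
          φ z * ∑ j ∈ S, M j z * ∑ l ∈ S, M l z * Cg m E x K σ j l z := by
        rw [Finset.mul_sum]
        refine Finset.sum_congr rfl fun j _ => ?_
        rw [Finset.mul_sum, Finset.mul_sum]
        exact Finset.sum_congr rfl fun l _ => by ring
      have g2 : ∑ j ∈ S, (φ z * (m2 S M z * M j z)) * cx (H347.g1 κ) K w (avm m 1 E (σ j)) z =
          φ z * (m2 S M z * ∑ j ∈ S, M j z * cx (H347.g1 κ) K w (avm m 1 E (σ j)) z) := by
        rw [Finset.mul_sum, Finset.mul_sum]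
        exact Finset.sum_congr rfl fun j _ => by ring
      rw [g1, g2]
      ring
    have s1 : BM fun z => ∑ j ∈ S, ∑ l ∈ S, (φ z * (M j z * M l z)) *
        avm m 1 E (fun ω => σ j ω * σ l ω) z := BM.sum S fun j _ => BM.sum S fun l _ => q1 j l
    have s1' : BM fun z => ∑ j ∈ S, ∑ l ∈ S, (φ z * (M j z * M l z)) * Cg m E x K σ j l z :=
      BM.sum S fun j _ => BM.sum S fun l _ => q1' j l
    have s2 : BM fun z => ∑ j ∈ S, (φ z * (m2 S M z * M j z)) * avm m 1 E (σ j) z :=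
      BM.sum S fun j _ => q2 j
    have s2' : BM fun z => ∑ j ∈ S, (φ z * (m2 S M z * M j z)) *
        cx (H347.g1 κ) K w (avm m 1 E (σ j)) z := BM.sum S fun j _ => q2' j
    rw [f1, f2, ex_add hw (s1.sub (bcm 2 s2)) q3, ex_add hw (s1'.sub (bcm 2 s2')) q3,
      ex_sub hw s1 (bcm 2 s2), ex_sub hw s1' (bcm 2 s2'), ex_cmul, ex_cmul,
      ex_sum hw S (fun j _ => BM.sum S fun l _ => q1 j l),
      ex_sum hw S (fun j _ => BM.sum S fun l _ => q1' j l),
      ex_sum hw S (fun j _ => q2 j), ex_sum hw S (fun j _ => q2' j)]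
    congr 2
    · refine Finset.sum_congr rfl fun j _ => ?_
      rw [ex_sum hw S (fun l _ => q1 j l), ex_sum hw S (fun l _ => q1' j l)]
      refine Finset.sum_congr rfl fun l _ => ?_
      exact ex_mul_cx hw (Dep.mul hφ (Dep.mul (hMd j) (hMd l)))
        (hφb.mul ((hM j).mul (hM l))) (hA.bm ((hs j).mul (hs l)))
    · congr 1
      refine Finset.sum_congr rfl fun j _ => ?_
      exact ex_mul_cx hw (Dep.mul hφ (Dep.mul dm2 (hMd j)))
        (hφb.mul (bm2.mul (hM j))) (hA.bm (hs j))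
  -- pointwise bound
  have bT : BM fun z => ∑ j ∈ S, M j z * ∑ l ∈ S, M l z * Cg m E x K σ j l z :=
    BM.sum S fun j _ => (hM j).mul (BM.sum S fun l _ => (hM l).mul (bm_C hG x K hs j l))
  have bP : BM fun z => ∑ j ∈ S, M j z * cx (H347.g1 κ) K w (avm m 1 E (σ j)) z :=
    BM.sum S fun j _ => (hM j).mul (hw.bm_cx K (hA.bm (hs j)))
  have h1 : ex (H347.g1 κ) w (fun z => φ z * Vt (avm m 1 E) S M σ z) ≤
      3 / 2 * ex (H347.g1 κ) w (fun z => φ z * (m2 S M z * √(RKg m E x K σ S z))) +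
        4 * η ^ 2 * ex (H347.g1 κ) w (fun z => φ z * m2 S M z ^ 2) := by
    rw [e1, ← ex_cmul, ← ex_cmul, ← ex_add hw (bcm _ (hφb.mul (bm2.mul bRs)))
      (bcm _ (hφb.mul (bsq bm2)))]
    refine ex_mono hw (hφb.mul ((bT.sub ((bcm 2 bm2).mul bP)).add (bsq bm2)))
      ((bcm _ (hφb.mul (bm2.mul bRs))).add (bcm _ (hφb.mul (bsq bm2)))) fun z => ?_
    have h2 := mul_le_mul_of_nonneg_left (quad_le hG hη hη1 x K ha hs haη S z) (hφ0 z)
    refine h2.trans (le_of_eq ?_)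
    ring
  have h3 : τ ^ 2 * ex (H347.g1 κ) w (fun z => φ z * m2 S M z ^ 2) ≤
      ex (H347.g1 κ) w (fun z => φ z * Yf S M τ v z ^ 2) := by
    rw [← ex_cmul]
    refine ex_mono hw (bcm _ (hφb.mul (bsq bm2))) (hφb.mul (bsq bY)) fun z => ?_
    have h4 : 0 ≤ τ * m2 S M z := mul_nonneg hτ (m2_nonneg z)
    have h5 : (τ * m2 S M z) ^ 2 ≤ Yf S M τ v z ^ 2 :=
      pow_le_pow_left₀ h4 (by unfold Yf; linarith) 2
    calc τ ^ 2 * (φ z * m2 S M z ^ 2) = φ z * (τ * m2 S M z) ^ 2 := by ring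
      _ ≤ _ := mul_le_mul_of_nonneg_left h5 (hφ0 z)
  have h6 : τ * ex (H347.g1 κ) w (fun z => φ z * (m2 S M z * √(RKg m E x K σ S z))) ≤
      √(ex (H347.g1 κ) w (fun z => φ z * m2 S M z ^ 2)) *
        (τ * √(ex (H347.g1 κ) w (fun z => φ z * RKg m E x K σ S z))) := by
    have h7 := abs_ex_wmul_le hw hφb hφ0 bm2 bRs
    have e2 : (fun z => φ z * √(RKg m E x K σ S z) ^ 2) = fun z => φ z * RKg m E x K σ S z := by
      funext z
      rw [Real.sq_sqrt (RKg_nonneg z S)]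
    rw [e2] at h7
    have h8 := mul_le_mul_of_nonneg_left ((le_abs_self _).trans h7) hτ
    refine h8.trans (le_of_eq ?_)
    ring
  have h9 : τ * √(ex (H347.g1 κ) w (fun z => φ z * m2 S M z ^ 2)) ≤
      √(ex (H347.g1 κ) w (fun z => φ z * Yf S M τ v z ^ 2)) := by
    have h10 : τ = √(τ ^ 2) := (Real.sqrt_sq hτ).symm
    calc τ * √(ex (H347.g1 κ) w (fun z => φ z * m2 S M z ^ 2))
        = √(τ ^ 2) * √(ex (H347.g1 κ) w (fun z => φ z * m2 S M z ^ 2)) := by rw [← h10]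
      _ = √(τ ^ 2 * ex (H347.g1 κ) w (fun z => φ z * m2 S M z ^ 2)) :=
          (Real.sqrt_mul (sq_nonneg τ) _).symm
      _ ≤ _ := Real.sqrt_le_sqrt h3
  have hB : 0 ≤ τ * √(ex (H347.g1 κ) w (fun z => φ z * RKg m E x K σ S z)) :=
    mul_nonneg hτ (Real.sqrt_nonneg _)
  calc τ ^ 2 * ex (H347.g1 κ) w (fun z => φ z * Vt (avm m 1 E) S M σ z)
      ≤ τ ^ 2 * (3 / 2 * ex (H347.g1 κ) w (fun z => φ z * (m2 S M z * √(RKg m E x K σ S z))) +
        4 * η ^ 2 * ex (H347.g1 κ) w (fun z => φ z * m2 S M z ^ 2)) :=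
        mul_le_mul_of_nonneg_left h1 (sq_nonneg _)
    _ = 3 / 2 * (τ * (τ * ex (H347.g1 κ) w (fun z => φ z * (m2 S M z * √(RKg m E x K σ S z))))) +
        4 * η ^ 2 * (τ ^ 2 * ex (H347.g1 κ) w (fun z => φ z * m2 S M z ^ 2)) := by ring
    _ ≤ _ := by
        refine add_le_add (mul_le_mul_of_nonneg_left ?_ (by norm_num))
          (mul_le_mul_of_nonneg_left h3 (by positivity))
        calc τ * (τ * ex (H347.g1 κ) w (fun z => φ z * (m2 S M z * √(RKg m E x K σ S z))))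
            ≤ τ * (√(ex (H347.g1 κ) w (fun z => φ z * m2 S M z ^ 2)) *
              (τ * √(ex (H347.g1 κ) w (fun z => φ z * RKg m E x K σ S z)))) :=
              mul_le_mul_of_nonneg_left h6 hτ
          _ = (τ * √(ex (H347.g1 κ) w (fun z => φ z * m2 S M z ^ 2))) *
              (τ * √(ex (H347.g1 κ) w (fun z => φ z * RKg m E x K σ S z))) := by ring
          _ ≤ _ := mul_le_mul_of_nonneg_right h9 hB

end gm

end Vale.Agent.P146.H615
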