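import Vale.Agent.P146.H615.Gg

/-!
# P146: the linear Ghirlanda-Guerra hypotheses `hI2`, `hI2f` of `easm2`, for exchangeable sites

From `H646.Sites.w0_ip`, tested in the direction of `M`, and with the unit column.
-/

open MeasureTheory ProbabilityTheory

namespace Vale.Agent.P146.H615

open Vale.Agent.P146.H196 Vale.Agent.P146.H646

set_option linter.unusedSectionVars false

variable {κ s : Type} [Fintype κ] [DecidableEq κ] [Fintype s] [DecidableEq s]
variable {Ω : Type} [MeasurableSpace Ω] {m : Measure Ω} {x M0 : ℝ} {E : κ → Ω → ℝ}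
variable {σ : s → Ω → ℝ} {a : Ω → ℝ} {act : Equiv.Perm s → Equiv.Perm κ}
  {K : Finset s → Finset κ}

/-- the total of the squared two point functions, given frozen coordinates. -/
noncomputable def GGg (m : Measure Ω) (E : κ → Ω → ℝ) (x : ℝ) (K : Finset κ)
    (σ : s → Ω → ℝ) : ℝ :=
  ∑ j, ∑ l, ex (H347.g1 κ) (Zxm m 1 E x) (fun z =>
    cx (H347.g1 κ) K (Zxm m 1 E x) (avm m 1 E (fun w => σ j w * σ l w)) z ^ 2)

/-- the error of the linear identity, bonds. -/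
noncomputable def d0g (m : Measure Ω) (E : κ → Ω → ℝ) (x r0 A0 : ℝ) (K : Finset s → Finset κ)
    (S S1 : Finset s) (σ : s → Ω → ℝ) (a : Ω → ℝ) : ℝ :=
  √(8 * A0 ^ 2 * √(GGg m E x (K S1) σ) / (S1 \ S).card) +
    (1 - x) * √(∑ j ∈ S, ex (H347.g1 κ) (Zxm m 1 E x) (fun z =>
      cx (H347.g1 κ) (K S) (Zxm m 1 E x) (Va m 1 r0 E σ a σ j) z ^ 2))

/-- the error of the linear identity, own field. -/
noncomputable def d0f (m : Measure Ω) (E : κ → Ω → ℝ) (x r0 A0 : ℝ) (K : Finset s → Finset κ)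
    (S S1 : Finset s) (σ : s → Ω → ℝ) (a : Ω → ℝ) : ℝ :=
  √(8 * A0 ^ 2 / (S1 \ S).card) +
    (1 - x) * √(ex (H347.g1 κ) (Zxm m 1 E x) (fun z =>
      cx (H347.g1 κ) (K S) (Zxm m 1 E x) (Va m 1 r0 E σ a (fun _ _ => (1 : ℝ)) ()) z ^ 2))

section

variable (hG : GM m E M0) (h : Sites m E act σ a (fun π => π) σ) (hK : Rev act K)
  (hx0 : 0 ≤ x) (hx1 : x ≤ 1) {A0 : ℝ} (hA : ∀ w, |a w| ≤ A0) (hA0 : 0 ≤ A0) (r0 : ℝ)
  {S S1 : Finset s} (hS : S ⊆ S1) {i0 : s} (hi0 : i0 ∉ S) (hne : (S1 \ S).Nonempty)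
include hG h hK hx0 hx1 hA hA0 hS hi0 hne

/-- **the hypothesis `hI2` of `easm2`** -/
theorem hI2_sites (g : (κ → ℝ) → ℝ) (hg : Dep (K S) g) (hgb : BM g) :
    |ex (H347.g1 κ) (Zxm m 1 E x) (fun z => g z * ∑ j ∈ S, Mg m E x (K S) a σ j z *
        Th (avm m 1 E) x a (σ i0) σ j z) -
      (1 - (1 - x) * r0) * ex (H347.g1 κ) (Zxm m 1 E x)
        (fun z => g z * m2 S (Mg m E x (K S) a σ) z)| ≤
      d0g m E x r0 A0 K S S1 σ a *
        √(ex (H347.g1 κ) (Zxm m 1 E x) (fun z => g z ^ 2 * m2 S (Mg m E x (K S) a σ) z)) := by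
  have hw := H347.wt hG 1 x
  have hAv := av_gm hG 1
  have hσ : ∀ j, Bd (σ j) := h.bsig
  have ha : Bd a := h.bamp
  set w := Zxm m 1 E x with hwd
  set M := Mg m E x (K S) a σ with hMdef
  have hM : ∀ j, BM (M j) := bm_Mg hG x (K S) ha hσ
  have hMd : ∀ j, Dep (K S) (M j) := dep_Mg m E x (K S) a σ
  have bTh : ∀ j, BM (Th (avm m 1 E) x a (σ i0) σ j) := fun j =>
    bm_Th (M := M) hAv hσ hM ha (hσ i0) x j
  have bm2 : BM (m2 S M) := bm_m2 (S := S) hAv hσ hM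
  have h1 := h.w0_ip hG hK 1 hx0 hx1 hA hA0 r0 hS hi0 hne (T := S) (fun π hπ j hj => hπ j hj)
    (Q := fun j z => g z * M j z) (fun j => hgb.mul (hM j))
  have e1 : ∑ j ∈ S, ex (H347.g1 κ) w (fun z =>
        (cx (H347.g1 κ) (K S) w (H646.Th m 1 x E σ a σ i0 j) z
          - (1 - (1 - x) * r0) * cx (H347.g1 κ) (K S) w
              (avm m 1 E (fun w => a w * σ j w)) z) * (g z * M j z)) =
      ex (H347.g1 κ) w (fun z => g z * ∑ j ∈ S, M j z * Th (avm m 1 E) x a (σ i0) σ j z) -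
      (1 - (1 - x) * r0) * ex (H347.g1 κ) w (fun z => g z * m2 S M z) := by
    have f1 : (fun z => g z * ∑ j ∈ S, M j z * Th (avm m 1 E) x a (σ i0) σ j z) =
        fun z => ∑ j ∈ S, (g z * M j z) * Th (avm m 1 E) x a (σ i0) σ j z := by
      funext z
      rw [Finset.mul_sum]
      exact Finset.sum_congr rfl fun j _ => by ring
    have f2 : (fun z => g z * m2 S M z) = fun z => ∑ j ∈ S, (g z * M j z) * M j z := by
      funext z
      unfold m2
      rw [Finset.mul_sum]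
      exact Finset.sum_congr rfl fun j _ => by ring
    rw [f1, f2, ex_sum hw S (fun j _ => (hgb.mul (hM j)).mul (bTh j)),
      ex_sum hw S (fun j _ => (hgb.mul (hM j)).mul (hM j)), Finset.mul_sum,
      ← Finset.sum_sub_distrib]
    refine Finset.sum_congr rfl fun j _ => ?_
    rw [ex_mul_cx hw (Dep.mul hg (hMd j)) (hgb.mul (hM j)) (bTh j), ← ex_cmul,
      ← ex_sub hw ((hgb.mul (hM j)).mul (hw.bm_cx _ (bTh j)))
        (bcm _ ((hgb.mul (hM j)).mul (hM j)))]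
    congr 1
    funext z
    show (cx (H347.g1 κ) (K S) w (Th (avm m 1 E) x a (σ i0) σ j) z
      - (1 - (1 - x) * r0) * M j z) * (g z * M j z) = _
    ring
  have e2 : ∑ j ∈ S, ex (H347.g1 κ) w (fun z => (g z * M j z) ^ 2) =
      ex (H347.g1 κ) w (fun z => g z ^ 2 * m2 S M z) := by
    rw [← ex_sum hw S (fun j _ => bsq (hgb.mul (hM j)))]
    congr 1
    funext z
    unfold m2
    rw [Finset.mul_sum]
    exact Finset.sum_congr rfl fun j _ => by ring
  rw [e1, e2] at h1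
  exact h1

/-- **the hypothesis `hI2f` of `easm2`** -/
theorem hI2f_sites {η : ℝ} (hη : 0 ≤ η) (haη : ∀ ω, |a ω - 1| ≤ η) (hk : 0 ≤ 1 - (1 - x) * r0)
    (g : (κ → ℝ) → ℝ) (hg : Dep (K S) g) (hgb : BM g) :
    |ex (H347.g1 κ) (Zxm m 1 E x) (fun z => g z * Tf (avm m 1 E) x a (σ i0) z) -
      (1 - (1 - x) * r0) * ex (H347.g1 κ) (Zxm m 1 E x) g| ≤
      (d0f m E x r0 A0 K S S1 σ a + (1 - (1 - x) * r0) * η) *
        √(ex (H347.g1 κ) (Zxm m 1 E x) (fun z => g z ^ 2)) := by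
  have hw := H347.wt hG 1 x
  have hAv := av_gm hG 1
  have hσ : ∀ j, Bd (σ j) := h.bsig
  have ha : Bd a := h.bamp
  set w := Zxm m 1 E x with hwd
  have bTf : BM (Tf (avm m 1 E) x a (σ i0)) := bm_Tf hAv ha (hσ i0) x
  have baa : BM (avm m 1 E a) := hAv.bm ha
  have h1 := h.unit.w0_ip hG hK 1 hx0 hx1 hA hA0 r0 hS hi0 hne (T := Finset.univ)
    (fun π hπ j hj => rfl) (Q := fun _ z => g z) (fun _ => hgb)
  have c1 : (fun w => a w * (1 : ℝ)) = a := by funext w; ring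
  have c2 : (fun w => σ i0 w * (1 : ℝ)) = σ i0 := by funext w; ring
  have e0 : H646.Th m 1 x E σ a (fun _ _ => (1 : ℝ)) i0 () = Tf (avm m 1 E) x a (σ i0) := by
    funext z
    unfold H646.Th Tf
    rw [c1, c2]
  have e3 : ∑ j : Unit, ∑ l : Unit, ex (H347.g1 κ) w (fun z =>
      cx (H347.g1 κ) (K S1) w (avm m 1 E (fun _ => (1 : ℝ) * 1)) z ^ 2) = 1 := by
    have e4 : (avm m 1 E fun _ => (1 : ℝ) * 1) = fun _ => 1 := by
      funext z
      rw [one_mul]
      exact hG.av_const 1 1 z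
    simp only [Finset.univ_unique, Finset.sum_singleton, e4]
    have e5 : (fun z => cx (H347.g1 κ) (K S1) w (fun _ => (1 : ℝ)) z ^ 2) = fun _ => 1 := by
      funext z
      rw [cx_one hw, one_pow]
    rw [e5]
    exact ex_const hw 1
  rw [e3, Real.sqrt_one, mul_one] at h1
  simp only [Finset.univ_unique, Finset.sum_singleton, c1] at h1
  have h2 : |ex (H347.g1 κ) w (fun z => g z * Tf (avm m 1 E) x a (σ i0) z) -
      (1 - (1 - x) * r0) * ex (H347.g1 κ) w (fun z => g z * avm m 1 E a z)| ≤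
      d0f m E x r0 A0 K S S1 σ a * √(ex (H347.g1 κ) w (fun z => g z ^ 2)) := by
    have e6 : ex (H347.g1 κ) w (fun z => g z * Tf (avm m 1 E) x a (σ i0) z) -
      (1 - (1 - x) * r0) * ex (H347.g1 κ) w (fun z => g z * avm m 1 E a z) =
      ex (H347.g1 κ) w (fun z => (cx (H347.g1 κ) (K S) w
        (H646.Th m 1 x E σ a (fun _ _ => (1 : ℝ)) i0 ()) z -
        (1 - (1 - x) * r0) * cx (H347.g1 κ) (K S) w (avm m 1 E a) z) * g z) := by
      rw [e0, ex_mul_cx hw hg hgb bTf, ex_mul_cx hw hg hgb baa, ← ex_cmul,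
        ← ex_sub hw (hgb.mul (hw.bm_cx _ bTf)) (bcm _ (hgb.mul (hw.bm_cx _ baa)))]
      congr 1
      funext z
      ring
    rw [e6]
    exact h1
  have h3 : |ex (H347.g1 κ) w (fun z => g z * avm m 1 E a z) - ex (H347.g1 κ) w g| ≤
      η * √(ex (H347.g1 κ) w (fun z => g z ^ 2)) := by
    rw [← ex_sub hw (hgb.mul baa) hgb]
    have e7 : (fun z => g z * avm m 1 E a z - g z) = fun z => g z * (avm m 1 E a z - 1) := by
      funext z; ring
    rw [e7]
    have h4 := abs_ex_mul_le hw hgb (baa.sub (BM.const 1))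
    refine h4.trans ?_
    rw [mul_comm]
    refine mul_le_mul_of_nonneg_right ?_ (Real.sqrt_nonneg _)
    rw [Real.sqrt_le_left hη]
    calc ex (H347.g1 κ) w (fun z => (avm m 1 E a z - 1) ^ 2)
        ≤ ex (H347.g1 κ) w (fun _ => η ^ 2) := by
          refine ex_mono hw (bsq (baa.sub (BM.const 1))) (BM.const _) fun z => ?_
          rw [← sq_abs]
          exact pow_le_pow_left₀ (abs_nonneg _) (abs_a1 hAv ha haη z) 2
      _ = η ^ 2 := ex_const hw _
  have e8 : ex (H347.g1 κ) w (fun z => g z * Tf (avm m 1 E) x a (σ i0) z) -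
      (1 - (1 - x) * r0) * ex (H347.g1 κ) w g =
      (ex (H347.g1 κ) w (fun z => g z * Tf (avm m 1 E) x a (σ i0) z) -
      (1 - (1 - x) * r0) * ex (H347.g1 κ) w (fun z => g z * avm m 1 E a z)) +
      (1 - (1 - x) * r0) * (ex (H347.g1 κ) w (fun z => g z * avm m 1 E a z) -
        ex (H347.g1 κ) w g) := by ring
  rw [e8, add_mul]
  refine (abs_add_le _ _).trans (add_le_add h2 ?_)
  rw [abs_mul, abs_of_nonneg hk, mul_assoc]
  exact mul_le_mul_of_nonneg_left h3 hk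

end

end Vale.Agent.P146.H615
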