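import Vale.Agent.P146.H615.Gg2
import Vale.Agent.P146.H347.Mod4
import Vale.Agent.P146.H646.VaB

/-!
# P146: the tested row equation for the modulated SK system

Coordinates `Co n LB LF`, revealed sets `Kset S BL FL` (`H347`), thermal amplitude `al η t`, measure
`muA (Xs n) lam η c` with `c = s^2 n (1 - (1-x) r0)`.
-/

open MeasureTheory ProbabilityTheory

namespace Vale.Agent.P146.H615

open Vale.Agent.P146.H196 Vale.Agent.P146.H646 Vale.Agent.P146.H347 Vale.Agent.P146.H475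
  Vale.Agent.P157.Lv Vale.Agent.P146.H816 Vale.Agent.P146.H325

set_option linter.unusedSectionVars false

variable {n : ℕ} {LB LF : Type} [Fintype LB] [DecidableEq LB] [Fintype LF] [DecidableEq LF]
variable (b : ℝ) (cB : LB → ℝ) (cF : LF → ℝ) (s η lam c x r0 : ℝ)

/-- the spin at `j` -/
abbrev spw (n : ℕ) (j : Fin n) : ℝ × Xs n → ℝ := fun w => sp w.2 j

/-- the amplitude -/
noncomputable abbrev alw (n : ℕ) (η : ℝ) : ℝ × Xs n → ℝ := fun w => al η w.1

/-- the probability that the amplitude is stuck -/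
noncomputable def insE : ℝ :=
  ex (g1 (Co n LB LF)) (Zxm (muA (Xs n) lam η c) 1 (Sm b cB cF s η) x)
    (avm (muA (Xs n) lam η c) 1 (Sm b cB cF s η) fun p => 1 - ins η p.1)

lemma bd_spw (j : Fin n) : Bd (spw n j) := bm_sp j

lemma bd_alw {η : ℝ} (hη : 0 ≤ η) : Bd (alw n η) := bm_of_al hη

lemma alw_sub {η : ℝ} (hη : 0 ≤ η) (w : ℝ × Xs n) : |alw n η w - 1| ≤ η := by
  have := al_mem hη w.1
  rw [abs_le]
  constructor <;> linarith [this.1, this.2]

lemma alw_abs {η : ℝ} (hη : 0 ≤ η) (w : ℝ × Xs n) : |alw n η w| ≤ 1 + η := by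
  have := al_mem hη w.1
  rw [abs_le]
  constructor <;> linarith [this.1, this.2]

lemma sp_sq (σ : Xs n) (j : Fin n) : sp σ j ^ 2 = 1 := by rw [sq]; exact sp_mul_self σ j

variable {b cB cF s η lam c x r0}

section

variable (hl : 0 < lam) (hη : 0 ≤ η) (hs : s ≠ 0) (hx : x < 1) (hn : 0 < n)
  (hc : c = s ^ 2 * n * (1 - (1 - x) * r0))
include hl hη hs hx hn hc

/-- the defect of the linear identity, bonds -/
lemma Va_bond (S : Finset (Fin n)) (BL : Finset LB) (FL : Finset LF) :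
    ∑ j ∈ S, ex (g1 (Co n LB LF)) (Zxm (muA (Xs n) lam η c) 1 (Sm b cB cF s η) x) (fun z =>
        cx (g1 (Co n LB LF)) (Kset S BL FL) (Zxm (muA (Xs n) lam η c) 1 (Sm b cB cF s η) x)
          (Va (muA (Xs n) lam η c) 1 r0 (Sm b cB cF s η) (spw n) (alw n η) (spw n) j) z ^ 2) ≤
      2 * (lam / ((1 - x) * (s ^ 2 * n))) ^ 2 *
          √(GGg (muA (Xs n) lam η c) (Sm b cB cF s η) x (Kset S BL FL) (spw n)) +
        2 * (n * ((|r0| + 1) * (1 + η)) ^ 2 * insE (n := n) b cB cF s η lam c x) := by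
  have := msx n
  have : Nonempty (Fin n) := ⟨⟨0, hn⟩⟩
  have h1 := Va_l2 (J := Fin n) (τ0 := fun j σ => sp σ j) (r0 := r0) (c := c) (x := x) hl hη
    (abA b cB cF s η hη) (fun j σ => sp_sq σ j) hs hx (K := Kset S BL FL)
    (fun j => gd_memK j) (by rw [hc, Fintype.card_fin]) (fun j p => (abs_sp p j).le)
  simp only [Fintype.card_fin] at h1
  refine le_trans ?_ h1
  refine Finset.sum_le_sum_of_subset_of_nonneg (Finset.subset_univ S) fun j _ _ => ?_
  exact ex_nonneg (wtA b cB cF s hl hη c x) fun z => sq_nonneg _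

/-- the defect of the linear identity, own field -/
lemma Va_field (S : Finset (Fin n)) (BL : Finset LB) (FL : Finset LF) :
    ex (g1 (Co n LB LF)) (Zxm (muA (Xs n) lam η c) 1 (Sm b cB cF s η) x) (fun z =>
        cx (g1 (Co n LB LF)) (Kset S BL FL) (Zxm (muA (Xs n) lam η c) 1 (Sm b cB cF s η) x)
          (Va (muA (Xs n) lam η c) 1 r0 (Sm b cB cF s η) (spw n) (alw n η)
            (fun _ _ => (1 : ℝ)) ()) z ^ 2) ≤
      2 * (lam / ((1 - x) * (s ^ 2 * n))) ^ 2 +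
        2 * (((|r0| + 1) * (1 + η)) ^ 2 * insE (n := n) b cB cF s η lam c x) := by
  have := msx n
  have : Nonempty (Fin n) := ⟨⟨0, hn⟩⟩
  have hw := wtA (n := n) b cB cF s hl hη c x
  have hG := gmA (n := n) b cB cF s hl hη c
  have h1 := Va_l2 (J := Unit) (τ0 := fun _ _ => (1 : ℝ)) (r0 := r0) (c := c) (x := x) hl hη
    (abA b cB cF s η hη) (fun j σ => sp_sq σ j) hs hx (K := Kset S BL FL)
    (fun j => gd_memK j) (by rw [hc, Fintype.card_fin]) (fun j p => by simp)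
  have e4 : (avm (muA (Xs n) lam η c) 1 (Sm b cB cF s η) fun _ => (1 : ℝ) * 1) = fun _ => 1 := by
    funext z
    rw [one_mul]
    exact hG.av_const 1 1 z
  have e5 : (fun z => cx (g1 (Co n LB LF)) (Kset S BL FL)
      (Zxm (muA (Xs n) lam η c) 1 (Sm b cB cF s η) x) (fun _ => (1 : ℝ)) z ^ 2) = fun _ => 1 := by
    funext z
    rw [cx_one hw, one_pow]
  simp only [Fintype.card_fin, Finset.univ_unique, Finset.sum_singleton, e4] at h1
  rw [e5, ex_const hw 1, Real.sqrt_one, mul_one] at h1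
  simp only [Fintype.card_unit, Nat.cast_one, one_mul] at h1
  exact h1

end

/-- the error of the linear identity, bonds, model values -/
noncomputable def D0 (n : ℕ) (lam s η x r0 k G1 G0 ε1 : ℝ) : ℝ :=
  √(8 * (1 + η) ^ 2 * √G1 / k) +
    √(2 * (lam / ((1 - x) * (s ^ 2 * n))) ^ 2 * √G0 +
      2 * (n * ((|r0| + 1) * (1 + η)) ^ 2 * ε1))

/-- the error of the linear identity, own field, model values -/
noncomputable def D0f (n : ℕ) (lam s η x r0 k ε1 : ℝ) : ℝ :=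
  √(8 * (1 + η) ^ 2 / k) +
    √(2 * (lam / ((1 - x) * (s ^ 2 * n))) ^ 2 + 2 * (((|r0| + 1) * (1 + η)) ^ 2 * ε1)) +
    (1 - (1 - x) * r0) * η

section

variable (hl : 0 < lam) (hη : 0 ≤ η) (hη1 : η ≤ 1) (hs : s ≠ 0) (hx0 : 0 ≤ x) (hx : x < 1)
  (hn : 0 < n) (hc : c = s ^ 2 * n * (1 - (1 - x) * r0))
include hl hη hη1 hs hx0 hx hn hc

/-- **`hI2` at the model** -/
theorem hI2_model (BL : Finset LB) (FL : Finset LF) {S S1 : Finset (Fin n)} (hS : S ⊆ S1)
    {i0 : Fin n} (hi0 : i0 ∉ S) (hne : (S1 \ S).Nonempty)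
    (g : (Co n LB LF → ℝ) → ℝ) (hg : Dep (Kset S BL FL) g) (hgb : BM g) :
    |ex (g1 (Co n LB LF)) (Zxm (muA (Xs n) lam η c) 1 (Sm b cB cF s η) x)
        (fun z => g z * ∑ j ∈ S, Mg (muA (Xs n) lam η c) (Sm b cB cF s η) x (Kset S BL FL)
          (alw n η) (spw n) j z *
        Th (avm (muA (Xs n) lam η c) 1 (Sm b cB cF s η)) x (alw n η) (spw n i0) (spw n) j z) -
      (1 - (1 - x) * r0) *
        ex (g1 (Co n LB LF)) (Zxm (muA (Xs n) lam η c) 1 (Sm b cB cF s η) x)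
        (fun z => g z * m2 S (Mg (muA (Xs n) lam η c) (Sm b cB cF s η) x (Kset S BL FL)
          (alw n η) (spw n)) z)| ≤
      D0 n lam s η x r0 (S1 \ S).card
        (GGg (muA (Xs n) lam η c) (Sm b cB cF s η) x (Kset S1 BL FL) (spw n))
        (GGg (muA (Xs n) lam η c) (Sm b cB cF s η) x (Kset S BL FL) (spw n))
        (insE (n := n) b cB cF s η lam c x) *
      √(ex (g1 (Co n LB LF)) (Zxm (muA (Xs n) lam η c) 1 (Sm b cB cF s η) x)
        (fun z => g z ^ 2 * m2 S (Mg (muA (Xs n) lam η c) (Sm b cB cF s η) x (Kset S BL FL)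
          (alw n η) (spw n)) z)) := by
  have h1 := hI2_sites (K := fun S => Kset S BL FL) (gmA (n := n) b cB cF s hl hη c)
    (sitesA b cB cF s hl hη c) (revK BL FL)
    hx0 hx.le (alw_abs hη) (by linarith) r0 hS hi0 hne g hg hgb
  refine h1.trans (mul_le_mul_of_nonneg_right ?_ (Real.sqrt_nonneg _))
  unfold d0g D0
  refine add_le_add le_rfl ?_
  have h2 := Real.sqrt_le_sqrt (Va_bond (b := b) (cB := cB) (cF := cF) hl hη hs hx hn hc S BL FL)
  calc (1 - x) * _ ≤ 1 * _ := mul_le_mul_of_nonneg_right (by linarith) (Real.sqrt_nonneg _)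
    _ ≤ _ := by rw [one_mul]; exact h2

/-- **`hI2f` at the model** -/
theorem hI2f_model (BL : Finset LB) (FL : Finset LF) {S S1 : Finset (Fin n)} (hS : S ⊆ S1)
    {i0 : Fin n} (hi0 : i0 ∉ S) (hne : (S1 \ S).Nonempty) (hk : 0 ≤ 1 - (1 - x) * r0)
    (g : (Co n LB LF → ℝ) → ℝ) (hg : Dep (Kset S BL FL) g) (hgb : BM g) :
    |ex (g1 (Co n LB LF)) (Zxm (muA (Xs n) lam η c) 1 (Sm b cB cF s η) x)
        (fun z => g z * Tf (avm (muA (Xs n) lam η c) 1 (Sm b cB cF s η)) x (alw n η)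
          (spw n i0) z) -
      (1 - (1 - x) * r0) *
        ex (g1 (Co n LB LF)) (Zxm (muA (Xs n) lam η c) 1 (Sm b cB cF s η) x) g| ≤
      D0f n lam s η x r0 (S1 \ S).card (insE (n := n) b cB cF s η lam c x) *
      √(ex (g1 (Co n LB LF)) (Zxm (muA (Xs n) lam η c) 1 (Sm b cB cF s η) x)
        (fun z => g z ^ 2)) := by
  have h1 := hI2f_sites (K := fun S => Kset S BL FL) (gmA (n := n) b cB cF s hl hη c)
    (sitesA b cB cF s hl hη c) (revK BL FL)
    hx0 hx.le (alw_abs hη) (by linarith) r0 hS hi0 hne hη (alw_sub hη) hk g hg hgb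
  refine h1.trans (mul_le_mul_of_nonneg_right ?_ (Real.sqrt_nonneg _))
  unfold d0f D0f
  refine add_le_add (add_le_add le_rfl ?_) le_rfl
  have h2 := Real.sqrt_le_sqrt (Va_field (b := b) (cB := cB) (cF := cF) hl hη hs hx hn hc S BL FL)
  calc (1 - x) * _ ≤ 1 * _ := mul_le_mul_of_nonneg_right (by linarith) (Real.sqrt_nonneg _)
    _ ≤ _ := by rw [one_mul]; exact h2

end

end Vale.Agent.P146.H615
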