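import Vale.Agent.P146.H615.RowUp2

/-!
# P146: the scalar half of the second regime in the ensemble `U`

`qrow_pure`: the right side of `H118.reg2_c` with the sizes of a point of the window; the overlap is
at most `n^(q/4) V / T`.
-/

open MeasureTheory ProbabilityTheory Filter Set

namespace Vale.Agent.P146.H615

open Vale.Agent.P146.H317 Vale.Agent.P146.H529 Vale.Agent.P146.H470 Vale.Agent.P146.H418

set_option linter.unusedSectionVars false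

section qrow

variable {a0 b₁ q A b : ℝ} {n : ℕ} {y V al s lam η T : ℝ}

/-- the window of `T` -/
lemma logT4 (h : NW a0 b₁ q A b n y V al s lam η) (hT : (n : ℝ) ^ (30 * q) * y ^ 2 / 4 ≤ T) :
    0 < T ∧ 30 * q * Real.log n + 2 * Real.log y - 4 ≤ Real.log T := by
  have hn := h.env.n0
  have hy := h.env.y0
  have hT0 : 0 < T := lt_of_lt_of_le (by positivity) hT
  have h1 := Real.log_le_log (by positivity) hT
  simp (disch := positivity) only [Real.log_mul, Real.log_rpow, Real.log_pow, Real.log_div] at h1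
  push_cast at h1
  have c4 := log_c 4 (by norm_num)
  exact ⟨hT0, by linarith⟩

lemma lgU (hn : (0 : ℝ) < n) (hy : 0 < y) (hT0 : 0 < T) :
    Real.log (Uq q n y T) = q * Real.log n + 2 * Real.log y - Real.log T / 2 := by
  unfold Uq
  rw [Real.log_div (by positivity) (by positivity), Real.log_mul (by positivity) (by positivity),
    Real.log_rpow hn, Real.log_pow, Real.log_sqrt hT0.le]
  push_cast
  ring

/-- the logarithms at a point of the second regime -/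
lemma NW.f2 (h : NW a0 b₁ q A b n y V al s lam η) (hT : (n : ℝ) ^ (30 * q) * y ^ 2 / 4 ≤ T)
    (hT1 : T ≤ 1) :
    0 < q * Real.log n ∧ 100000 ≤ q / 100 * Real.log n ∧ |Real.log b| ≤ q / 1000 * Real.log n ∧
      (-(1 / 6) + 1000 * q) * Real.log n - q / 100 * Real.log n ≤ Real.log y ∧
      Real.log y ≤ -(100 * q) * Real.log n + q / 100 * Real.log n ∧
      -(24 * q) * Real.log n + 3 * Real.log y - q / 100 * Real.log n ≤ Real.log V ∧
      Real.log V ≤ -(24 * q) * Real.log n + 3 * Real.log y + q / 100 * Real.log n ∧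
      Real.log η ≤ -(2000 * q) * Real.log n ∧
      0 < Uq q n y T ∧
      Real.log (Uq q n y T) ≤ -(14 * q) * Real.log n + Real.log y + 2 ∧
      q * Real.log n + 2 * Real.log y ≤ Real.log (Uq q n y T) ∧ 0 < Real.log n := by
  obtain ⟨f1, f2, f3, f4, f5, f6, f7, f8, f9, f10, f11, f12, f13, f14⟩ := h.facts
  obtain ⟨hT0, t1⟩ := logT4 h hT
  have hn := h.env.n0
  have hy := h.env.y0
  have hL := h.env.L1
  have e := lgU (q := q) hn hy hT0
  have t2 := Real.log_nonpos hT0.le hT1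
  have hU := Uq_pos (q := q) hn hy hT0
  refine ⟨f1, f2, abs_le.2 ⟨by linarith, f3⟩, f7, f8, f9, f10, f12, hU, ?_, ?_, by linarith⟩
  · rw [e]
    linarith
  · rw [e]
    linarith

/-- the mass term from below -/
lemma NW.mass4 (h : NW a0 b₁ q A b n y V al s lam η) (hT : (n : ℝ) ^ (30 * q) * y ^ 2 / 4 ≤ T)
    (hT1 : T ≤ 1) {r : ℝ} (hr : 1 ≤ r) : T / 2 ≤ r - (1 + al) ^ 2 * (1 - T) := by
  obtain ⟨f1, f2, f3, f4, f5, f6, f7, f8, f9, f10, f11, f12⟩ := h.f2 hT hT1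
  obtain ⟨hT0, t1⟩ := logT4 h hT
  have hn := h.env.n0
  have hy := h.env.y0
  have h1 := h.al_abs
  have h2 := abs_le.1 h.al_small
  have h3 : 6 * ((n : ℝ) ^ (25 * q) * y ^ 2) ≤ T := by
    have c6 := log_c 6 (by norm_num)
    refine le_of_log (by positivity) hT0 ?_
    simp (disch := positivity) only [Real.log_mul, Real.log_rpow, Real.log_pow]
    push_cast
    linarith
  have h4 : 6 * |al| ≤ T := by linarith
  have h5 := abs_le.1 (le_refl |al|)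
  have h6 : 0 ≤ 1 - T := by linarith
  have h7 : (1 + al) ^ 2 ≤ 1 + 3 * |al| := by
    have h8 : |al| ≤ 1 / 1000 := h.al_small
    have h9 : al ^ 2 = |al| ^ 2 := (sq_abs al).symm
    have h10 : |al| ^ 2 ≤ |al| * 1 := by
      rw [sq]
      exact mul_le_mul_of_nonneg_left (by linarith) (abs_nonneg _)
    nlinarith [le_abs_self al]
  have h8 : (1 + al) ^ 2 * (1 - T) ≤ (1 + 3 * |al|) * (1 - T) :=
    mul_le_mul_of_nonneg_right h7 h6
  have h9 : (1 + 3 * |al|) * (1 - T) ≤ 1 - T + 3 * |al| := by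
    have : 0 ≤ 3 * |al| * T := by positivity
    nlinarith
  linarith

/-- the cubic number -/
lemma NW.nl4 (h : NW a0 b₁ q A b n y V al s lam η) (hT : (n : ℝ) ^ (30 * q) * y ^ 2 / 4 ≤ T)
    (hT1 : T ≤ 1) {wF : ℝ} (hw0 : 0 ≤ wF) (hw : wF ≤ 3 * V) :
    6000000 * (1 + η) ^ 2 * (Uq q n y T * (2 * b ^ 4 * (1 - T) ^ 2 * Uq q n y T ^ 2 +
      2 * wF ^ 2) + (8 * b ^ 8 * (1 - T) ^ 4 * Uq q n y T ^ 4 + 8 * wF ^ 4) / Uq q n y T) ≤
      V := by
  obtain ⟨f1, f2, f3, f4, f5, f6, f7, f8, f9, f10, f11, f12⟩ := h.f2 hT hT1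
  obtain ⟨k1, k2, k3, k4, k5, k6, k7, k8⟩ := h.bd
  obtain ⟨hT0, t1⟩ := logT4 h hT
  obtain ⟨b1, b2, b3⟩ := h.b_le
  have hn := h.env.n0
  have hy := h.env.y0
  have hV := h.env.V0
  have hb := h.b0
  have hη := h.kw.η0
  set U := Uq q n y T with hU
  have hU1 : U ≤ 1 := by
    refine le_of_log f9 one_pos ?_
    rw [Real.log_one]
    linarith
  have hVU : 3 * V ≤ U := by
    have c3 := log_c 3 (by norm_num)
    refine le_of_log (by positivity) f9 ?_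
    rw [Real.log_mul (by norm_num) hV.ne']
    linarith
  have hwU : wF ≤ U := hw.trans hVU
  have x1 : (n : ℝ) ^ (q / 5) * U ^ 3 ≤ V / 2 := by
    have c2 := log_c 2 (by norm_num)
    refine le_of_log (by positivity) (by positivity) ?_
    simp (disch := positivity) only [Real.log_mul, Real.log_rpow, Real.log_pow, Real.log_div]
    push_cast
    linarith
  have x2 : 200000000 * V ≤ 1 / 2 := by
    have c2 := log_c 2 (by norm_num)
    have c9 := log_ten 9 (c := 200000000) (by norm_num) (by norm_num)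
    push_cast at c9
    refine le_of_log (by positivity) (by positivity) ?_
    simp (disch := positivity) only [Real.log_mul, Real.log_div, Real.log_one]
    linarith
  have hη2 : 6000000 * (1 + η) ^ 2 ≤ 7000000 := by
    have : (1 + η) ^ 2 ≤ (1 + 1 / 1000) ^ 2 := pow_le_pow_left₀ (by linarith) (by linarith) 2
    linarith
  have ht0 : 0 ≤ 1 - T := by linarith
  have ht2 : (1 - T) ^ 2 ≤ 1 := pow_le_one₀ ht0 (by linarith)
  have ht4 : (1 - T) ^ 4 ≤ 1 := pow_le_one₀ ht0 (by linarith)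
  have y1 : U * (2 * b ^ 4 * (1 - T) ^ 2 * U ^ 2 + 2 * wF ^ 2) ≤ 2 * b ^ 4 * U ^ 3 + 18 * V ^ 2 := by
    have z1 : 2 * b ^ 4 * (1 - T) ^ 2 * U ^ 2 ≤ 2 * b ^ 4 * 1 * U ^ 2 := by gcongr
    have z2 : wF ^ 2 ≤ (3 * V) ^ 2 := pow_le_pow_left₀ hw0 hw 2
    have z3 : U * (2 * wF ^ 2) ≤ 1 * (2 * (3 * V) ^ 2) := by gcongr
    have z4 : U * (2 * b ^ 4 * (1 - T) ^ 2 * U ^ 2) ≤ U * (2 * b ^ 4 * 1 * U ^ 2) :=
      mul_le_mul_of_nonneg_left z1 f9.le
    have e1 : U * (2 * b ^ 4 * 1 * U ^ 2) = 2 * b ^ 4 * U ^ 3 := by ring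
    rw [mul_add]
    linarith
  have y2 : (8 * b ^ 8 * (1 - T) ^ 4 * U ^ 4 + 8 * wF ^ 4) / U ≤
      8 * b ^ 8 * U ^ 3 + 8 * V ^ 2 := by
    rw [div_le_iff₀ f9]
    have z1 : 8 * b ^ 8 * (1 - T) ^ 4 * U ^ 4 ≤ 8 * b ^ 8 * 1 * U ^ 4 := by gcongr
    have z2 : wF ^ 4 ≤ V ^ 2 * U := by
      have z3 : wF ^ 3 ≤ (3 * V) ^ 3 := pow_le_pow_left₀ hw0 hw 3
      calc wF ^ 4 = wF ^ 3 * wF := by ring
        _ ≤ (3 * V) ^ 3 * U := mul_le_mul z3 hwU hw0 (by positivity)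
        _ = V ^ 2 * (27 * V) * U := by ring
        _ ≤ V ^ 2 * 1 * U := by gcongr; linarith
        _ = V ^ 2 * U := by ring
    have e1 : (8 * b ^ 8 * U ^ 3 + 8 * V ^ 2) * U = 8 * b ^ 8 * 1 * U ^ 4 + 8 * (V ^ 2 * U) := by
      ring
    rw [e1]
    linarith
  have y3 : 0 ≤ U * (2 * b ^ 4 * (1 - T) ^ 2 * U ^ 2 + 2 * wF ^ 2) +
      (8 * b ^ 8 * (1 - T) ^ 4 * U ^ 4 + 8 * wF ^ 4) / U := by positivity
  have hU3 : 0 < U ^ 3 := by positivity
  have y4 : 7000000 * ((2 * b ^ 4 + 8 * b ^ 8) * U ^ 3) ≤ V / 2 := by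
    have z1 : (2 * b ^ 4 + 8 * b ^ 8) * U ^ 3 ≤ (n : ℝ) ^ (q / 10) * U ^ 3 :=
      mul_le_mul_of_nonneg_right b1 hU3.le
    have z2 : 7000000 * (n : ℝ) ^ (q / 10) * U ^ 3 ≤ (n : ℝ) ^ (q / 5) * U ^ 3 :=
      mul_le_mul_of_nonneg_right b3 hU3.le
    linarith
  have y5 : 7000000 * (26 * V ^ 2) ≤ V / 2 := by
    have z1 : 200000000 * V * V ≤ 1 / 2 * V := mul_le_mul_of_nonneg_right x2 hV.le
    nlinarith
  calc 6000000 * (1 + η) ^ 2 * (U * (2 * b ^ 4 * (1 - T) ^ 2 * U ^ 2 + 2 * wF ^ 2) +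
        (8 * b ^ 8 * (1 - T) ^ 4 * U ^ 4 + 8 * wF ^ 4) / U) ≤
        7000000 * (U * (2 * b ^ 4 * (1 - T) ^ 2 * U ^ 2 + 2 * wF ^ 2) +
        (8 * b ^ 8 * (1 - T) ^ 4 * U ^ 4 + 8 * wF ^ 4) / U) :=
        mul_le_mul_of_nonneg_right hη2 y3
    _ ≤ 7000000 * ((2 * b ^ 4 * U ^ 3 + 18 * V ^ 2) + (8 * b ^ 8 * U ^ 3 + 8 * V ^ 2)) :=
        mul_le_mul_of_nonneg_left (add_le_add y1 y2) (by norm_num)
    _ = 7000000 * ((2 * b ^ 4 + 8 * b ^ 8) * U ^ 3) + 7000000 * (26 * V ^ 2) := by ring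
    _ ≤ V := by linarith

/-- the hidden sites: `U / sc` and `U / √sc` -/
lemma NW.sc4 (h : NW a0 b₁ q A b n y V al s lam η) (hT : (n : ℝ) ^ (30 * q) * y ^ 2 / 4 ≤ T)
    (hT1 : T ≤ 1) {sc : ℝ} (hsc : (n : ℝ) ^ (1 - 110 * q) * y ^ 2 / 8 ≤ sc) :
    0 < sc ∧ 100 * b ^ 2 * (Uq q n y T / sc) ≤ V ∧ 24 * b * (Uq q n y T / √sc) ≤ V / 4 := by
  obtain ⟨f1, f2, f3, f4, f5, f6, f7, f8, f9, f10, f11, f12⟩ := h.f2 hT hT1
  have hn := h.env.n0
  have hy := h.env.y0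
  have hV := h.env.V0
  have hb := h.b0
  have f3' := (abs_le.1 f3).2
  have hsc0 : 0 < sc := lt_of_lt_of_le (by positivity) hsc
  have h1 := Real.log_le_log (by positivity) hsc
  simp (disch := positivity) only [Real.log_mul, Real.log_rpow, Real.log_pow, Real.log_div] at h1
  push_cast at h1
  have c8 := log_c 8 (by norm_num)
  have c4 := log_c 4 (by norm_num)
  have c24 := log_c 24 (by norm_num)
  have c100 := log_c 100 (by norm_num)
  set U := Uq q n y T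
  refine ⟨hsc0, ?_, ?_⟩
  · refine le_of_log (by positivity) hV ?_
    simp (disch := positivity) only [Real.log_mul, Real.log_pow, Real.log_div]
    push_cast
    linarith
  · refine le_of_log (by positivity) (by positivity) ?_
    simp (disch := positivity) only [Real.log_mul, Real.log_div, Real.log_sqrt]
    linarith

/-- the small numbers -/
lemma NW.sm4 (h : NW a0 b₁ q A b n y V al s lam η) (hT : (n : ℝ) ^ (30 * q) * y ^ 2 / 4 ≤ T)
    (hT1 : T ≤ 1) :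
    48 * b ^ 2 * ((n : ℝ) ^ (-(3800 * q)) * y ^ 2) ^ 2 ≤ V / 8 ∧
      200 * b ^ 2 * (n : ℝ) ^ (2 * q - 10) ≤ V / 8 ∧
      96 * b ^ 2 * (Uq q n y T / (V * n)) ≤ V / 8 ∧ 48 * b ^ 2 * (n : ℝ) ^ (q - 5) ≤ V / 8 ∧
      8 * b * ((n : ℝ) ^ (-(3800 * q)) * y ^ 2 * Uq q n y T) ≤ V / 4 ∧
      32 * b * (n : ℝ) ^ (q - 5) ≤ V / 4 ∧
      4 ≤ V * n := by
  obtain ⟨f1, f2, f3, f4, f5, f6, f7, f8, f9, f10, f11, f12⟩ := h.f2 hT hT1
  have hn := h.env.n0
  have hy := h.env.y0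
  have hV := h.env.V0
  have hb := h.b0
  have f3' := (abs_le.1 f3).2
  have c8 := log_c 8 (by norm_num)
  have c4 := log_c 4 (by norm_num)
  have c32 := log_c 32 (by norm_num)
  have c48 := log_c 48 (by norm_num)
  have c96 := log_c 96 (by norm_num)
  have c200 := log_c 200 (by norm_num)
  set U := Uq q n y T
  refine ⟨?_, ?_, ?_, ?_, ?_, ?_, ?_⟩
  · refine le_of_log (by positivity) (by positivity) ?_
    simp (disch := positivity) only [Real.log_mul, Real.log_pow, Real.log_div, Real.log_rpow]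
    push_cast
    linarith
  · refine le_of_log (by positivity) (by positivity) ?_
    simp (disch := positivity) only [Real.log_mul, Real.log_pow, Real.log_div, Real.log_rpow]
    push_cast
    linarith
  · refine le_of_log (by positivity) (by positivity) ?_
    simp (disch := positivity) only [Real.log_mul, Real.log_pow, Real.log_div]
    push_cast
    linarith
  · refine le_of_log (by positivity) (by positivity) ?_
    simp (disch := positivity) only [Real.log_mul, Real.log_pow, Real.log_div, Real.log_rpow]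
    push_cast
    linarith
  · refine le_of_log (by positivity) (by positivity) ?_
    simp (disch := positivity) only [Real.log_mul, Real.log_pow, Real.log_div, Real.log_rpow]
    push_cast
    linarith
  · refine le_of_log (by positivity) (by positivity) ?_
    simp (disch := positivity) only [Real.log_mul, Real.log_div, Real.log_rpow]
    linarith
  · refine le_of_log (by positivity) (by positivity) ?_
    simp (disch := positivity) only [Real.log_mul]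
    linarith

/-- the rank number -/
lemma NW.x4 (h : NW a0 b₁ q A b n y V al s lam η) (hT : (n : ℝ) ^ (30 * q) * y ^ 2 / 4 ≤ T)
    (hT1 : T ≤ 1) {X st : ℝ} (hX : X ≤ (n : ℝ) ^ (200 * q) * (Uq q n y T / (V * n)))
    (hst : st ≤ (n : ℝ) ^ (-(10 : ℝ))) :
    4 * b * (√X * √(2 * Uq q n y T ^ 2 + 2 * st)) ≤ V := by
  obtain ⟨f1, f2, f3, f4, f5, f6, f7, f8, f9, f10, f11, f12⟩ := h.f2 hT hT1
  have hn := h.env.n0
  have hy := h.env.y0
  have hV := h.env.V0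
  have hb := h.b0
  have f3' := (abs_le.1 f3).2
  set U := Uq q n y T
  have h1 : (n : ℝ) ^ (-(10 : ℝ)) ≤ U ^ 2 := by
    refine le_of_log (by positivity) (by positivity) ?_
    simp (disch := positivity) only [Real.log_pow, Real.log_rpow]
    push_cast
    linarith
  have h2 : √(2 * U ^ 2 + 2 * st) ≤ 2 * U := by
    have e : 2 * U = √((2 * U) ^ 2) := (Real.sqrt_sq (by positivity)).symm
    rw [e]
    refine Real.sqrt_le_sqrt ?_
    have : (2 * U) ^ 2 = 2 * U ^ 2 + 2 * U ^ 2 := by ring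
    rw [this]
    linarith
  have h3 : √X ≤ √((n : ℝ) ^ (200 * q) * (U / (V * n))) := Real.sqrt_le_sqrt hX
  have h4 : √X * √(2 * U ^ 2 + 2 * st) ≤ √((n : ℝ) ^ (200 * q) * (U / (V * n))) * (2 * U) :=
    mul_le_mul h3 h2 (Real.sqrt_nonneg _) (Real.sqrt_nonneg _)
  have h5 := mul_le_mul_of_nonneg_left h4 (show 0 ≤ 4 * b by positivity)
  refine h5.trans ?_
  have c4 := log_c 4 (by norm_num)
  have c2 := log_c 2 (by norm_num)
  refine le_of_log (by positivity) hV ?_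
  simp (disch := positivity) only [Real.log_mul, Real.log_div, Real.log_rpow,
    Real.log_sqrt]
  linarith

/-- the last term -/
lemma NW.v4 (h : NW a0 b₁ q A b n y V al s lam η) (hT : (n : ℝ) ^ (30 * q) * y ^ 2 / 4 ≤ T)
    (hT1 : T ≤ 1) :
    8 / b ^ 2 * η ≤ 1 / 3 ∧ 4 / b * ((n : ℝ) ^ (-(3800 * q)) * y ^ 2) ≤ 1 / 3 ∧
      8 / b * (n : ℝ) ^ (q - 10) ≤ 1 / 3 := by
  obtain ⟨f1, f2, f3, f4, f5, f6, f7, f8, f9, f10, f11, f12⟩ := h.f2 hT hT1
  have hn := h.env.n0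
  have hy := h.env.y0
  have hb := h.b0
  have hη := h.kw.η0
  have f3' := (abs_le.1 f3).1
  have c3 := log_c 3 (by norm_num)
  have c4 := log_c 4 (by norm_num)
  have c8 := log_c 8 (by norm_num)
  refine ⟨?_, ?_, ?_⟩
  · refine le_of_log (by positivity) (by positivity) ?_
    simp (disch := positivity) only [Real.log_mul, Real.log_pow, Real.log_div, Real.log_one]
    push_cast
    linarith
  · refine le_of_log (by positivity) (by positivity) ?_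
    simp (disch := positivity) only [Real.log_mul, Real.log_pow, Real.log_div, Real.log_rpow,
      Real.log_one]
    push_cast
    linarith
  · refine le_of_log (by positivity) (by positivity) ?_
    simp (disch := positivity) only [Real.log_mul, Real.log_div, Real.log_rpow, Real.log_one]
    linarith

/-! ### pure inequalities -/

lemma qB_pure {b T η U sc gg g1 R st E5 rr N p V : ℝ} (hb : 0 < b) (hT0 : 0 ≤ T) (hT1 : T ≤ 1)
    (hU0 : 0 < U) (hU1 : U ≤ 1) (hsc0 : 0 < sc) (hgg0 : 0 ≤ gg) (hgg : gg ≤ g1) (hR0 : 0 ≤ R)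
    (hRst : R * √st ≤ 2 * E5) (hRp : R * √p ≤ 2 * E5) (hE : 0 ≤ E5) (hrr0 : 0 ≤ rr)
    (hrr : rr ≤ 4 / V) (hV : 0 < V) (hN : 0 < N) (m7 : 4 ≤ V * N) (hη2 : (1 + η) ^ 2 ≤ 9 / 8)
    (s1 : 100 * b ^ 2 * (U / sc) ≤ V) (m1 : 48 * b ^ 2 * g1 ^ 2 ≤ V / 8)
    (m2 : 200 * b ^ 2 * E5 ^ 2 ≤ V / 8) (m3 : 96 * b ^ 2 * (U / (V * N)) ≤ V / 8)
    (m4 : 48 * b ^ 2 * E5 ≤ V / 8) :
    b ^ 2 * (1 - T) * (16 * (1 + η) ^ 2 * U / sc + 2 * (2 * (gg * √U + R * √st) ^ 2 +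
      2 * (rr / N) * U + 2 * √(rr / N) * (R * √p))) ≤ V / 2 := by
  have hb2 : 0 < b ^ 2 := by positivity
  have ht1 : 1 - T ≤ 1 := by linarith
  have ht0 : 0 ≤ 1 - T := by linarith
  have hg10 : 0 ≤ g1 := hgg0.trans hgg
  have hsU1 : √U ≤ 1 := by
    rw [← Real.sqrt_one]
    exact Real.sqrt_le_sqrt hU1
  have z0 : 16 * (1 + η) ^ 2 * U / sc ≤ 18 * (U / sc) := by
    rw [← mul_div_assoc]
    refine div_le_div_of_nonneg_right ?_ hsc0.le
    have := mul_le_mul_of_nonneg_right hη2 hU0.le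
    linarith
  have z1 : (gg * √U + R * √st) ^ 2 ≤ 2 * g1 ^ 2 + 8 * E5 ^ 2 := by
    have a1 : gg * √U ≤ g1 * 1 := mul_le_mul hgg hsU1 (Real.sqrt_nonneg _) hg10
    have a2 : 0 ≤ gg * √U := by positivity
    have a3 : 0 ≤ R * √st := by positivity
    have a4 : (gg * √U + R * √st) ^ 2 ≤ (g1 + 2 * E5) ^ 2 :=
      pow_le_pow_left₀ (by positivity) (by linarith) 2
    nlinarith [sq_nonneg (g1 - 2 * E5)]
  have z2 : rr / N ≤ 4 / (V * N) := by
    rw [← div_div]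
    exact div_le_div_of_nonneg_right hrr hN.le
  have z3 : √(rr / N) ≤ 1 := by
    rw [← Real.sqrt_one]
    refine Real.sqrt_le_sqrt (z2.trans ?_)
    rwa [div_le_one (by positivity)]
  have z4 : 2 * (rr / N) * U ≤ 8 * (U / (V * N)) := by
    have := mul_le_mul_of_nonneg_right z2 hU0.le
    have e : 4 / (V * N) * U = 4 * (U / (V * N)) := by ring
    rw [e] at this
    linarith
  have z5 : 2 * √(rr / N) * (R * √p) ≤ 4 * E5 := by
    have : √(rr / N) * (R * √p) ≤ 1 * (2 * E5) :=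
      mul_le_mul z3 hRp (by positivity) zero_le_one
    linarith
  have z6 : 0 ≤ 16 * (1 + η) ^ 2 * U / sc + 2 * (2 * (gg * √U + R * √st) ^ 2 +
      2 * (rr / N) * U + 2 * √(rr / N) * (R * √p)) := by positivity
  have z7 : 16 * (1 + η) ^ 2 * U / sc + 2 * (2 * (gg * √U + R * √st) ^ 2 + 2 * (rr / N) * U +
      2 * √(rr / N) * (R * √p)) ≤
      18 * (U / sc) + 8 * g1 ^ 2 + 32 * E5 ^ 2 + 16 * (U / (V * N)) + 8 * E5 := by
    linarith
  have z8 : b ^ 2 * (1 - T) ≤ b ^ 2 := mul_le_of_le_one_right hb2.le ht1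
  have w0 : 0 ≤ b ^ 2 * (U / sc) := by positivity
  have w1 : 0 ≤ b ^ 2 * g1 ^ 2 := by positivity
  have w2 : 0 ≤ b ^ 2 * E5 ^ 2 := by positivity
  have w3 : 0 ≤ b ^ 2 * (U / (V * N)) := by positivity
  have w4 : 0 ≤ b ^ 2 * E5 := by positivity
  calc _ ≤ b ^ 2 * (18 * (U / sc) + 8 * g1 ^ 2 + 32 * E5 ^ 2 + 16 * (U / (V * N)) + 8 * E5) :=
        mul_le_mul z8 z7 z6 hb2.le
    _ ≤ V / 2 := by linarith

lemma qC_pure {b T η U sc gg g1 R st E5 kp Q V : ℝ} (hb : 0 < b) (hT1 : T ≤ 1) (hT0 : 0 ≤ T)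
    (hU0 : 0 < U) (hU1 : U ≤ 1) (hsc0 : 0 < sc) (hgg0 : 0 ≤ gg) (hgg : gg ≤ g1) (hR0 : 0 ≤ R)
    (hRst : R * √st ≤ 2 * E5) (hE : 0 ≤ E5) (hη2 : (1 + η) ^ 2 ≤ 9 / 8) (_hkp0 : 0 ≤ kp)
    (hkb : kp * b ^ 2 ≤ 2 * b) (hQ : Q ≤ 3 * U) (s2 : 24 * b * (U / √sc) ≤ V / 4)
    (m5 : 8 * b * (g1 * U) ≤ V / 4) (m6 : 32 * b * E5 ≤ V / 4) :
    kp * (b ^ 2 * (1 - T)) * ((√(8 * (1 + η) ^ 2 * U / sc) + gg * √U + R * √st) * √Q) ≤
      3 * V / 4 := by
  have hg10 : 0 ≤ g1 := hgg0.trans hgg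
  have ht1 : 1 - T ≤ 1 := by linarith
  have ht0 : 0 ≤ 1 - T := by linarith
  have hsU : √U * √U = U := Real.mul_self_sqrt hU0.le
  have hsU1 : √U ≤ 1 := by
    rw [← Real.sqrt_one]
    exact Real.sqrt_le_sqrt hU1
  have C1 : kp * (b ^ 2 * (1 - T)) ≤ 2 * b := by
    have : kp * b ^ 2 * (1 - T) ≤ 2 * b * 1 := mul_le_mul hkb ht1 ht0 (by positivity)
    linarith
  have hsQ : √Q ≤ 2 * √U := by
    have e : 2 * √U = √(4 * U) := by
      rw [Real.sqrt_mul (by norm_num), show (4 : ℝ) = 2 ^ 2 by norm_num,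
        Real.sqrt_sq (by norm_num)]
    rw [e]
    exact Real.sqrt_le_sqrt (by linarith)
  have hs8 : √(8 * (1 + η) ^ 2 * U / sc) ≤ 3 * √U / √sc := by
    have e : 3 * √U / √sc = √(9 * U / sc) := by
      rw [Real.sqrt_div (by positivity), Real.sqrt_mul (by norm_num),
        show (9 : ℝ) = 3 ^ 2 by norm_num, Real.sqrt_sq (by norm_num)]
    rw [e]
    refine Real.sqrt_le_sqrt (div_le_div_of_nonneg_right ?_ hsc0.le)
    have := mul_le_mul_of_nonneg_right hη2 hU0.le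
    linarith
  have z1 : (√(8 * (1 + η) ^ 2 * U / sc) + gg * √U + R * √st) * √Q ≤
      (3 * √U / √sc + g1 * √U + 2 * E5) * (2 * √U) := by
    refine mul_le_mul ?_ hsQ (Real.sqrt_nonneg _) (by positivity)
    have a1 : gg * √U ≤ g1 * √U := mul_le_mul_of_nonneg_right hgg (Real.sqrt_nonneg _)
    linarith
  have z2 : (3 * √U / √sc + g1 * √U + 2 * E5) * (2 * √U) =
      6 * (√U * √U / √sc) + 2 * (g1 * (√U * √U)) + 4 * E5 * √U := by ring
  rw [z2, hsU] at z1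
  have z3 : 4 * E5 * √U ≤ 4 * E5 := mul_le_of_le_one_right (by positivity) hsU1
  have z5 : 0 ≤ (√(8 * (1 + η) ^ 2 * U / sc) + gg * √U + R * √st) * √Q := by positivity
  have w1 : 0 ≤ b * (U / √sc) := by positivity
  have w2 : 0 ≤ b * (g1 * U) := by positivity
  have w3 : 0 ≤ b * E5 := by positivity
  calc _ ≤ 2 * b * (6 * (U / √sc) + 2 * (g1 * U) + 4 * E5) :=
        mul_le_mul C1 (by linarith) z5 (by positivity)
    _ = 12 * (b * (U / √sc)) + 4 * (b * (g1 * U)) + 8 * (b * E5) := by ring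
    _ ≤ 3 * V / 4 := by linarith

lemma qD_pure {b η gg g1 R st E kp v V : ℝ} (hb : 0 < b) (hgg0 : 0 ≤ gg) (hgg : gg ≤ g1)
    (hR0 : 0 ≤ R) (hst0 : 0 ≤ st) (hRst : R * st ≤ 2 * E) (_hE : 0 ≤ E) (hη : 0 ≤ η)
    (hkp0 : 0 ≤ kp) (hkp2 : kp ≤ 2 / b) (hv0 : 0 ≤ v) (hv : v ≤ V) (v1 : 8 / b ^ 2 * η ≤ 1 / 3)
    (v2 : 4 / b * g1 ≤ 1 / 3) (v3 : 8 / b * E ≤ 1 / 3) :
    kp * (v * (kp * η + gg + R * st)) ≤ V / 2 := by
  have hg10 : 0 ≤ g1 := hgg0.trans hgg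
  have hV : 0 ≤ V := hv0.trans hv
  have a0 : kp * η ≤ 2 / b * η := mul_le_mul_of_nonneg_right hkp2 hη
  have a1 : 0 ≤ kp * η + gg + R * st := by positivity
  have z1 : kp * (kp * η + gg + R * st) ≤ 1 / 2 := by
    calc kp * (kp * η + gg + R * st) ≤ 2 / b * (2 / b * η + g1 + 2 * E) :=
          mul_le_mul hkp2 (by linarith) a1 (by positivity)
      _ = (8 / b ^ 2 * η + 4 / b * g1 + 8 / b * E) / 2 := by
          field_simp
          ring
      _ ≤ 1 / 2 := by linarith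
  calc kp * (v * (kp * η + gg + R * st)) = v * (kp * (kp * η + gg + R * st)) := by ring
    _ ≤ V * (1 / 2) := mul_le_mul hv z1 (by positivity) hV
    _ = V / 2 := by ring

/-- the sum of the blocks -/
lemma qS_pure {M Q D1 wF NL B C2 C3 C4 V T b G : ℝ} (hV : 0 ≤ V) (hmass : T / 2 ≤ M)
    (hQ0 : 0 ≤ Q) (key : M * Q ≤ D1 + 240 * wF + NL + 6 * B + 2 * (C2 + C3) + 2 * C4)
    (hD : D1 ≤ 4 / b ^ 2 * V) (hw : wF ≤ 3 * V) (hNL : NL ≤ V) (hB : B ≤ V / 2)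
    (hC2 : C2 ≤ 3 * V / 4) (hC3 : C3 ≤ V / 2) (hC4 : C4 ≤ V / 2)
    (hG : 8 / b ^ 2 + 1460 ≤ G) : T * Q ≤ G * V := by
  have z1 := mul_le_mul_of_nonneg_right hmass hQ0
  have z2 := mul_le_mul_of_nonneg_right hG hV
  have e : (8 / b ^ 2 + 1460) * V = 2 * (4 / b ^ 2 * V) + 1460 * V := by ring
  rw [e] at z2
  linarith

/-! ### the scalar half -/

lemma NW.g4 (h : NW a0 b₁ q A b n y V al s lam η) :
    8 / b ^ 2 + 1460 ≤ (n : ℝ) ^ (q / 4) := by
  obtain ⟨f1, f2, f3, f4, f5, f6, f7, f8, f9, f10, f11, f12, f13, f14⟩ := h.facts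
  have hn := h.env.n0
  have hb := h.b0
  have c16 := log_c 16 (by norm_num)
  have c4 := log_ten 4 (c := 2920) (by norm_num) (by norm_num)
  push_cast at c4
  have w1 : 16 / b ^ 2 ≤ (n : ℝ) ^ (q / 4) := by
    refine le_of_log (by positivity) (by positivity) ?_
    simp (disch := positivity) only [Real.log_div, Real.log_pow, Real.log_rpow]
    push_cast
    linarith
  have w2 : 2920 ≤ (n : ℝ) ^ (q / 4) := by
    refine le_of_log (by positivity) (by positivity) ?_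
    rw [Real.log_rpow hn]
    linarith
  have e : 16 / b ^ 2 = 2 * (8 / b ^ 2) := by ring
  linarith

lemma sqrt_ten (n : ℕ) : √((n : ℝ) ^ (-(10 : ℝ))) = (n : ℝ) ^ (-(5 : ℝ)) := by
  rw [Real.sqrt_eq_rpow, ← Real.rpow_mul (Nat.cast_nonneg n)]
  norm_num

/-- the tail numbers -/
lemma tl4 {q R st : ℝ} {n : ℕ} (hn : (0 : ℝ) < n) (_hR0 : 0 ≤ R) (hR1 : R ≤ 2 * (n : ℝ) ^ q)
    (hst : st ≤ (n : ℝ) ^ (-(10 : ℝ))) : R * √st ≤ 2 * (n : ℝ) ^ (q - 5) ∧
      (0 ≤ st → R * st ≤ 2 * (n : ℝ) ^ (q - 10)) := by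
  have h5 : √st ≤ (n : ℝ) ^ (-(5 : ℝ)) := sqrt_ten n ▸ Real.sqrt_le_sqrt hst
  refine ⟨?_, fun h0 => ?_⟩
  · calc R * √st ≤ 2 * (n : ℝ) ^ q * (n : ℝ) ^ (-(5 : ℝ)) :=
          mul_le_mul hR1 h5 (Real.sqrt_nonneg _) (by positivity)
      _ = 2 * ((n : ℝ) ^ q * (n : ℝ) ^ (-(5 : ℝ))) := by ring
      _ = _ := by
          rw [← Real.rpow_add hn]
          rfl
  · calc R * st ≤ 2 * (n : ℝ) ^ q * (n : ℝ) ^ (-(10 : ℝ)) :=
          mul_le_mul hR1 hst h0 (by positivity)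
      _ = 2 * ((n : ℝ) ^ q * (n : ℝ) ^ (-(10 : ℝ))) := by ring
      _ = _ := by
          rw [← Real.rpow_add hn]
          rfl

/-- **The scalar half**: the inequality `H118.reg2_c` at a point of the window. -/
theorem qrow_pure (h : NW a0 b₁ q A b n y V al s lam η)
    (hT : (n : ℝ) ^ (30 * q) * y ^ 2 / 4 ≤ T) (hT1 : T ≤ 1) {kp r0 nS sc wF v X st p rr gg Q : ℝ}
    (hkp : b * kp = 1 + al) (hnS0 : 0 < nS) (hnS : nS ≤ n)
    (hsc : (n : ℝ) ^ (1 - 110 * q) * y ^ 2 / 8 ≤ sc) (hr0 : |r0| + 1 ≤ (n : ℝ) ^ q)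
    (hw0 : 0 ≤ wF) (hw : wF ≤ 3 * V) (hv0 : 0 ≤ v) (hv : v ≤ V)
    (hX : X ≤ (n : ℝ) ^ (200 * q) * (Uq q n y T / (V * n)))
    (hst0 : 0 ≤ st) (hst : st ≤ (n : ℝ) ^ (-(10 : ℝ))) (hp : p ≤ (n : ℝ) ^ (-(10 : ℝ)))
    (hrr0 : 0 ≤ rr) (hrr : rr ≤ 4 / V) (hgg0 : 0 ≤ gg)
    (hgg : gg ≤ (n : ℝ) ^ (-(3800 * q)) * y ^ 2) (hQ0 : 0 ≤ Q) (hQ : Q ≤ 3 * Uq q n y T)
    (key : (n / nS - (b * kp) ^ 2 * (1 - T)) * Q ≤ kp ^ 2 * v + 240 * wF +
      6000000 * (1 + η) ^ 2 * (Uq q n y T * (2 * b ^ 4 * (1 - T) ^ 2 * Uq q n y T ^ 2 +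
        2 * wF ^ 2) + (8 * b ^ 8 * (1 - T) ^ 4 * Uq q n y T ^ 4 + 8 * wF ^ 4) / Uq q n y T) +
      6 * (b ^ 2 * (1 - T) * (16 * (1 + η) ^ 2 * Uq q n y T / sc +
        2 * (2 * (gg * √(Uq q n y T) + (|r0| + 1) * (1 + η) * √st) ^ 2 +
          2 * (rr / n) * Uq q n y T + 2 * √(rr / n) * ((|r0| + 1) * (1 + η) * √p)))) +
      2 * kp * (b ^ 2 * (1 - T) * ((√(8 * (1 + η) ^ 2 * Uq q n y T / sc) +
        gg * √(Uq q n y T) + (|r0| + 1) * (1 + η) * √st) * √Q +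
        √X * √(2 * Uq q n y T ^ 2 + 2 * st)) +
      v * (kp * η + gg + (|r0| + 1) * (1 + η) * st))) :
    Q ≤ (n : ℝ) ^ (q / 4) * (V / T) := by
  have hmass := h.mass4 hT hT1 (r := n / nS) (by rwa [le_div_iff₀ hnS0, one_mul])
  have hNL := h.nl4 hT hT1 hw0 hw
  obtain ⟨hsc0, s1, s2⟩ := h.sc4 hT hT1 hsc
  obtain ⟨m1, m2, m3, m4, m5, m6, m7⟩ := h.sm4 hT hT1
  have hX4 := h.x4 hT hT1 hX hst
  obtain ⟨v1, v2, v3⟩ := h.v4 hT hT1
  obtain ⟨k1, k2, k3, k4, k5, k6, k7, k8⟩ := h.bd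
  obtain ⟨hT0, t1⟩ := logT4 h hT
  obtain ⟨f1, f2, f3, f4, f5, f6, f7, f8, f9, f10, f11, f12⟩ := h.f2 hT hT1
  have hG := h.g4
  have hn := h.env.n0
  have hy := h.env.y0
  have hV := h.env.V0
  have hb := h.b0
  have hη := h.kw.η0
  have hal := abs_le.1 h.al_small
  have hU1 : Uq q n y T ≤ 1 := by
    refine le_of_log f9 one_pos ?_
    rw [Real.log_one]
    linarith
  set U := Uq q n y T with hU
  have hkp0 : 0 < kp := by
    have : 0 < b * kp := by rw [hkp]; linarith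
    exact (mul_pos_iff_of_pos_left hb).1 this
  have hkp2 : kp ≤ 2 / b := by
    rw [le_div_iff₀ hb, mul_comm, hkp]
    linarith
  have hkb : kp * b ^ 2 ≤ 2 * b := by
    calc kp * b ^ 2 ≤ 2 / b * b ^ 2 := mul_le_mul_of_nonneg_right hkp2 (sq_nonneg _)
      _ = 2 * b := by field_simp
  have ht0 : 0 ≤ 1 - T := by linarith
  have hR0 : 0 ≤ (|r0| + 1) * (1 + η) := by positivity
  have hR1 : (|r0| + 1) * (1 + η) ≤ 2 * (n : ℝ) ^ q := by
    have h1 : (|r0| + 1) * (1 + η) ≤ (n : ℝ) ^ q * 2 := mul_le_mul hr0 (by linarith)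
      (by linarith) (by positivity)
    linarith
  set R := (|r0| + 1) * (1 + η) with hR
  obtain ⟨r1, r2⟩ := tl4 hn hR0 hR1 hst
  have r3 := (tl4 hn hR0 hR1 hp).1
  have r2' := r2 hst0
  have hE10 : ((n : ℝ) ^ (q - 5)) ^ 2 = (n : ℝ) ^ (2 * q - 10) := by
    rw [← Real.rpow_natCast, ← Real.rpow_mul hn.le]
    congr 1
    push_cast
    ring
  have hE5 : 0 ≤ (n : ℝ) ^ (q - 5) := (Real.rpow_pos_of_pos hn _).le
  have hE2 : 0 ≤ (n : ℝ) ^ (q - 10) := (Real.rpow_pos_of_pos hn _).le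
  have hη2 : (1 + η) ^ 2 ≤ 9 / 8 := by
    have : (1 + η) ^ 2 ≤ (1 + 1 / 1000) ^ 2 := pow_le_pow_left₀ (by linarith) (by linarith) 2
    linarith
  have B := qB_pure (η := η) hb hT0.le hT1 f9 hU1 hsc0 hgg0 hgg hR0 r1 r3 hE5 hrr0 hrr hV hn m7
    hη2 s1 m1 (by rw [hE10]; exact m2) m3 m4
  have C2 := qC_pure (η := η) hb hT1 hT0.le f9 hU1 hsc0 hgg0 hgg hR0 r1 hE5 hη2 hkp0.le hkb hQ
    s2 m5 m6
  have C4 := qD_pure hb hgg0 hgg hR0 hst0 r2' hE2 hη.le hkp0.le hkp2 hv0 hv v1 v2 v3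
  have C3 : kp * (b ^ 2 * (1 - T)) * (√X * √(2 * U ^ 2 + 2 * st)) ≤ V / 2 := by
    have z1 : 0 ≤ √X * √(2 * U ^ 2 + 2 * st) := by positivity
    have z2 : kp * (b ^ 2 * (1 - T)) ≤ 2 * b := by
      have : kp * b ^ 2 * (1 - T) ≤ 2 * b * 1 :=
        mul_le_mul hkb (by linarith) ht0 (by positivity)
      linarith
    have z3 := mul_le_mul_of_nonneg_right z2 z1
    linarith
  have D1 : kp ^ 2 * v ≤ 4 / b ^ 2 * V := by
    have z1 : kp ^ 2 ≤ (2 / b) ^ 2 := pow_le_pow_left₀ hkp0.le hkp2 2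
    calc kp ^ 2 * v ≤ (2 / b) ^ 2 * V := mul_le_mul z1 hv hv0 (sq_nonneg _)
      _ = 4 / b ^ 2 * V := by ring
  rw [hkp] at key
  have e2 : 2 * kp * (b ^ 2 * (1 - T) * ((√(8 * (1 + η) ^ 2 * U / sc) +
      gg * √U + R * √st) * √Q + √X * √(2 * U ^ 2 + 2 * st)) +
      v * (kp * η + gg + R * st)) = 2 * (kp * (b ^ 2 * (1 - T)) *
        ((√(8 * (1 + η) ^ 2 * U / sc) + gg * √U + R * √st) * √Q) +
      kp * (b ^ 2 * (1 - T)) * (√X * √(2 * U ^ 2 + 2 * st))) +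
      2 * (kp * (v * (kp * η + gg + R * st))) := by ring
  rw [e2, ← add_assoc] at key
  have h9 := qS_pure hV.le hmass hQ0 key D1 hw hNL B C2 C3 C4 hG
  rw [← mul_div_assoc, le_div_iff₀ hT0]
  linarith

end qrow

end Vale.Agent.P146.H615
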