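import Vale.Agent.P146.H615.QPure
import Vale.Agent.P146.H118.Reg2V

/-!
# P146: the scalar half of the second regime in `U`, in the letters of `H118.reg2_c`
-/

open MeasureTheory ProbabilityTheory Filter Set

namespace Vale.Agent.P146.H615

open Vale.Agent.P146.H317 Vale.Agent.P146.H529 Vale.Agent.P146.H470 Vale.Agent.P146.H418

/-- **The overlap in the second regime from `H118.reg2_c`** at the sizes `cc = cS = B = δ = U`,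
`cI = U²`, `m4 = U⁴`, `U = Uq q n y T`. -/
theorem qrow_c {a0 b₁ q A b : ℝ} {n : ℕ} {y V al s lam η T : ℝ}
    (h : NW a0 b₁ q A b n y V al s lam η)
    (hT : (n : ℝ) ^ (30 * q) * y ^ 2 / 4 ≤ T) (hT1 : T ≤ 1)
    {kp r0 nS sc wF v X st p rr gg Q : ℝ}
    (hkp : b * kp = 1 + al) (hnS0 : 0 < nS) (hnS : nS ≤ n)
    (hsc : (n : ℝ) ^ (1 - 110 * q) * y ^ 2 / 8 ≤ sc) (hr0 : |r0| + 1 ≤ (n : ℝ) ^ q)
    (hw0 : 0 ≤ wF) (hw : wF ≤ 3 * V) (hv0 : 0 ≤ v) (hv : v ≤ V)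
    (hX : X ≤ (n : ℝ) ^ (200 * q) * (Uq q n y T / (V * n)))
    (hst0 : 0 ≤ st) (hst : st ≤ (n : ℝ) ^ (-(10 : ℝ))) (hp : p ≤ (n : ℝ) ^ (-(10 : ℝ)))
    (hrr0 : 0 ≤ rr) (hrr : rr ≤ 4 / V) (hgg0 : 0 ≤ gg)
    (hgg : gg ≤ (n : ℝ) ^ (-(3800 * q)) * y ^ 2) (hQ0 : 0 ≤ Q) (hQ : Q ≤ 3 * Uq q n y T)
    (key : (n / nS - (b * kp) ^ 2 * (1 - T)) * Q ≤ kp ^ 2 * v + 240 * wF +
      H281.C3.NLc b (1 - T) wF η (Uq q n y T) (Uq q n y T ^ 2) (Uq q n y T ^ 4) +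
      6 * (b ^ 2 * (1 - T) * (16 * (1 + η) ^ 2 * Uq q n y T / sc +
        2 * H118.pvN n η r0 gg rr (Uq q n y T) (Uq q n y T) st p)) +
      2 * kp * (b ^ 2 * (1 - T) * ((√(8 * (1 + η) ^ 2 * Uq q n y T / sc) +
        gg * √(Uq q n y T) + (|r0| + 1) * (1 + η) * √st) * √Q +
        √X * √(2 * Uq q n y T ^ 2 + 2 * st)) +
      v * (kp * η + gg + (|r0| + 1) * (1 + η) * st))) :
    Q ≤ (n : ℝ) ^ (q / 4) * (V / T) := by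
  unfold H281.C3.NLc H118.pvN at key
  exact qrow_pure h hT hT1 hkp hnS0 hnS hsc hr0 hw0 hw hv0 hv hX hst0 hst hp hrr0 hrr hgg0 hgg
    hQ0 hQ key

end Vale.Agent.P146.H615
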